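import Vale.Agent.P092.H820.Cpv

/-!
P092, TEAM C, block [C-PN] (helper820).
The topology of the projective space `ℙ k (ι → k)` over a local field: open quotient of the
nonzero vectors, compact, Hausdorff, totally disconnected if `k` is nonarchimedean, with a jointly
continuous action of `SL`, `GL`; the incidence relation of points and lines in the plane.
-/

namespace Vale.Agent.P092.H820

open TopologicalSpace Projectivization Topology
open scoped LinearAlgebra.Projectivization Matrix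

section Basic

variable {k : Type*} [Field k] [TopologicalSpace k] {ι : Type*}

instance topP : TopologicalSpace (ℙ k (ι → k)) :=
  inferInstanceAs (TopologicalSpace (Quotient (projectivizationSetoid k (ι → k))))

variable (k ι) in
/-- The projection from nonzero vectors. -/
def pj (v : {v : ι → k // v ≠ 0}) : ℙ k (ι → k) := Projectivization.mk' k v

lemma pj_surj : Function.Surjective (pj k ι) := Quotient.mk_surjective

lemma pj_continuous : Continuous (pj k ι) := continuous_quot_mk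

lemma pj_eq (v w : {v : ι → k // v ≠ 0}) : pj k ι v = pj k ι w ↔ ∃ c : kˣ, c • w.1 = v.1 :=
  Projectivization.mk_eq_mk_iff k v.1 w.1 v.2 w.2

lemma pj_open [IsTopologicalRing k] : IsOpenMap (pj k ι) := by
  intro U hU
  have hq : IsQuotientMap (pj k ι) := isQuotientMap_quot_mk
  rw [← hq.isOpen_preimage]
  have : pj k ι ⁻¹' (pj k ι '' U) = ⋃ c : kˣ,
      (fun v : {v : ι → k // v ≠ 0} => (⟨c • v.1, (smul_ne_zero_iff_ne c).2 v.2⟩ :
        {v : ι → k // v ≠ 0})) ⁻¹' U := by
    ext v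
    simp only [Set.mem_preimage, Set.mem_image, Set.mem_iUnion]
    constructor
    · rintro ⟨u, hu, he⟩
      obtain ⟨c, hc⟩ := (pj_eq u v).1 he
      refine ⟨c, ?_⟩
      have e : (⟨c • v.1, (smul_ne_zero_iff_ne c).2 v.2⟩ : {v : ι → k // v ≠ 0}) = u :=
        Subtype.ext hc
      rw [e]
      exact hu
    · rintro ⟨c, hc⟩
      exact ⟨_, hc, (pj_eq _ _).2 ⟨c, rfl⟩⟩
  rw [this]
  refine isOpen_iUnion fun c => hU.preimage ?_
  refine Continuous.subtype_mk ?_ _
  exact (continuous_const_smul (c : k)).comp continuous_subtype_val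

lemma pj_oq [IsTopologicalRing k] : IsOpenQuotientMap (pj k ι) :=
  ⟨pj_surj, pj_continuous, pj_open⟩

/-- the coordinates of `v ∧ w` -/
def wd (v w : ι → k) : ι × ι → k := fun p => v p.1 * w p.2 - v p.2 * w p.1

lemma wd_self (v : ι → k) : wd v v = 0 := by
  ext p; simp [wd, mul_comm]

lemma pj_eq_iff (v w : {v : ι → k // v ≠ 0}) : pj k ι v = pj k ι w ↔ wd v.1 w.1 = 0 := by
  rw [pj_eq]
  constructor
  · rintro ⟨c, hc⟩
    rw [← hc]
    ext p
    simp only [wd, Pi.smul_apply, Pi.zero_apply, Units.smul_def, smul_eq_mul]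
    ring
  · intro h
    obtain ⟨i, hi⟩ : ∃ i, v.1 i ≠ 0 := by
      by_contra hc
      push Not at hc
      exact v.2 (funext hc)
    have h1 : ∀ j, v.1 i * w.1 j = v.1 j * w.1 i := fun j => by
      have := congrFun h (i, j)
      simpa [wd, sub_eq_zero] using this
    have hw : w.1 i ≠ 0 := by
      intro h0
      apply w.2
      funext j
      have := h1 j
      rw [h0, mul_zero] at this
      rcases mul_eq_zero.1 this with h | h
      · exact absurd h hi
      · exact h
    refine ⟨Units.mk0 (v.1 i / w.1 i) (div_ne_zero hi hw), ?_⟩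
    funext j
    simp only [Pi.smul_apply, Units.smul_def, smul_eq_mul, Units.val_mk0]
    rw [div_mul_eq_mul_div, div_eq_iff hw, h1 j]

lemma wd_continuous [IsTopologicalRing k] :
    Continuous fun p : (ι → k) × (ι → k) => wd p.1 p.2 := by
  unfold wd
  fun_prop

instance t2P [IsTopologicalRing k] [T2Space k] : T2Space (ℙ k (ι → k)) := by
  rw [t2Space_iff_of_isOpenQuotientMap (pj_oq (k := k) (ι := ι))]
  have : {q : {v : ι → k // v ≠ 0} × {v : ι → k // v ≠ 0} | pj k ι q.1 = pj k ι q.2} =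
      (fun q : {v : ι → k // v ≠ 0} × {v : ι → k // v ≠ 0} => wd q.1.1 q.2.1) ⁻¹' {0} := by
    ext q
    simp only [Set.mem_ofPred_eq, Set.mem_preimage, Set.mem_singleton_iff, pj_eq_iff]
  rw [this]
  refine isClosed_singleton.preimage ?_
  exact wd_continuous.comp (Continuous.prodMk (continuous_subtype_val.comp continuous_fst)
    (continuous_subtype_val.comp continuous_snd))

end Basic

section Cpt

variable {k : Type*} [NormedField k] [ProperSpace k] {ι : Type*} [Fintype ι]

instance cptP : CompactSpace (ℙ k (ι → k)) := by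
  have hS : IsCompact (Metric.sphere (0 : ι → k) 1) := isCompact_sphere _ _
  let f : Metric.sphere (0 : ι → k) 1 → ℙ k (ι → k) := fun v => pj k ι ⟨v.1, by
    intro h
    have := v.2
    rw [h] at this
    simp at this⟩
  have hf : Continuous f := pj_continuous.comp (Continuous.subtype_mk continuous_subtype_val _)
  have hsurj : Function.Surjective f := by
    intro x
    obtain ⟨v, rfl⟩ := pj_surj x
    obtain ⟨i0, hi0⟩ : ∃ i, v.1 i ≠ 0 := by
      by_contra hc
      push Not at hc
      exact v.2 (funext hc)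
    have : Nonempty ι := ⟨i0⟩
    obtain ⟨i, hi⟩ := Finite.exists_max fun i => ‖v.1 i‖
    have hvi : v.1 i ≠ 0 := by
      intro h
      have := hi i0
      rw [h, norm_zero] at this
      exact hi0 (norm_eq_zero.1 (le_antisymm this (norm_nonneg _)))
    have hn : ‖v.1‖ = ‖v.1 i‖ := le_antisymm ((pi_norm_le_iff_of_nonneg (norm_nonneg _)).2 hi)
      (norm_le_pi_norm v.1 i)
    refine ⟨⟨(v.1 i)⁻¹ • v.1, ?_⟩, ?_⟩
    · rw [mem_sphere_zero_iff_norm, norm_smul, norm_inv, hn, inv_mul_cancel₀]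
      exact norm_ne_zero_iff.2 hvi
    · exact (pj_eq _ _).2 ⟨Units.mk0 (v.1 i)⁻¹ (inv_ne_zero hvi), rfl⟩
  have : CompactSpace (Metric.sphere (0 : ι → k) 1) := isCompact_iff_compactSpace.1 hS
  refine ⟨?_⟩
  rw [← Set.range_eq_univ.2 hsurj]
  exact isCompact_range hf

end Cpt

section TD

variable {k : Type*} [NormedField k] [IsUltrametricDist k] {ι : Type*} [Fintype ι]

/-- the clopen ball of radius `r` about `v` -/
lemma ball_clopen (v : ι → k) {r : ℝ} (hr : 0 < r) :
    IsClopen {w : {v : ι → k // v ≠ 0} | ‖wd v w.1‖ ≤ r * ‖w.1‖} := by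
  have hc1 : Continuous fun w : {v : ι → k // v ≠ 0} => wd v w.1 :=
    wd_continuous.comp (Continuous.prodMk continuous_const continuous_subtype_val)
  refine ⟨isClosed_le hc1.norm (continuous_const.mul continuous_subtype_val.norm), ?_⟩
  rw [isOpen_iff_mem_nhds]
  intro w hw
  have hw0 : 0 < ‖w.1‖ := norm_pos_iff.2 w.2
  have h1 : ∀ᶠ z : {v : ι → k // v ≠ 0} in nhds w, ‖z.1‖ = ‖w.1‖ := by
    have : (fun z : {v : ι → k // v ≠ 0} => z.1) ⁻¹' (Metric.sphere 0 ‖w.1‖) ∈ nhds w :=
      (IsOpen.preimage continuous_subtype_val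
        (IsUltrametricDist.isOpen_sphere _ hw0.ne')).mem_nhds (by simp)
    filter_upwards [this] with z hz
    simpa using hz
  have h2 : ∀ᶠ z : {v : ι → k // v ≠ 0} in nhds w, ‖wd v z.1‖ ≤ r * ‖w.1‖ := by
    have : (fun z : {v : ι → k // v ≠ 0} => wd v z.1) ⁻¹' (Metric.closedBall 0 (r * ‖w.1‖)) ∈
        nhds w := (IsOpen.preimage hc1
        (IsUltrametricDist.isOpen_closedBall _ (by positivity))).mem_nhds (by simpa using hw)
    filter_upwards [this] with z hz
    simpa using hz
  filter_upwards [h1, h2] with z hz1 hz2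
  simpa [hz1] using hz2

instance tdP : TotallyDisconnectedSpace (ℙ k (ι → k)) := by
  have : TotallySeparatedSpace (ℙ k (ι → k)) := by
    rw [totallySeparatedSpace_iff_exists_isClopen]
    intro x y hxy
    obtain ⟨v, rfl⟩ := pj_surj x
    obtain ⟨w, rfl⟩ := pj_surj y
    have hne : wd v.1 w.1 ≠ 0 := fun h => hxy ((pj_eq_iff v w).2 h)
    have hw0 : 0 < ‖w.1‖ := norm_pos_iff.2 w.2
    have hn0 : 0 < ‖wd v.1 w.1‖ := norm_pos_iff.2 hne
    set r : ℝ := ‖wd v.1 w.1‖ / ‖w.1‖ / 2 with hr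
    have hrpos : 0 < r := by positivity
    let S : Set {v : ι → k // v ≠ 0} := {w | ‖wd v.1 w.1‖ ≤ r * ‖w.1‖}
    have hS : IsClopen S := ball_clopen v.1 hrpos
    have hsat : pj k ι ⁻¹' (pj k ι '' S) = S := by
      apply Set.Subset.antisymm _ (Set.subset_preimage_image _ _)
      rintro a ⟨b, hb, hab⟩
      obtain ⟨c, hc⟩ := (pj_eq b a).1 hab
      have hb' : ‖wd v.1 b.1‖ ≤ r * ‖b.1‖ := hb
      have hc0 : (0 : ℝ) < ‖(c : k)‖ := norm_pos_iff.2 c.ne_zero
      have e1 : wd v.1 b.1 = (c : k) • wd v.1 a.1 := by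
        rw [← hc]; ext p
        simp only [wd, Pi.smul_apply, Units.smul_def, smul_eq_mul]; ring
      have e2 : ‖b.1‖ = ‖(c : k)‖ * ‖a.1‖ := by
        rw [← hc, Units.smul_def, norm_smul]
      rw [e1, norm_smul, e2] at hb'
      have : ‖(c : k)‖ * ‖wd v.1 a.1‖ ≤ ‖(c : k)‖ * (r * ‖a.1‖) := by linarith
      exact le_of_mul_le_mul_left this hc0
    have hq : IsQuotientMap (pj k ι) := pj_oq.isQuotientMap
    refine ⟨pj k ι '' S, ⟨?_, pj_open _ hS.isOpen⟩, ⟨v, ?_, rfl⟩, ?_⟩
    · rw [← hq.isClosed_preimage, hsat]; exact hS.isClosed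
    · change ‖wd v.1 v.1‖ ≤ r * ‖v.1‖
      rw [wd_self, norm_zero]
      positivity
    · rintro ⟨a, ha, hav⟩
      have : w ∈ pj k ι ⁻¹' (pj k ι '' S) := ⟨a, ha, hav⟩
      rw [hsat] at this
      have h3 : ‖wd v.1 w.1‖ ≤ r * ‖w.1‖ := this
      have h4 : r * ‖w.1‖ = ‖wd v.1 w.1‖ / 2 := by
        rw [hr]; field_simp
      linarith
  infer_instance

end TD

section Act

variable {k : Type*} [Field k] [TopologicalSpace k] [IsTopologicalRing k] {ι : Type*}
  {G : Type*} [TopologicalSpace G] [Group G] [DistribMulAction G (ι → k)]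
  [SMulCommClass G k (ι → k)]

/-- Any group acting continuously and linearly on `ι → k` acts continuously on `ℙ`. -/
instance csP [ContinuousSMul G (ι → k)] : ContinuousSMul G (ℙ k (ι → k)) where
  continuous_smul := by
    have hq : IsOpenQuotientMap (Prod.map (id : G → G) (pj k ι)) :=
      IsOpenQuotientMap.id.prodMap pj_oq
    rw [← hq.continuous_comp_iff]
    have : ((fun p : G × ℙ k (ι → k) => p.1 • p.2) ∘ Prod.map id (pj k ι)) =
        (pj k ι) ∘ fun p : G × {v : ι → k // v ≠ 0} =>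
          (⟨p.1 • p.2.1, (smul_ne_zero_iff_ne p.1).2 p.2.2⟩ : {v : ι → k // v ≠ 0}) := by
      funext p
      rfl
    rw [this]
    refine pj_continuous.comp (Continuous.subtype_mk ?_ _)
    exact continuous_fst.smul (continuous_subtype_val.comp continuous_snd)

/-- the homeomorphism given by a group element -/
def hP [ContinuousSMul G (ι → k)] (g : G) : ℙ k (ι → k) ≃ₜ ℙ k (ι → k) where
  toFun x := g • x
  invFun x := g⁻¹ • x
  left_inv x := inv_smul_smul g x
  right_inv x := smul_inv_smul g x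
  continuous_toFun := continuous_const_smul g
  continuous_invFun := continuous_const_smul g⁻¹

end Act

section ActMat

variable {k : Type*} [Field k] [TopologicalSpace k] [IsTopologicalRing k] {ι : Type*}
  [Fintype ι] [DecidableEq ι]

instance csSL : ContinuousSMul (Matrix.SpecialLinearGroup ι k) (ι → k) where
  continuous_smul := by
    have : (fun p : Matrix.SpecialLinearGroup ι k × (ι → k) => p.1 • p.2) =
        fun p => p.1.1 *ᵥ p.2 := rfl
    rw [this]
    exact (continuous_subtype_val.comp continuous_fst).matrix_mulVec continuous_snd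

instance csGL : ContinuousSMul (GL ι k) (ι → k) where
  continuous_smul := by
    have : (fun p : GL ι k × (ι → k) => p.1 • p.2) = fun p => p.1.1 *ᵥ p.2 := rfl
    rw [this]
    exact (Units.continuous_val.comp continuous_fst).matrix_mulVec continuous_snd

end ActMat

section Plane

variable {k : Type*} [NormedField k]

/-- incidence of points and lines in the projective plane, both given by coordinates -/
def inc3 : Set (ℙ k (Fin 3 → k) × ℙ k (Fin 3 → k)) := {p | orthogonal p.1 p.2}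

lemma inc3_closed : IsClosed (inc3 (k := k)) := by
  have hq : IsOpenQuotientMap (Prod.map (pj k (Fin 3)) (pj k (Fin 3))) := pj_oq.prodMap pj_oq
  rw [← hq.isQuotientMap.isClosed_preimage]
  have : Prod.map (pj k (Fin 3)) (pj k (Fin 3)) ⁻¹' inc3 =
      (fun p : {v : Fin 3 → k // v ≠ 0} × {v : Fin 3 → k // v ≠ 0} => p.1.1 ⬝ᵥ p.2.1) ⁻¹' {0} := by
    ext p
    rfl
  rw [this]
  refine isClosed_singleton.preimage ?_
  exact (continuous_subtype_val.comp continuous_fst).dotProduct
    (continuous_subtype_val.comp continuous_snd)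

lemma orthogonal_iff (v w : {v : Fin 3 → k // v ≠ 0}) :
    (pj k (Fin 3) v, pj k (Fin 3) w) ∈ inc3 ↔ v.1 ⬝ᵥ w.1 = 0 := Iff.rfl

/-- two different points are on exactly one line -/
lemma inc3_uniq (a a' c c' : ℙ k (Fin 3 → k)) (hne : a ≠ a') (h1 : (a, c) ∈ inc3)
    (h2 : (a', c) ∈ inc3) (h3 : (a, c') ∈ inc3) (h4 : (a', c') ∈ inc3) : c = c' := by
  classical
  have key : ∀ c : ℙ k (Fin 3 → k), (a, c) ∈ inc3 → (a', c) ∈ inc3 → c = cross a a' := by
    intro c h1 h2
    obtain ⟨v, rfl⟩ := pj_surj a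
    obtain ⟨v', rfl⟩ := pj_surj a'
    obtain ⟨w, rfl⟩ := pj_surj c
    have h1' : v.1 ⬝ᵥ w.1 = 0 := h1
    have h2' : v'.1 ⬝ᵥ w.1 = 0 := h2
    have hc : crossProduct v.1 v'.1 ≠ 0 := fun h =>
      hne ((mk_eq_mk_iff_crossProduct_eq_zero v.2 v'.2).2 h)
    have e : cross (pj k (Fin 3) v) (pj k (Fin 3) v') = mk k (crossProduct v.1 v'.1) hc :=
      cross_mk_of_cross_ne_zero v.2 v'.2 hc
    rw [e]
    refine (mk_eq_mk_iff_crossProduct_eq_zero w.2 hc).2 ?_
    rw [cross_cross_eq_smul_sub_smul', dotProduct_comm w.1 v'.1, h2', h1', zero_smul, zero_smul,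
      sub_zero]
  rw [key c h1 h2, key c' h3 h4]

/-- the dual action: if `g'` is the inverse transpose of `g`, the pair `(g, g')` preserves
incidence -/
lemma inc3_smul (g g' : GL (Fin 3) k) (h : g.1ᵀ * g'.1 = 1) (a c : ℙ k (Fin 3 → k)) :
    (g • a, g' • c) ∈ inc3 ↔ (a, c) ∈ inc3 := by
  obtain ⟨v, rfl⟩ := pj_surj a
  obtain ⟨w, rfl⟩ := pj_surj c
  change (g.1 *ᵥ v.1) ⬝ᵥ (g'.1 *ᵥ w.1) = 0 ↔ v.1 ⬝ᵥ w.1 = 0
  have : (g.1 *ᵥ v.1) ⬝ᵥ (g'.1 *ᵥ w.1) = v.1 ⬝ᵥ w.1 := by
    rw [Matrix.dotProduct_mulVec, ← Matrix.mulVec_transpose, Matrix.mulVec_mulVec,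
      ← Matrix.transpose_transpose (g'.1ᵀ * g.1), Matrix.transpose_mul, Matrix.transpose_transpose,
      h, Matrix.transpose_one, Matrix.one_mulVec]
  rw [this]

end Plane

section Comm

variable {k : Type*} [NormedField k] [ProperSpace k] [IsUltrametricDist k]
  {𝔸 : Type*} [Ring 𝔸] [StarRing 𝔸]

/-- **Incident ⟹ commute** for the projective plane over a nonarchimedean local field. -/
theorem plane_comm {P Q : Clopens (ℙ k (Fin 3 → k)) → 𝔸} (hP : Cpv P) (hQ : Cpv Q)
    (h0 : ∀ A B, (∀ a ∈ A, ∀ b ∈ B, (a, b) ∉ inc3) → P A * Q B = 0)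
    (A B : Clopens (ℙ k (Fin 3 → k))) : P A * Q B = Q B * P A :=
  inc_comm inc3_closed inc3_uniq hP hQ h0 A B

end Comm

end Vale.Agent.P092.H820
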