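import Mathlib

/-!
P092, TEAM C, block [C-INC] (helper820).
Projection valued measures on the clopen subsets of a topological space, as Boolean
homomorphisms `P : Clopens X → 𝔸` into a star ring (for instance `E →L[ℂ] E`), and the
ultrametric lemma incident ⟹ commute: if `X`, `Y` are compact, totally disconnected,
`I ⊆ X × Y` is closed and two different points of `X` are incident to at most one point of `Y`,
then two clopen PVMs `P` on `X` and `Q` on `Y` with `P A * Q B = 0` for all non incident clopen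
`A`, `B` commute.
-/

namespace Vale.Agent.P092.H820

open TopologicalSpace

section Defs

variable {X : Type*} [TopologicalSpace X] {𝔸 : Type*} [Ring 𝔸] [StarRing 𝔸]

/-- `P` is a projection valued, finitely additive measure on the clopen subsets of `X`. -/
structure Cpv (P : Clopens X → 𝔸) : Prop where
  sa : ∀ U, star (P U) = P U
  inf : ∀ U V, P (U ⊓ V) = P U * P V
  compl : ∀ U, P Uᶜ = 1 - P U

namespace Cpv

variable {P : Clopens X → 𝔸} (h : Cpv P)
include h

lemma idem (U : Clopens X) : P U * P U = P U := by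
  rw [← h.inf, inf_idem]

lemma comm (U V : Clopens X) : P U * P V = P V * P U := by
  rw [← h.inf, ← h.inf, inf_comm]

lemma bot : P ⊥ = 0 := by
  have := h.inf ⊥ ⊥ᶜ
  rw [inf_compl_self, h.compl, mul_sub, mul_one, h.idem, sub_self] at this
  exact this

lemma top : P ⊤ = 1 := by
  rw [← compl_bot, h.compl, h.bot, sub_zero]

lemma disj {U V : Clopens X} (hd : Disjoint U V) : P U * P V = 0 := by
  rw [← h.inf, hd.eq_bot, h.bot]

lemma sup (U V : Clopens X) : P (U ⊔ V) = P U + P V - P U * P V := by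
  have : U ⊔ V = (Uᶜ ⊓ Vᶜ)ᶜ := by rw [compl_inf, compl_compl, compl_compl]
  rw [this, h.compl, h.inf, h.compl, h.compl]
  noncomm_ring

lemma add {U V : Clopens X} (hd : Disjoint U V) : P (U ⊔ V) = P U + P V := by
  rw [h.sup, h.disj hd, sub_zero]

lemma le_left {U V : Clopens X} (hUV : U ≤ V) : P U * P V = P U := by
  rw [← h.inf, inf_eq_left.2 hUV]

lemma le_right {U V : Clopens X} (hUV : U ≤ V) : P V * P U = P U := by
  rw [← h.inf, inf_eq_right.2 hUV]

lemma finset_sup {ι : Type*} (s : Finset ι) (U : ι → Clopens X)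
    (hd : ∀ i ∈ s, ∀ j ∈ s, i ≠ j → Disjoint (U i) (U j)) :
    P (s.sup U) = ∑ i ∈ s, P (U i) := by
  classical
  induction s using Finset.induction_on with
  | empty => simp [h.bot]
  | insert a s ha ih =>
    rw [Finset.sup_insert, Finset.sum_insert ha, h.add, ih]
    · exact fun i hi j hj => hd i (Finset.mem_insert_of_mem hi) j (Finset.mem_insert_of_mem hj)
    · rw [Finset.disjoint_sup_right]
      intro i hi
      exact hd a (Finset.mem_insert_self _ _) i (Finset.mem_insert_of_mem hi)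
        (fun e => ha (e ▸ hi))

/-- finite partitions of the space sum to one -/
lemma sum_eq_one {ι : Type*} (s : Finset ι) (U : ι → Clopens X)
    (hd : ∀ i ∈ s, ∀ j ∈ s, i ≠ j → Disjoint (U i) (U j)) (ht : s.sup U = ⊤) :
    ∑ i ∈ s, P (U i) = 1 := by
  rw [← h.finset_sup s U hd, ht, h.top]

/-- The pull back of clopen sets along a continuous map pushes a PVM forward. -/
lemma map {Y : Type*} [TopologicalSpace Y] (f : X → Y) (hf : Continuous f) :
    Cpv (fun U : Clopens Y => P ⟨f ⁻¹' (U : Set Y), U.isClopen.preimage hf⟩) where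
  sa U := h.sa _
  inf U V := by
    rw [← h.inf]; rfl
  compl U := by
    rw [← h.compl]; rfl

/-- Conjugation by a unitary. -/
lemma conj {u : 𝔸} (hu : star u * u = 1) : Cpv (fun U : Clopens X => u * P U * star u) ↔
    (u * star u = 1) := by
  constructor
  · intro h'
    have := h'.top
    simpa [h.top] using this
  · intro hu'
    refine ⟨fun U => ?_, fun U V => ?_, fun U => ?_⟩
    · simp only [star_mul, star_star, h.sa, mul_assoc]
    · simp only [h.inf]
      calc u * (P U * P V) * star u = u * P U * (1 * (P V * star u)) := by noncomm_ring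
        _ = u * P U * ((star u * u) * (P V * star u)) := by rw [hu]
        _ = _ := by noncomm_ring
    · simp only [h.compl]
      rw [mul_sub, sub_mul, mul_one, hu']

end Cpv

end Defs

section Inc

variable {X : Type*} [TopologicalSpace X] [CompactSpace X] [T2Space X]
  [TotallyDisconnectedSpace X] {Y : Type*} [TopologicalSpace Y] [CompactSpace Y] [T2Space Y]
  [TotallyDisconnectedSpace Y] {𝔸 : Type*} [Ring 𝔸] [StarRing 𝔸]

/-- A neighbourhood of a point contains a clopen neighbourhood. -/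
lemma exists_clopen {x : X} {S : Set X} (hS : S ∈ nhds x) :
    ∃ U : Clopens X, x ∈ U ∧ (U : Set X) ⊆ S := by
  obtain ⟨U, ⟨hxU, hU⟩, hUS⟩ := (nhds_basis_clopen x).mem_iff.1 hS
  exact ⟨⟨U, hU⟩, hxU, hUS⟩

/-- Local step: if no point of the clopen set `B` is incident to both `a` and `a'`, then
`P U * Q B * P U' = 0` for small clopen neighbourhoods `U`, `U'` of `a`, `a'`. -/
lemma inc_local {I : Set (X × Y)} (hI : IsClosed I) {P : Clopens X → 𝔸} (hP : Cpv P)
    {Q : Clopens Y → 𝔸} (hQ : Cpv Q)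
    (h0 : ∀ A B, (∀ a ∈ A, ∀ b ∈ B, (a, b) ∉ I) → P A * Q B = 0) {a a' : X} {B : Clopens Y}
    (hB : ∀ c ∈ B, (a, c) ∈ I → (a', c) ∈ I → False) :
    ∃ U U' : Clopens X, a ∈ U ∧ a' ∈ U' ∧ P U * Q B * P U' = 0 := by
  have hBc : IsCompact (B : Set Y) := B.isClopen.isClosed.isCompact
  have key : ∃ U U' : Clopens X, ∃ V : Clopens Y, a ∈ U ∧ a' ∈ U' ∧ (B : Set Y) ⊆ V ∧
      ∀ V' : Clopens Y, V' ≤ V → P U * Q V' * P U' = 0 := by
    refine hBc.induction_on (p := fun S => ∃ U U' : Clopens X, ∃ V : Clopens Y, a ∈ U ∧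
      a' ∈ U' ∧ S ⊆ V ∧ ∀ V' : Clopens Y, V' ≤ V → P U * Q V' * P U' = 0) ?_ ?_ ?_ ?_
    · refine ⟨⊤, ⊤, ⊥, trivial, trivial, Set.empty_subset _, fun V' hV' => ?_⟩
      rw [le_bot_iff.1 hV', hQ.bot, mul_zero, zero_mul]
    · rintro S T hST ⟨U, U', V, h1, h2, h3, h4⟩
      exact ⟨U, U', V, h1, h2, hST.trans h3, h4⟩
    · rintro S T ⟨U, U', V, h1, h2, h3, h4⟩ ⟨W, W', Z, g1, g2, g3, g4⟩
      refine ⟨U ⊓ W, U' ⊓ W', V ⊔ Z, ⟨h1, g1⟩, ⟨h2, g2⟩, ?_, fun V' hV' => ?_⟩
      · rintro x (hx | hx)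
        · exact Or.inl (h3 hx)
        · exact Or.inr (g3 hx)
      · have e1 : V' = (V' ⊓ V) ⊔ (V' ⊓ Vᶜ) := by rw [← inf_sup_left, sup_compl_eq_top, inf_top_eq]
        have hd : Disjoint (V' ⊓ V) (V' ⊓ Vᶜ) :=
          (disjoint_compl_right (a := V)).mono inf_le_right inf_le_right
        have h5 : V' ⊓ Vᶜ ≤ Z := by
          intro x hx
          rcases hV' hx.1 with h | h
          · exact absurd h hx.2
          · exact h
        have e2 := h4 (V' ⊓ V) inf_le_right
        have e3 := g4 (V' ⊓ Vᶜ) h5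
        rw [e1, hQ.add hd, mul_add, add_mul]
        have e4 : P (U ⊓ W) * Q (V' ⊓ V) * P (U' ⊓ W') = 0 := by
          rw [inf_comm U W, hP.inf, hP.inf]
          calc P W * P U * Q (V' ⊓ V) * (P U' * P W')
              = P W * (P U * Q (V' ⊓ V) * P U') * P W' := by noncomm_ring
            _ = 0 := by rw [e2, mul_zero, zero_mul]
        have e5 : P (U ⊓ W) * Q (V' ⊓ Vᶜ) * P (U' ⊓ W') = 0 := by
          rw [inf_comm U' W', hP.inf, hP.inf]
          calc P U * P W * Q (V' ⊓ Vᶜ) * (P W' * P U')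
              = P U * (P W * Q (V' ⊓ Vᶜ) * P W') * P U' := by noncomm_ring
            _ = 0 := by rw [e3, mul_zero, zero_mul]
        rw [e4, e5, add_zero]
    · intro c hc
      by_cases hac : (a, c) ∈ I
      · have ha'c : (a', c) ∉ I := fun h => hB c hc hac h
        have hn : Iᶜ ∈ nhds (a', c) := hI.isOpen_compl.mem_nhds ha'c
        rw [nhds_prod_eq, Filter.mem_prod_iff] at hn
        obtain ⟨S, hS, T, hT, hST⟩ := hn
        obtain ⟨U', hU', hUS⟩ := exists_clopen hS
        obtain ⟨V, hV, hVT⟩ := exists_clopen hT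
        refine ⟨V, mem_nhdsWithin_of_mem_nhds (V.isClopen.isOpen.mem_nhds hV), ⊤, U', V, trivial,
          hU', subset_rfl, fun V' hV' => ?_⟩
        have h1 : P U' * Q V' = 0 := h0 _ _ fun x hx y hy hxy =>
          hST ⟨hUS hx, hVT (hV' hy)⟩ hxy
        have h2 : Q V' * P U' = 0 := by
          have := congrArg star h1
          rwa [star_mul, hP.sa, hQ.sa, star_zero] at this
        rw [mul_assoc, h2, mul_zero]
      · have hn : Iᶜ ∈ nhds (a, c) := hI.isOpen_compl.mem_nhds hac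
        rw [nhds_prod_eq, Filter.mem_prod_iff] at hn
        obtain ⟨S, hS, T, hT, hST⟩ := hn
        obtain ⟨U, hU, hUS⟩ := exists_clopen hS
        obtain ⟨V, hV, hVT⟩ := exists_clopen hT
        refine ⟨V, mem_nhdsWithin_of_mem_nhds (V.isClopen.isOpen.mem_nhds hV), U, ⊤, V, hU,
          trivial, subset_rfl, fun V' hV' => ?_⟩
        rw [h0 U V' fun x hx y hy hxy => hST ⟨hUS hx, hVT (hV' hy)⟩ hxy, zero_mul]
  obtain ⟨U, U', V, h1, h2, h3, h4⟩ := key
  exact ⟨U, U', h1, h2, h4 B h3⟩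

/-- Two clopen PVMs, incident, annihilate across disjoint clopen sets. -/
theorem inc_zero {I : Set (X × Y)} (hI : IsClosed I)
    (huniq : ∀ a a' c c', a ≠ a' → (a, c) ∈ I → (a', c) ∈ I → (a, c') ∈ I → (a', c') ∈ I → c = c')
    {P : Clopens X → 𝔸} (hP : Cpv P) {Q : Clopens Y → 𝔸} (hQ : Cpv Q)
    (h0 : ∀ A B, (∀ a ∈ A, ∀ b ∈ B, (a, b) ∉ I) → P A * Q B = 0)
    {A A' : Clopens X} (hd : Disjoint A A') (B : Clopens Y) : P A * Q B * P A' = 0 := by
  -- local statement for two different points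
  have loc : ∀ a ∈ A, ∀ a' ∈ A', ∃ U U' : Clopens X, a ∈ U ∧ a' ∈ U' ∧
      P U * Q B * P U' = 0 := by
    intro a ha a' ha'
    have hne : a ≠ a' := by
      rintro rfl
      exact (hd.le_bot (show a ∈ A ⊓ A' from ⟨ha, ha'⟩) : a ∈ (⊥ : Clopens X))
    by_cases hL : ∃ c ∈ B, (a, c) ∈ I ∧ (a', c) ∈ I
    · obtain ⟨c, hcB, hc, hc'⟩ := hL
      have hBc : ∀ c' ∈ Bᶜ, (a, c') ∈ I → (a', c') ∈ I → False := by
        intro c' hc'B g g'
        exact hc'B (huniq a a' c c' hne hc hc' g g' ▸ hcB)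
      obtain ⟨U, U', hU, hU', h⟩ := inc_local hI hP hQ h0 hBc
      refine ⟨U ⊓ A, U' ⊓ A', ⟨hU, ha⟩, ⟨hU', ha'⟩, ?_⟩
      have e : Q B = 1 - Q Bᶜ := by rw [hQ.compl, sub_sub_cancel]
      have e1 : P (U ⊓ A) * P (U' ⊓ A') = 0 :=
        hP.disj (hd.mono inf_le_right inf_le_right)
      have e2 : P (U ⊓ A) * Q Bᶜ * P (U' ⊓ A') = 0 := by
        rw [inf_comm U A, hP.inf, hP.inf]
        calc P A * P U * Q Bᶜ * (P U' * P A') = P A * (P U * Q Bᶜ * P U') * P A' := by
              noncomm_ring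
          _ = 0 := by rw [h, mul_zero, zero_mul]
      rw [e, mul_sub, mul_one, sub_mul, e1, e2, sub_zero]
    · exact inc_local hI hP hQ h0 fun c hc h1 h2 => hL ⟨c, hc, h1, h2⟩
  -- fix `a`, compactness of `A'`
  have loc1 : ∀ a ∈ A, ∃ U : Clopens X, a ∈ U ∧ P U * Q B * P A' = 0 := by
    intro a ha
    have hA'c : IsCompact (A' : Set X) := A'.isClopen.isClosed.isCompact
    have key : ∃ U V : Clopens X, a ∈ U ∧ (A' : Set X) ⊆ V ∧ P U * Q B * P V = 0 := by
      refine hA'c.induction_on (p := fun S => ∃ U V : Clopens X, a ∈ U ∧ S ⊆ V ∧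
        P U * Q B * P V = 0) ?_ ?_ ?_ ?_
      · exact ⟨⊤, ⊥, trivial, Set.empty_subset _, by rw [hP.bot, mul_zero]⟩
      · rintro S T hST ⟨U, V, h1, h2, h3⟩
        exact ⟨U, V, h1, hST.trans h2, h3⟩
      · rintro S T ⟨U, V, h1, h2, h3⟩ ⟨W, Z, g1, g2, g3⟩
        refine ⟨U ⊓ W, V ⊔ Z, ⟨h1, g1⟩, Set.union_subset_union h2 g2, ?_⟩
        have e1 : P (U ⊓ W) * Q B * P V = 0 := by
          rw [inf_comm U W, hP.inf, mul_assoc (P W), mul_assoc (P W), h3, mul_zero]
        have e2 : P (U ⊓ W) * Q B * P Z = 0 := by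
          rw [hP.inf, mul_assoc (P U), mul_assoc (P U), g3, mul_zero]
        rw [hP.sup, mul_sub, mul_add, e1, e2, ← mul_assoc, e1, zero_mul, add_zero, sub_zero]
      · intro a' ha'
        obtain ⟨U, U', hU, hU', h⟩ := loc a ha a' ha'
        exact ⟨U', mem_nhdsWithin_of_mem_nhds (U'.isClopen.isOpen.mem_nhds hU'), U, U', hU,
          subset_rfl, h⟩
    obtain ⟨U, V, h1, h2, h3⟩ := key
    exact ⟨U, h1, by rw [← hP.le_right (show A' ≤ V from h2), ← mul_assoc, h3, zero_mul]⟩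
  have hAc : IsCompact (A : Set X) := A.isClopen.isClosed.isCompact
  have key : ∃ V : Clopens X, (A : Set X) ⊆ V ∧ P V * Q B * P A' = 0 := by
    refine hAc.induction_on (p := fun S => ∃ V : Clopens X, S ⊆ V ∧
        P V * Q B * P A' = 0) ?_ ?_ ?_ ?_
    · exact ⟨⊥, Set.empty_subset _, by rw [hP.bot, zero_mul, zero_mul]⟩
    · rintro S T hST ⟨V, h2, h3⟩
      exact ⟨V, hST.trans h2, h3⟩
    · rintro S T ⟨V, h2, h3⟩ ⟨Z, g2, g3⟩
      refine ⟨V ⊔ Z, Set.union_subset_union h2 g2, ?_⟩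
      rw [hP.sup, sub_mul, add_mul, sub_mul, add_mul, h3, g3, mul_assoc (P V), mul_assoc (P V), g3,
        mul_zero, add_zero, sub_zero]
    · intro a ha
      obtain ⟨U, hU, h⟩ := loc1 a ha
      exact ⟨U, mem_nhdsWithin_of_mem_nhds (U.isClopen.isOpen.mem_nhds hU), U, subset_rfl, h⟩
  obtain ⟨V, h1, h2⟩ := key
  rw [← hP.le_left (show A ≤ V from h1), mul_assoc (P A), mul_assoc (P A), h2, mul_zero]

/-- **Incident ⟹ commute** (ultrametric). -/
theorem inc_comm {I : Set (X × Y)} (hI : IsClosed I)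
    (huniq : ∀ a a' c c', a ≠ a' → (a, c) ∈ I → (a', c) ∈ I → (a, c') ∈ I → (a', c') ∈ I → c = c')
    {P : Clopens X → 𝔸} (hP : Cpv P) {Q : Clopens Y → 𝔸} (hQ : Cpv Q)
    (h0 : ∀ A B, (∀ a ∈ A, ∀ b ∈ B, (a, b) ∉ I) → P A * Q B = 0)
    (A : Clopens X) (B : Clopens Y) : P A * Q B = Q B * P A := by
  have h1 := inc_zero hI huniq hP hQ h0 (disjoint_compl_right (a := A)) B
  have h2 := inc_zero hI huniq hP hQ h0 (disjoint_compl_left (a := A)) B
  rw [hP.compl, mul_sub, mul_one, sub_eq_zero] at h1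
  rw [hP.compl, sub_mul, sub_mul, one_mul, sub_eq_zero] at h2
  rw [h1, h2]

end Inc

end Vale.Agent.P092.H820
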