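import Vale.Agent.P092.H820.AFr

/-!
P092 (helper820), stage (S), block [S8] (iii): if `L(Λ)` is isomorphic to a corner of `M_ι(L(Γ))` and
`Γ` has infinite nontrivial conjugacy classes, then so has `Λ`.
-/

set_option linter.all false

open scoped InnerProductSpace
open Filter Topology ContinuousLinearMap

namespace Vale.Agent.P092.H820

open Vale.Agent.P092.H160 Vale.Agent.P092.H553 Vale.Agent.P092.H432

section avg

variable {Γ : Type} [Group Γ]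

/-- conjugation on `ℓ²(Γ × J)` -/
noncomputable def adx (J : Type) (g : Γ) : Ell2 (Γ × J) →L[ℂ] Ell2 (Γ × J) := lx g * rx g

theorem adx_apply {J : Type} (g : Γ) (ξ : Ell2 (Γ × J)) (x : Γ) (j : J) :
    adx J g ξ (x, j) = ξ (g⁻¹ * x * g, j) := by
  rw [adx, mul_ap, lx_apply, rx_apply]

theorem norm_adx {J : Type} (g : Γ) (ξ : Ell2 (Γ × J)) : ‖adx J g ξ‖ = ‖ξ‖ := by
  rw [adx, mul_ap, norm_lx, rx, norm_rei]

theorem adx_mul {J : Type} (g h : Γ) (ξ : Ell2 (Γ × J)) :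
    adx J g (adx J h ξ) = adx J (g * h) ξ := by
  ext ⟨x, j⟩
  rw [adx_apply, adx_apply, adx_apply]
  congr 2
  group

/-- Averaging over the conjugates of a vector. -/
theorem avg_vanish (hΓ : ∀ g : Γ, g ≠ 1 → Set.Infinite {y : Γ | ∃ h, y = h * g * h⁻¹})
    {J : Type} [Fintype J] (F : Ell2 (Γ × J) →L[ℂ] ℂ) (η : Ell2 (Γ × J))
    (hF : ∀ g, F (adx J g η) = 0) : F (∑ j, η (1, j) • ep j) = 0 := by
  classical
  obtain ⟨K, hK⟩ : ∃ K : Set (Ell2 (Γ × J)),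
    K = {ζ | (∀ g, F (adx J g ζ) = 0) ∧ ∀ j, ⟪(ep j : Ell2 (Γ × J)), ζ⟫_ℂ = η (1, j)} := ⟨_, rfl⟩
  have hne : K.Nonempty := ⟨η, by
    rw [hK]
    exact ⟨hF, fun j => inner_dl _ _⟩⟩
  have hcl : IsClosed K := by
    have h1 : K = (⋂ g, {ζ | F (adx J g ζ) = 0}) ∩
        ⋂ j, {ζ | ⟪(ep j : Ell2 (Γ × J)), ζ⟫_ℂ = η (1, j)} := by
      rw [hK]
      ext ζ
      simp
    rw [h1]
    refine (isClosed_iInter fun g => ?_).inter (isClosed_iInter fun j => ?_)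
    · exact isClosed_eq (F.continuous.comp (adx J g).continuous) continuous_const
    · exact isClosed_eq (by fun_prop) continuous_const
  have hcv : Convex ℝ K := by
    rw [hK]
    rintro x ⟨hx1, hx2⟩ y ⟨hy1, hy2⟩ a b ha hb hab
    have h3 : a • x + b • y = (a : ℂ) • x + (b : ℂ) • y := by
      ext u
      change a • x u + b • y u = (a : ℂ) * x u + (b : ℂ) * y u
      rw [Complex.real_smul, Complex.real_smul]
    refine ⟨fun g => ?_, fun j => ?_⟩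
    · rw [h3, map_add, map_smul, map_smul, map_add, map_smul, map_smul, hx1, hy1, smul_zero,
        smul_zero, add_zero]
    · rw [h3, inner_add_right, inner_smul_right, inner_smul_right, hx2, hy2, ← add_mul,
        ← Complex.ofReal_add, hab, Complex.ofReal_one, one_mul]
  obtain ⟨ζ, hζ, hfix⟩ := H108.exists_min_fixed hne hcl hcv
  have hfix' : ∀ g, adx J g ζ = ζ := by
    intro g
    refine hfix (fun x => adx J g x) (fun x _ => (norm_adx g x).le) (fun x hx => ?_)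
    rw [hK] at hx ⊢
    refine ⟨fun h => ?_, fun j => ?_⟩
    · rw [adx_mul]
      exact hx.1 _
    · rw [← hx.2 j, ep, inner_dl, inner_dl, adx_apply]
      congr 2
      group
  have hζ0 : ∀ x j, x ≠ 1 → ζ (x, j) = 0 := by
    intro x j hx
    refine H108.eq_zero_of_infinite (sj j ζ) (ζ (x, j)) _ (hΓ x hx) ?_
    rintro _ ⟨h, rfl⟩
    have h1 : adx J h⁻¹ ζ (x, j) = ζ (x, j) := by rw [hfix']
    rw [adx_apply, inv_inv] at h1
    exact h1
  rw [hK] at hζ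
  have hζ1 : ζ = ∑ j, η (1, j) • ep j := by
    ext ⟨x, j⟩
    rw [lp.coeFn_sum, Finset.sum_apply]
    have h2 : ∀ k, ((η (1, k) • (ep k : Ell2 (Γ × J)) : Ell2 (Γ × J)) : Γ × J → ℂ) (x, j) =
        η (1, k) * (ep k : Ell2 (Γ × J)) (x, j) := fun k => rfl
    simp only [h2]
    by_cases hx : x = 1
    · subst hx
      have h3 := hζ.2 j
      rw [ep, inner_dl] at h3
      rw [h3, Finset.sum_eq_single j (fun k _ hk => ?_) (fun h => absurd (Finset.mem_univ j) h)]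
      · rw [ep, dl_self, mul_one]
      · rw [ep, dl_ne (fun h => hk (Prod.mk.inj h).2.symm), mul_zero]
    · rw [hζ0 x j hx, Finset.sum_eq_zero]
      intro k _
      rw [ep, dl_ne (fun h => hx (Prod.mk.inj h).1), mul_zero]
  rw [← hζ1]
  have h4 := hζ.1 1
  rwa [hfix'] at h4

end avg

section corner

variable {Γ ι : Type} [Group Γ] [Fintype ι]

/-- If `p x w = w x p` for all `x` in `M_ι(L(Γ))`, where `p` has nonzero trace, then `w` is a multiple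
of `p`. -/
theorem scalar_of_comm (hΓ : ∀ g : Γ, g ≠ 1 → Set.Infinite {y : Γ | ∃ h, y = h * g * h⁻¹})
    {p w : Ell2 (Γ × ι) →L[ℂ] Ell2 (Γ × ι)} (hp : p ∈ NN Γ ι) (hw : w ∈ NN Γ ι)
    (hps : adjoint p = p) (i : ι) (hi : ⟪(ep i : Ell2 (Γ × ι)), p (ep i)⟫_ℂ ≠ 0)
    (h : ∀ x ∈ NN Γ ι, p * x * w = w * x * p) : ∃ c : ℂ, w = c • p := by
  classical
  have hp' := mem_NN_iff.mp hp
  have hw' := mem_NN_iff.mp hw
  -- the coefficient identity
  have key : ∀ (j l : ι) (g s : Γ), ⟪sj i (p (ep i)), lam g (rho s (sj j (w (ep l))))⟫_ℂ =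
      ⟪sj i (adjoint w (ep i)), lam g (rho s (sj j (p (ep l))))⟫_ℂ := by
    intro j l g s
    have hX : ij i ∘L lam g ∘L sj j ∈ NN Γ ι := by
      rw [mem_NN_iff]
      intro t ξ
      change ij i (lam g (sj j (rx t ξ))) = rx t (ij i (lam g (sj j ξ)))
      rw [sj_rx, rx_ij]
      exact congrArg (ij i)
        (congrArg (fun T : Ell2 Γ →L[ℂ] Ell2 Γ => T (sj j ξ)) (rho_lam t g)).symm
    have h1 := congrArg (fun T : Ell2 (Γ × ι) →L[ℂ] Ell2 (Γ × ι) =>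
      ⟪(ep i : Ell2 (Γ × ι)), T (rx s (ep l))⟫_ℂ) (h _ hX)
    change ⟪(ep i : Ell2 (Γ × ι)), p (ij i (lam g (sj j (w (rx s (ep l))))))⟫_ℂ =
      ⟪(ep i : Ell2 (Γ × ι)), w (ij i (lam g (sj j (p (rx s (ep l))))))⟫_ℂ at h1
    rw [hw', hp', sj_rx, sj_rx] at h1
    have h2 : ∀ (T : Ell2 (Γ × ι) →L[ℂ] Ell2 (Γ × ι)) (ξ : Ell2 Γ),
        ⟪(ep i : Ell2 (Γ × ι)), T (ij i ξ)⟫_ℂ = ⟪sj i (adjoint T (ep i)), ξ⟫_ℂ := by
      intro T ξ
      rw [← adjoint_inner_left, ij, adjoint_inner_right]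
    rw [h2, h2, hps] at h1
    exact h1
  obtain ⟨c, hc⟩ : ∃ c : ℂ, c = ⟪sj i (adjoint w (ep i)), dl 1⟫_ℂ /
      ⟪sj i (p (ep i)), dl 1⟫_ℂ := ⟨_, rfl⟩
  have hd : ⟪sj i (p (ep i)), dl 1⟫_ℂ ≠ 0 := by
    rw [inner_dl_right, sj_apply]
    rw [ep, inner_dl] at hi
    intro h0
    exact hi ((map_eq_zero _).mp h0)
  refine ⟨c, op_ext_NN hw ((NN Γ ι).smul_mem hp c) fun l => ext_sj fun j => ?_⟩
  rw [smul_apply, map_smul]
  ext x
  -- average over the conjugates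
  obtain ⟨η, hη⟩ : ∃ η : Ell2 (Γ × Bool), η = ij true (lam x⁻¹ (sj j (w (ep l)))) +
      ij false (lam x⁻¹ (sj j (p (ep l)))) := ⟨_, rfl⟩
  obtain ⟨F, hF⟩ : ∃ F : Ell2 (Γ × Bool) →L[ℂ] ℂ,
      F = (innerSL ℂ (sj i (p (ep i)))) ∘L sj true -
        (innerSL ℂ (sj i (adjoint w (ep i)))) ∘L sj false := ⟨_, rfl⟩
  have hFa : ∀ ζ, F ζ = ⟪sj i (p (ep i)), sj true ζ⟫_ℂ -
      ⟪sj i (adjoint w (ep i)), sj false ζ⟫_ℂ := by
    intro ζ
    rw [hF]
    rfl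
  have h3 : sj true η = lam x⁻¹ (sj j (w (ep l))) := by
    rw [hη, map_add, sj_ij_self, sj_ij, if_neg (by decide), add_zero]
  have h4 : sj false η = lam x⁻¹ (sj j (p (ep l))) := by
    rw [hη, map_add, sj_ij_self, sj_ij, if_neg (by decide), zero_add]
  have h5 : ∀ (b : Bool) (g : Γ), sj b (adx Bool g η) = lam g (rho g (sj b η)) := by
    intro b g
    ext y
    rw [sj_apply, adx_apply, lam_apply, rho_apply, sj_apply]
  have h6 : ∀ g, F (adx Bool g η) = 0 := by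
    intro g
    have h7 : ∀ ξ : Ell2 Γ, lam g (rho g (lam x⁻¹ ξ)) = lam (g * x⁻¹) (rho g ξ) := by
      intro ξ
      ext y
      rw [lam_apply, rho_apply, lam_apply, lam_apply, rho_apply]
      congr 1
      group
    rw [hFa, h5, h5, h3, h4, h7, h7, key, sub_self]
  have h7 := avg_vanish hΓ F η h6
  have h8 : ∀ (b : Bool), sj b (∑ k, η (1, k) • (ep k : Ell2 (Γ × Bool))) =
      η (1, b) • (dl 1 : Ell2 Γ) := by
    intro b
    rw [map_sum, Finset.sum_eq_single b (fun k _ hk => ?_)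
      (fun h => absurd (Finset.mem_univ b) h)]
    · rw [map_smul, ep, sj_dl, if_pos rfl]
    · rw [map_smul, ep, sj_dl, if_neg (Ne.symm hk), smul_zero]
  rw [hFa, h8, h8, inner_smul_right, inner_smul_right, sub_eq_zero] at h7
  have h9 : η (1, true) = (sj j (w (ep l)) : Ell2 Γ) x := by
    rw [← sj_apply, h3, lam_apply, inv_inv, mul_one]
  have h10 : η (1, false) = (sj j (p (ep l)) : Ell2 Γ) x := by
    rw [← sj_apply, h4, lam_apply, inv_inv, mul_one]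
  rw [h9, h10] at h7
  change (sj j (w (ep l)) : Ell2 Γ) x = c * (sj j (p (ep l)) : Ell2 Γ) x
  rw [hc, div_mul_eq_mul_div, eq_div_iff hd, h7, mul_comm]

end corner

section main

variable {Γ Λ ι : Type} [Group Γ] [Group Λ] [Fintype ι]
  {θ : LG Λ →⋆ₙₐ[ℂ] Matrix ι ι (LG Γ)}

/-- Central elements of `L(Λ)` are scalar. -/
theorem central_scalar (hΓ : ∀ g : Γ, g ≠ 1 → Set.Infinite {y : Γ | ∃ h, y = h * g * h⁻¹})
    (h : CornerIso θ) (z : LG Λ) (hz : ∀ y : LG Λ, z * y = y * z) : ∃ c : ℂ, z = c • 1 := by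
  obtain ⟨t, ht, ht1⟩ := trace_pos h
  have hne : ∑ i, tr (θ 1 i i) ≠ 0 := by
    rw [ht1]
    exact_mod_cast ht.ne'
  obtain ⟨i, -, hi⟩ := Finset.exists_ne_zero_of_sum_ne_zero hne
  obtain ⟨p, hp⟩ : ∃ p : Ell2 (Γ × ι) →L[ℂ] Ell2 (Γ × ι), p = opM (θ 1) := ⟨_, rfl⟩
  obtain ⟨w, hw⟩ : ∃ w : Ell2 (Γ × ι) →L[ℂ] Ell2 (Γ × ι), w = opM (θ z) := ⟨_, rfl⟩
  have hpm : p ∈ NN Γ ι := hp ▸ opM_mem _
  have hwm : w ∈ NN Γ ι := hw ▸ opM_mem _
  have hps : adjoint p = p := by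
    rw [hp, ← star_eq_adjoint, ← opM_star, ← map_star, star_one]
  have hpw : p * w = w := by rw [hp, hw, ← opM_mul, ← map_mul, one_mul]
  have hwp : w * p = w := by rw [hp, hw, ← opM_mul, ← map_mul, mul_one]
  have hpp : p * p = p := by rw [hp, ← opM_mul, ← map_mul, mul_one]
  have hsj : ∀ T ∈ NN Γ ι, p * T * p = T → ∃ y, opM (θ y) = T := by
    intro T hT h1
    rw [hp] at h1
    exact h.corner.surj T hT h1
  have hcm : ∀ y, w * opM (θ y) = opM (θ y) * w := by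
    intro y
    rw [hw, ← opM_mul, ← opM_mul, ← map_mul, ← map_mul, hz]
  have hi' : ⟪(ep i : Ell2 (Γ × ι)), p (ep i)⟫_ℂ ≠ 0 := by
    rw [hp, inner_ep_opM]
    exact hi
  obtain ⟨c, hc⟩ := scalar_of_comm hΓ hpm hwm hps i hi' fun x hx => by
    obtain ⟨y, hy⟩ := hsj (p * x * p) (mul_mem (mul_mem hpm hx) hpm) (by
      rw [mul_assoc p x p, ← mul_assoc p p, hpp, mul_assoc p (x * p) p, mul_assoc x p p, hpp])
    have h1 := hcm y
    rw [hy, ← mul_assoc, ← mul_assoc, hwp, mul_assoc (p * x) p w, hpw] at h1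
    exact h1.symm
  rw [hw, hp] at hc
  refine ⟨c, h.inj ?_⟩
  rw [map_smul]
  refine opM_inj ?_
  rw [hc, opM_smul]

/-- [S8] (iii): `Λ` is ICC if `Γ` is. -/
theorem icc_of_corner (hΓ : ∀ g : Γ, g ≠ 1 → Set.Infinite {y : Γ | ∃ h, y = h * g * h⁻¹})
    (h : CornerIso θ) (s : Λ) (hs : s ≠ 1) :
    Set.Infinite {y : Λ | ∃ h, y = h * s * h⁻¹} := by
  classical
  intro hfin
  set C := hfin.toFinset with hC
  have hmem : ∀ c, c ∈ C ↔ ∃ h, c = h * s * h⁻¹ := fun c => by simp [hC]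
  obtain ⟨z, hz⟩ : ∃ z : LG Λ, z = fc C (fun _ => 1) := ⟨_, rfl⟩
  have hzc : (z : Ell2 Λ →L[ℂ] Ell2 Λ) = ∑ c ∈ C, lam c := by
    rw [hz, fc]
    simp only [AddSubmonoidClass.coe_finsetSum, one_smul]
    rfl
  have hz2 : ∀ t : Λ, (z : Ell2 Λ →L[ℂ] Ell2 Λ) * lam t = lam t * z := by
    intro t
    rw [hzc, Finset.sum_mul, Finset.mul_sum]
    refine Finset.sum_bij (fun c _ => t⁻¹ * c * t) (fun c hc => ?_) (fun c _ d _ h => ?_)
      (fun c hc => ?_) (fun c _ => ?_)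
    · rw [hmem] at hc ⊢
      obtain ⟨h, rfl⟩ := hc
      exact ⟨t⁻¹ * h, by group⟩
    · simpa using h
    · rw [hmem] at hc
      obtain ⟨h, rfl⟩ := hc
      exact ⟨t * (h * s * h⁻¹) * t⁻¹, (hmem _).mpr ⟨t * h, by group⟩, by group⟩
    · rw [← lam_mul, ← lam_mul]
      congr 1
      group
  have hz3 : (z : Ell2 Λ →L[ℂ] Ell2 Λ) ∈
      StarSubalgebra.centralizer ℂ (Set.range (lam (G := Λ))) := by
    rw [StarSubalgebra.mem_centralizer_iff]
    rintro _ ⟨t, rfl⟩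
    refine ⟨(hz2 t).symm, ?_⟩
    rw [star_lam]
    exact (hz2 t⁻¹).symm
  obtain ⟨c, hc⟩ := central_scalar hΓ h z fun y => Subtype.ext (H108.comm_of_mem_LG y.2 hz3)
  have h1 : (z : Ell2 Λ →L[ℂ] Ell2 Λ) (dl 1) = ∑ c ∈ C, dl c := by
    rw [hzc, sum_apply]
    exact Finset.sum_congr rfl fun c _ => by rw [lam_dl, mul_one]
  have hs1 : s ∈ C := (hmem s).mpr ⟨1, by group⟩
  have h3 : (∑ c ∈ C, (dl c : Ell2 Λ)) s = 1 := by
    rw [lp.coeFn_sum, Finset.sum_apply, Finset.sum_eq_single s (fun c _ hne => dl_ne (Ne.symm hne))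
      (fun h => absurd hs1 h), dl_self]
  have h2 : (z : Ell2 Λ →L[ℂ] Ell2 Λ) (dl 1) = c • dl 1 := by
    rw [hc]
    rfl
  have h4 : (c • (dl 1 : Ell2 Λ)) s = 0 := by
    change _ * (dl 1 : Ell2 Λ) s = 0
    rw [dl_ne hs, mul_zero]
  rw [← h1, h2, h4] at h3
  exact one_ne_zero h3.symm

/-- The amplified frame, without hypotheses on `Λ`. -/
theorem exists_aframe' (hΓ : ∀ g : Γ, g ≠ 1 → Set.Infinite {y : Γ | ∃ h, y = h * g * h⁻¹})
    (h : CornerIso θ) : ∃ t : ℝ, ∑ i, tr (θ 1 i i) = (t : ℂ) ∧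
      ∃ R : Λ → (Ell2 (Γ × ι) →L[ℂ] Ell2 (Γ × ι)), AFrame t R :=
  exists_aframe (fun g hg => icc_of_corner hΓ h g hg) h

end main

end Vale.Agent.P092.H820
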