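import Vale.Agent.P092.H820.P3Geo
import Vale.Agent.P092.H483.Inc

/-!
P092 (helper820), row [P3-FLIP], part 6: **no flipped leg**, all forms of Witt index two.
-/

set_option linter.all false

open Module Matrix Set TopologicalSpace MeasureTheory Topology
open scoped InnerProductSpace

namespace Vale.Agent.P092.H820.P3

open Vale.Agent.P092.H370.Po
open Vale.Agent.P092.H714.Cl (hf Frm)
open Vale.Agent.P092.H831 (SQ TQ Fam Flg Col)
open Vale.Agent.P092.H466
open Vale.Agent.P092.H171 (co exists_joint)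
open Vale.Agent.P092.H483.Inc (ae_pts zero_of_ae)
open Vale.Agent.P092.H232 (Nin)

section gen

variable {P L X Y K : Type*} [TopologicalSpace X] [CompactSpace X] [T2Space X]
  [SecondCountableTopology X] [TopologicalSpace Y] [CompactSpace Y] [T2Space Y]
  [SecondCountableTopology Y] [NormedAddCommGroup K] [InnerProductSpace ℂ K] [CompleteSpace K]
  {β : P → C(X, ℂ) →⋆ₐ[ℂ] (K →L[ℂ] K)} {ν : L → C(Y, ℂ) →⋆ₐ[ℂ] (K →L[ℂ] K)}
  {Inc : X → Y → Prop} {I : P → L → Prop}

/-- **a configuration of the source is realised in the target** -/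
theorem no_cf [Nontrivial K] (hs : SQ I) (ht : TQ Inc) (h : Fam Inc I β ν) {m : ℕ}
    {x c : Fin (m + 1) → P} (hc : Cf (fun p p' => ∃ l, I p l ∧ I p' l) x c)
    (hr : ∀ x' c' : Fin (m + 1) → X, ¬ Cf (fun y y' => ∃ n, Inc y n ∧ Inc y' n) x' c') :
    False := by
  haveI : MetrizableSpace X := metrizableSpace_of_t3_secondCountable _
  letI : MeasurableSpace X := borel X
  haveI : BorelSpace X := ⟨rfl⟩
  obtain ⟨Φ, hΦ⟩ := exists_joint (fun i => β (Sum.elim x c i)) fun i j f g => h.pts hs ht _ _ f g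
  obtain ⟨ξ, hξ⟩ := exists_ne (0 : K)
  refine hξ (zero_of_ae (Φ := Φ) ξ ?_)
  filter_upwards [ae_pts hs ht h (a := Sum.elim x c) hΦ ξ] with z hz
  exact hr (fun i => z (.inl i)) (fun i => z (.inr i))
    ⟨fun i j hij => (hz (.inl i) (.inr j)).2.2 (hc.xc i j hij),
      fun e => hc.nl ((hz (.inl _) (.inr _)).2.1 e),
      fun i j hij e => hc.xx i j hij ((hz (.inl i) (.inl j)).2.1 e),
      fun i j hij e => hc.cc i j hij ((hz (.inr i) (.inr j)).2.1 e)⟩

end gen

section form

variable {nS : Type} [Fintype nS] [DecidableEq nS] {kS : Type} [Field kS] {σS : kS →+* kS}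
  {εS : kS} {JS : Matrix nS nS kS}
  {n : Type} [Fintype n] [DecidableEq n] {k : Type} [NontriviallyNormedField k] [ProperSpace k]
  {σ : k →+* k} [Fact (Continuous σ)] {ε : k} {J : Matrix n n k}
  {K : Type*} [NormedAddCommGroup K] [InnerProductSpace ℂ K] [CompleteSpace K] [Nontrivial K]
  {β : SGr σS JS 1 → C(SGr σ J 2, ℂ) →⋆ₐ[ℂ] (K →L[ℂ] K)}
  {ν : SGr σS JS 2 → C(SGr σ J 1, ℂ) →⋆ₐ[ℂ] (K →L[ℂ] K)}

/-- flipped: source points are target lines, source lines are target points -/
abbrev FFam (β : SGr σS JS 1 → C(SGr σ J 2, ℂ) →⋆ₐ[ℂ] (K →L[ℂ] K))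
    (ν : SGr σS JS 2 → C(SGr σ J 1, ℂ) →⋆ₐ[ℂ] (K →L[ℂ] K)) : Prop :=
  Fam (fun (y : SGr σ J 2) (x : SGr σ J 1) => Inc x y)
    (Inc : SGr σS JS 1 → SGr σS JS 2 → Prop) β ν

/-- **(B)** symmetric target form, source of dimension at least five -/
theorem no_flipB (wS : WF σS εS JS) (w : WF σ ε J) (h5 : 4 < Fintype.card nS)
    (hσ : ∀ x, σ x = x) (hε : ε = 1) (h : FFam β ν) : False := by
  obtain ⟨x, c, hc⟩ := conf3P wS h5
  exact no_cf (sq wS) (tq w).flip h hc fun x' c' => reg3L w hσ hε x' c'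

/-- **(C)** any target form, source of dimension at least five, not symmetric -/
theorem no_flipC (wS : WF σS εS JS) (w : WF σ ε J) (h5 : 4 < Fintype.card nS) {y : kS}
    (hy : σS y ≠ εS * y) (h : FFam β ν) : False := by
  obtain ⟨x, c, hc⟩ := conf4P wS h5 hy
  exact no_cf (sq wS) (tq w).flip h hc fun x' c' => reg4L w x' c'

/-- **(D)** target of dimension four, source not symmetric -/
theorem no_flipD (wS : WF σS εS JS) (w : WF σ ε J) (h4 : Fintype.card n = 4) {y : kS}
    (hy : σS y ≠ εS * y) (h : FFam β ν) : False := by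
  obtain ⟨x, c, hc⟩ := confL3 wS hy
  exact no_cf (sq wS).flip (tq w) h.flip hc fun x' c' => reg3P w h4 x' c'

end form

section same

variable {n : Type} [Fintype n] [DecidableEq n] {k : Type} [NontriviallyNormedField k]
  [ProperSpace k] {σ : k →+* k} [Fact (Continuous σ)] {ε : k} {J : Matrix n n k}
  {K : Type*} [NormedAddCommGroup K] [InnerProductSpace ℂ K] [CompleteSpace K] [Nontrivial K]
  {β : SGr σ J 1 → C(SGr σ J 2, ℂ) →⋆ₐ[ℂ] (K →L[ℂ] K)}
  {ν : SGr σ J 2 → C(SGr σ J 1, ℂ) →⋆ₐ[ℂ] (K →L[ℂ] K)}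

theorem one_le (w : WF σ ε J) : 4 ≤ Fintype.card n := by
  obtain ⟨e, f, e', f', g⟩ := ex_hyp4 w
  have li : LinearIndependent k ![e, f, e', f'] := by
    rw [Fintype.linearIndependent_iff]
    intro a ha
    simp only [Fin.sum_univ_four, Matrix.cons_val_zero, Matrix.cons_val_one,
      Matrix.cons_val] at ha
    obtain ⟨h1, h2, h3, h4⟩ := cf_zero w.H g ha
    intro i
    fin_cases i
    · exact h1
    · exact h2
    · exact h3
    · exact h4
  have := li.fintype_card_le_finrank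
  rwa [Fintype.card_fin, finrank_fintype_fun_eq_card] at this

/-- **[P3-FLIP] NO FLIPPED LEG**, source = target = a nondegenerate trace valued `ε`-hermitian form
of Witt index two, not the symmetric bilinear form of dimension four: the calculi of a flipped leg
(points to lines, lines to points; exact incidence, collinear points and concurrent lines commute
and agree nowhere) do not exist. -/
theorem no_flip (w : WF σ ε J) (hne : 4 < Fintype.card n ∨ ∃ y, σ y ≠ ε * y) (h : FFam β ν) :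
    False := by
  rcases (one_le w).lt_or_eq with h5 | h4
  · by_cases hy : ∃ y, σ y ≠ ε * y
    · obtain ⟨y, hy⟩ := hy
      exact no_flipC w w h5 hy h
    · push Not at hy
      have hε : ε = 1 := by
        have := hy 1
        rw [map_one, mul_one] at this
        exact this.symm
      exact no_flipB w w h5 (fun x => by rw [hy, hε, one_mul]) hε h
  · obtain ⟨y, hy⟩ := hne.resolve_left (by omega)
    exact no_flipD w w h4.symm hy h

/-- the same, from commuting letters -/
theorem no_flip' (w : WF σ ε J) (hne : 4 < Fintype.card n ∨ ∃ y, σ y ≠ ε * y)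
    (cc : ∀ p p' f g, Commute (β p f) (β p' g)) (ll : ∀ l l' f g, Commute (ν l f) (ν l' g))
    (cl : ∀ p l f g, Commute (β p f) (ν l g))
    (inc : ∀ p l, Inc p l → ∀ (f : C(SGr σ J 2, ℂ)) (g : C(SGr σ J 1, ℂ)),
      (∀ y ∈ tsupport ⇑f, ∀ x ∈ tsupport ⇑g, ¬ Inc x y) → β p f * ν l g = 0)
    (ae : ∀ (p p' : SGr σ J 1) (l : SGr σ J 2), p ≠ p' → Inc p l → Inc p' l →
      ∀ ξ, (∀ f, β p f ξ = β p' f ξ) → ξ = 0)
    (af : ∀ (l l' : SGr σ J 2) (p : SGr σ J 1), l ≠ l' → Inc p l → Inc p l' →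
      ∀ ξ, (∀ f, ν l f ξ = ν l' f ξ) → ξ = 0) :
    False :=
  no_flip w hne (β := β) (ν := ν)
    { flg := fun p l hpl => ⟨fun u g => cl p l u g, fun u g hn => inc p l hpl u g hn⟩
      col := fun p p' l hn h1 h2 => ⟨fun u v => cc p p' u v, ae p p' l hn h1 h2⟩
      cop := fun l l' p hn h1 h2 => ⟨fun u v => ll l l' u v, af l l' p hn h1 h2⟩ }

end same

end Vale.Agent.P092.H820.P3
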