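import Vale.Agent.P092.CL.Defs
import Vale.Agent.P092.H820.P3Flip

/-!
P092 (helper820), row [P3-FLIP]: no flipped leg, in the letters of `CL/Defs` (Witt index two).
-/

set_option linter.all false

open Module Matrix Set TopologicalSpace MeasureTheory Topology Filter
open scoped InnerProductSpace

namespace Vale.Agent.P092.H820.P3

open Vale.Agent.P092.H370.Po
open Vale.Agent.P092.H714.Cl (hf Frm)
open Vale.Agent.P092.CL (Lt HFam LegC LegF Com)

variable {n : Type} [Fintype n] [DecidableEq n] {k : Type} [NontriviallyNormedField k]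
  {σ : k →+* k} {ε : k} {J : Matrix n n k}

/-- the exceptional case excluded: `2 ≠ 0`, or dimension at least five, or `σ ≠ 1` -/
theorem hne_of (hF : Frm σ ε J) (h : (2 : k) ≠ 0 ∨ 4 < Fintype.card n ∨ ∃ x, σ x ≠ x) :
    4 < Fintype.card n ∨ ∃ y, σ y ≠ ε * y := by
  rcases h with h2 | h | ⟨x, hx⟩
  · obtain ⟨c, hc, he⟩ := hF.cc
    refine .inr ⟨c, fun e => ?_⟩
    rw [e, ← mul_assoc, hF.eps, one_mul] at he
    exact (mul_ne_zero h2 hc) (by rw [two_mul]; exact he)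
  · exact .inl h
  · by_cases h1 : ε = 1
    · exact .inr ⟨x, by rwa [h1, one_mul]⟩
    · exact .inr ⟨1, fun e => h1 (by rw [map_one, mul_one] at e; exact e.symm)⟩

variable [ProperSpace k] [Fact (Continuous σ)]
  {K : Type} [NormedAddCommGroup K] [InnerProductSpace ℂ K] [CompleteSpace K]
  {S V₁ V₂ E Γ : Type} [Group S] [MeasurableSpace V₁] [MeasurableSpace V₂] [TopologicalSpace S]
  [MulAction S (SGr σ J 1)] [ContinuousConstSMul S (SGr σ J 1)]
  [MulAction S (SGr σ J 2)] [ContinuousConstSMul S (SGr σ J 2)]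
  [NormedAddCommGroup V₁] [NormedAddCommGroup V₂]
  [Group E] [TopologicalSpace E] [Group Γ]

/-- **[P3-FLIP] in the letters of CL/Defs**: the flipped leg whose calculi commute does not exist
(Witt index two; points `SGr σ J 1`, lines `SGr σ J 2`). -/
theorem flip_false (hF : Frm σ ε J) (wi : WI σ J 2)
    (hne : (2 : k) ≠ 0 ∨ 4 < Fintype.card n ∨ ∃ x, σ x ≠ x)
    {L : Lt S (SGr σ J 1) (SGr σ J 2) V₁ V₂} (hIn : ∀ x l, L.In x l ↔ Inc x l)
    {𝒰 : Ultrafilter ℕ} {ι : S →* E} {π : E →* (K →L[ℂ] K)} {lam : Γ →* (K →L[ℂ] K)}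
    {W : Set (K →L[ℂ] K)} {Ω : K} {m : Set Γ → (K →L[ℂ] K)} {q : Γ → S}
    {Ec : SGr σ J 1 → (C(SGr σ J 2, ℂ) →⋆ₐ[ℂ] (K →L[ℂ] K))}
    {F : SGr σ J 2 → (C(SGr σ J 1, ℂ) →⋆ₐ[ℂ] (K →L[ℂ] K))}
    (h : LegF L 𝒰 ι π lam W Ω m q Ec F) (hc : Com Ec F) : False := by
  haveI : Nontrivial K := ⟨⟨Ω, 0, fun e => by
    have h1 := h.base.pic.nΩ
    rw [e, norm_zero] at h1
    exact zero_ne_one h1⟩⟩
  exact no_flip' (WF.of_frm hF wi) (hne_of hF hne) (β := Ec) (ν := F) hc.ee hc.ff hc.ef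
    (fun c l hcl f g hn => (h.pl c l ((hIn c l).2 hcl)).inc f g
      fun y hy x hx hin => hn y hy x hx ((hIn x y).1 hin))
    (fun c c' l hne' _ _ => h.e.agr c c' hne') (fun l l' c hne' _ _ => h.f.agr l l' hne')

end Vale.Agent.P092.H820.P3
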