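import Mathlib

/-!
P092 (helper820), Team P, row [P-SWAP], linear algebra: a symplectic space of dimension 4 over a
field with `2 ≠ 0` has no 3 x 3 grid of totally isotropic planes.
-/

set_option linter.all false

open Module

namespace Vale.Agent.P092.H820.Grid

variable {k V : Type*} [Field k] [AddCommGroup V] [Module k V]

/-- the computation -/
theorem comp (h2 : (2 : k) ≠ 0) {a1 b1 a2 b2 a3 b3 c1 d1 c2 d2 c3 d3 A B : k}
    (hb1 : b1 ≠ 0) (ha2 : a2 ≠ 0) (ha1 : a1 ≠ 0) (hb2 : b2 ≠ 0) (hc3 : c3 ≠ 0) (hd3 : d3 ≠ 0)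
    (e1 : a3 * c1 = c3 * a1) (e2 : b3 * c2 = c3 * b1) (e3 : a3 * d1 = d3 * a2)
    (e4 : b3 * d2 = d3 * b2) (o1 : c1 * d2 * A - d1 * c2 * B = 0)
    (o2 : a1 * b2 * A + b1 * a2 * B = 0) : A = 0 ∧ B = 0 := by
  have h1 : (c3 * d3) * (a1 * b2 * A - a2 * b1 * B) = 0 := by
    have : (c3 * d3) * (a1 * b2 * A - a2 * b1 * B)
        = (c3 * a1) * (d3 * b2) * A - (d3 * a2) * (c3 * b1) * B := by ring
    rw [this, ← e1, ← e2, ← e3, ← e4]
    linear_combination a3 * b3 * o1
  have h3 : a1 * b2 * A - a2 * b1 * B = 0 :=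
    (mul_eq_zero.1 h1).resolve_left (mul_ne_zero hc3 hd3)
  have h4 : (2 * (a2 * b1)) * B = 0 := by linear_combination o2 - h3
  have hB : B = 0 := (mul_eq_zero.1 h4).resolve_left (mul_ne_zero h2 (mul_ne_zero ha2 hb1))
  have h5 : (a1 * b2) * A = 0 := by
    rw [hB] at h3
    linear_combination h3
  exact ⟨(mul_eq_zero.1 h5).resolve_left (mul_ne_zero ha1 hb2), hB⟩

/-- the vector form -/
theorem vec (h2 : (2 : k) ≠ 0) (ω : V →ₗ[k] V →ₗ[k] k) (alt : ∀ x, ω x x = 0)
    (v : Fin 3 → Fin 3 → V) (hr : ∀ i j j', ω (v i j) (v i j') = 0)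
    (hc : ∀ i i' j, ω (v i j) (v i' j) = 0)
    (row : ∀ i, ∃ a b : k, a ≠ 0 ∧ b ≠ 0 ∧ v i 2 = a • v i 0 + b • v i 1)
    (col : ∀ j, ∃ a b : k, a ≠ 0 ∧ b ≠ 0 ∧ v 2 j = a • v 0 j + b • v 1 j)
    (li : ∀ x y z t : k, x • v 0 0 + y • v 0 1 + z • v 1 0 + t • v 1 1 = 0 →
      x = 0 ∧ y = 0 ∧ z = 0 ∧ t = 0) :
    ω (v 0 0) (v 1 1) = 0 ∧ ω (v 0 1) (v 1 0) = 0 := by
  have sk : ∀ x y, ω x y = -ω y x := fun x y => by
    have h := alt (x + y)
    simp only [map_add, LinearMap.add_apply, alt, zero_add, add_zero] at h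
    exact eq_neg_of_add_eq_zero_right h
  obtain ⟨a1, b1, ha1, hb1, r0⟩ := row 0
  obtain ⟨a2, b2, ha2, hb2, r1⟩ := row 1
  obtain ⟨a3, b3, ha3, hb3, r2⟩ := row 2
  obtain ⟨c1, d1, hc1, hd1, s0⟩ := col 0
  obtain ⟨c2, d2, hc2, hd2, s1⟩ := col 1
  obtain ⟨c3, d3, hc3, hd3, s2⟩ := col 2
  have key := li (a3 * c1 - c3 * a1) (b3 * c2 - c3 * b1) (a3 * d1 - d3 * a2) (b3 * d2 - d3 * b2) (by
    have h := r2.symm.trans s2
    rw [s0, s1, r0, r1] at h
    rw [← sub_eq_zero] at h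
    rw [← h]
    module)
  obtain ⟨e1, e2, e3, e4⟩ := key
  refine comp h2 hb1 ha2 ha1 hb2 hc3 hd3 (sub_eq_zero.1 e1) (sub_eq_zero.1 e2) (sub_eq_zero.1 e3)
    (sub_eq_zero.1 e4) ?_ ?_
  · have h := hr 2 0 1
    rw [s0, s1] at h
    simp only [map_add, map_smul, LinearMap.add_apply, LinearMap.smul_apply, smul_eq_mul] at h
    rw [hr 0 0 1, hr 1 0 1, sk (v 1 0) (v 0 1)] at h
    linear_combination h
  · have h := hc 0 1 2
    rw [r0, r1] at h
    simp only [map_add, map_smul, LinearMap.add_apply, LinearMap.smul_apply, smul_eq_mul] at h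
    rw [hc 0 1 0, hc 0 1 1] at h
    linear_combination h

/-- `X` is a totally isotropic plane -/
structure Pl (ω : V →ₗ[k] V →ₗ[k] k) (X : Submodule k V) : Prop where
  rk : finrank k X = 2
  iso : ∀ x ∈ X, ∀ y ∈ X, ω x y = 0

theorem span_pair {X : Submodule k V} (h : finrank k X = 2) {x y : V} (hx : x ∈ X) (hy : y ∈ X)
    (li : LinearIndependent k ![x, y]) : Submodule.span k {x, y} = X := by
  have hfd : FiniteDimensional k X := FiniteDimensional.of_finrank_pos (by omega)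
  refine Submodule.eq_of_le_of_finrank_eq ?_ ?_
  · rw [Submodule.span_le]
    rintro z (rfl | rfl)
    · exact hx
    · exact hy
  · have h1 := finrank_span_eq_card li
    rw [Matrix.range_cons, Matrix.range_cons, Matrix.range_empty, Set.union_empty,
      Set.singleton_union, Fintype.card_fin] at h1
    rw [h]
    exact h1

theorem li_of_ne {x y : V} (hx : x ≠ 0) (hy : y ≠ 0)
    (h : Submodule.span k {x} ≠ Submodule.span k {y}) : LinearIndependent k ![x, y] := by
  rw [LinearIndependent.pair_iff' hx]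
  intro a ha
  apply h
  have ha0 : a ≠ 0 := by
    rintro rfl
    rw [zero_smul] at ha
    exact hy ha.symm
  rw [← ha, Submodule.span_singleton_smul_eq (IsUnit.mk0 a ha0)]

theorem mem_pair {X : Submodule k V} (h : finrank k X = 2) {x y z : V} (hx : x ∈ X) (hy : y ∈ X)
    (hz : z ∈ X) (hx0 : x ≠ 0) (hy0 : y ≠ 0) (hne : Submodule.span k {x} ≠ Submodule.span k {y}) :
    ∃ a b : k, a • x + b • y = z := by
  rw [← span_pair h hx hy (li_of_ne hx0 hy0 hne)] at hz
  exact Submodule.mem_span_pair.1 hz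

/-- three points of a plane -/
theorem mem_pair' {X : Submodule k V} (h : finrank k X = 2) {x y z : V} (hx : x ∈ X) (hy : y ∈ X)
    (hz : z ∈ X) (hx0 : x ≠ 0) (hy0 : y ≠ 0) (hz0 : z ≠ 0)
    (hne : Submodule.span k {x} ≠ Submodule.span k {y})
    (hne1 : Submodule.span k {x} ≠ Submodule.span k {z})
    (hne2 : Submodule.span k {y} ≠ Submodule.span k {z}) :
    ∃ a b : k, a ≠ 0 ∧ b ≠ 0 ∧ z = a • x + b • y := by
  obtain ⟨a, b, hab⟩ := mem_pair h hx hy hz hx0 hy0 hne
  refine ⟨a, b, ?_, ?_, hab.symm⟩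
  · rintro rfl
    rw [zero_smul, zero_add] at hab
    apply hne2
    have hb0 : b ≠ 0 := by
      rintro rfl
      rw [zero_smul] at hab
      exact hz0 hab.symm
    rw [← hab, Submodule.span_singleton_smul_eq (IsUnit.mk0 b hb0)]
  · rintro rfl
    rw [zero_smul, add_zero] at hab
    apply hne1
    have hb0 : a ≠ 0 := by
      rintro rfl
      rw [zero_smul] at hab
      exact hz0 hab.symm
    rw [← hab, Submodule.span_singleton_smul_eq (IsUnit.mk0 a hb0)]

theorem eq_of_pair {X Y : Submodule k V} (h : finrank k X = 2) (h' : finrank k Y = 2) {x y : V}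
    (hx : x ∈ X) (hy : y ∈ X) (hx' : x ∈ Y) (hy' : y ∈ Y) (hx0 : x ≠ 0) (hy0 : y ≠ 0)
    (hne : Submodule.span k {x} ≠ Submodule.span k {y}) : X = Y :=
  (span_pair h hx hy (li_of_ne hx0 hy0 hne)).symm.trans
    (span_pair h' hx' hy' (li_of_ne hx0 hy0 hne))

/-- in a nondegenerate alternating space of dimension 4 a totally isotropic plane is its own
orthogonal -/
theorem iso_le (h4 : finrank k V = 4) (ω : V →ₗ[k] V →ₗ[k] k) (alt : ∀ x, ω x x = 0)
    (nd : ∀ x, (∀ y, ω x y = 0) → x = 0) {X : Submodule k V} (hX : Pl ω X) {x : V}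
    (hx : ∀ y ∈ X, ω y x = 0) : x ∈ X := by
  have hfd : FiniteDimensional k V := FiniteDimensional.of_finrank_pos (by omega)
  let B : LinearMap.BilinForm k V := ω
  have h1 := LinearMap.BilinForm.finrank_add_finrank_orthogonal' (B := B) X
  have hk : LinearMap.ker B = ⊥ := by
    rw [LinearMap.ker_eq_bot']
    intro m hm
    exact nd m fun y => by
      have := congrArg (fun f => f y) hm
      exact this
  rw [hk, inf_bot_eq, finrank_bot, add_zero, hX.rk, h4] at h1
  have h2 : finrank k (B.orthogonal X) = 2 := by omega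
  have h3 : X ≤ B.orthogonal X := fun y hy => LinearMap.BilinForm.mem_orthogonal_iff.2
    fun z hz => hX.iso z hz y hy
  have h5 : X = B.orthogonal X := Submodule.eq_of_le_of_finrank_eq h3 (by rw [hX.rk, h2])
  rw [h5]
  exact LinearMap.BilinForm.mem_orthogonal_iff.2 fun y hy => hx y hy

/-- **There is no 3 x 3 grid of totally isotropic planes in a symplectic space of dimension 4 over
a field with `2 ≠ 0`.** -/
theorem grid_false (h2 : (2 : k) ≠ 0) (h4 : finrank k V = 4) (ω : V →ₗ[k] V →ₗ[k] k)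
    (alt : ∀ x, ω x x = 0) (nd : ∀ x, (∀ y, ω x y = 0) → x = 0) (X C : Fin 3 → Submodule k V)
    (hX : ∀ i, Pl ω (X i)) (hC : ∀ j, Pl ω (C j)) (v : Fin 3 → Fin 3 → V) (hv : ∀ i j, v i j ≠ 0)
    (hvX : ∀ i j, v i j ∈ X i) (hvC : ∀ i j, v i j ∈ C j)
    (hr : ∀ i j j', j ≠ j' → Submodule.span k {v i j} ≠ Submodule.span k {v i j'})
    (hc : ∀ i i' j, i ≠ i' → Submodule.span k {v i j} ≠ Submodule.span k {v i' j})
    (hXC : ∀ i j, X i ≠ C j) (hXX : X 0 ≠ X 1) : False := by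
  have hdis : ∀ p ∈ X 0, p ∈ X 1 → p = 0 := by
    intro p h0 h1
    by_contra hp
    have key : ∀ j, Submodule.span k {v 0 j} = Submodule.span k {p} := by
      intro j
      by_contra hne
      have hw : v 1 j ∈ X 0 := by
        refine iso_le h4 ω alt nd (hX 0) fun y hy => ?_
        obtain ⟨a, b, rfl⟩ := mem_pair (hX 0).rk (hvX 0 j) h0 hy (hv 0 j) hp hne
        rw [map_add, map_smul, map_smul, LinearMap.add_apply, LinearMap.smul_apply,
          LinearMap.smul_apply, (hC j).iso _ (hvC 0 j) _ (hvC 1 j), (hX 1).iso _ h1 _ (hvX 1 j)]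
        simp
      by_cases h3 : Submodule.span k {v 1 j} = Submodule.span k {p}
      · have hpC : p ∈ C j := by
          have h5 : p ∈ Submodule.span k {v 1 j} := by
            rw [h3]
            exact Submodule.mem_span_singleton_self p
          exact (Submodule.span_singleton_le_iff_mem _ _).2 (hvC 1 j) h5
        exact hXC 0 j (eq_of_pair (hX 0).rk (hC j).rk (hvX 0 j) h0 (hvC 0 j) hpC (hv 0 j) hp hne)
      · exact hXX (eq_of_pair (hX 0).rk (hX 1).rk hw h0 (hvX 1 j) h1 (hv 1 j) hp h3)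
    exact hr 0 0 1 (by decide) ((key 0).trans (key 1).symm)
  have hvec := vec h2 ω alt v (fun i j j' => (hX i).iso _ (hvX i j) _ (hvX i j'))
    (fun i i' j => (hC j).iso _ (hvC i j) _ (hvC i' j))
    (fun i => mem_pair' (hX i).rk (hvX i 0) (hvX i 1) (hvX i 2) (hv i 0) (hv i 1) (hv i 2)
      (hr i 0 1 (by decide)) (hr i 0 2 (by decide)) (hr i 1 2 (by decide)))
    (fun j => mem_pair' (hC j).rk (hvC 0 j) (hvC 1 j) (hvC 2 j) (hv 0 j) (hv 1 j) (hv 2 j)
      (hc 0 1 j (by decide)) (hc 0 2 j (by decide)) (hc 1 2 j (by decide)))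
    (fun x y z t h => by
      have h5 : x • v 0 0 + y • v 0 1 = -(z • v 1 0 + t • v 1 1) := by
        rw [eq_neg_iff_add_eq_zero, ← h]
        abel
      have h6 : x • v 0 0 + y • v 0 1 ∈ X 0 :=
        add_mem (Submodule.smul_mem _ _ (hvX 0 0)) (Submodule.smul_mem _ _ (hvX 0 1))
      have h7 : -(z • v 1 0 + t • v 1 1) ∈ X 1 :=
        neg_mem (add_mem (Submodule.smul_mem _ _ (hvX 1 0)) (Submodule.smul_mem _ _ (hvX 1 1)))
      have h8 : x • v 0 0 + y • v 0 1 = 0 := hdis _ h6 (by rw [h5]; exact h7)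
      have h9 : z • v 1 0 + t • v 1 1 = 0 := by
        rw [h8] at h5
        exact neg_eq_zero.1 h5.symm
      have l0 := LinearIndependent.pair_iff.1
        (li_of_ne (hv 0 0) (hv 0 1) (hr 0 0 1 (by decide))) x y h8
      have l1 := LinearIndependent.pair_iff.1
        (li_of_ne (hv 1 0) (hv 1 1) (hr 1 0 1 (by decide))) z t h9
      exact ⟨l0.1, l0.2, l1.1, l1.2⟩)
  apply hv 0 0
  refine hdis _ (hvX 0 0) ?_
  refine iso_le h4 ω alt nd (hX 1) fun y hy => ?_
  obtain ⟨a, b, rfl⟩ := mem_pair (hX 1).rk (hvX 1 0) (hvX 1 1) hy (hv 1 0) (hv 1 1)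
    (hr 1 0 1 (by decide))
  have sk : ∀ x y, ω x y = -ω y x := fun x y => by
    have h := alt (x + y)
    simp only [map_add, LinearMap.add_apply, alt, zero_add, add_zero] at h
    exact eq_neg_of_add_eq_zero_right h
  rw [map_add, map_smul, map_smul, LinearMap.add_apply, LinearMap.smul_apply,
    LinearMap.smul_apply, (hC 0).iso _ (hvC 1 0) _ (hvC 0 0), sk (v 1 1), hvec.1]
  simp

end Vale.Agent.P092.H820.Grid
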