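import Vale.Agent.P092.H820.Flip

/-!
P092 (helper820), Team P, row [P-SWAP] / [P-FLIP], second form: only incidences and `agree nowhere`.
-/

set_option linter.all false

open Topology TopologicalSpace Filter Set ContinuousLinearMap MeasureTheory Module
open scoped InnerProductSpace ComplexConjugate LinearAlgebra.Projectivization

namespace Vale.Agent.P092.H820.Flip

open Vale.Agent.P092.H820.Cfg Vale.Agent.P092.H820.Grid

variable {k : Type} [NontriviallyNormedField k] [ProperSpace k] {K : Type*}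
  [NormedAddCommGroup K] [InnerProductSpace ℂ K] [CompleteSpace K]
  {L : Type*} [TopologicalSpace L] [CompactSpace L] [MetrizableSpace L]
  [SecondCountableTopology L]

theorem rep_mem {x : PP k} {S : Submodule k (Fin 4 → k)} (h : x.submodule ≤ S) : x.rep ∈ S := by
  apply h
  rw [Projectivization.submodule_eq]
  exact Submodule.mem_span_singleton_self _

/-- **No flip, incidence form.** `L` is a space of totally isotropic planes of a symplectic space of
dimension 4, `2 ≠ 0`. `X i`, `C j` are calculi of `L` (source points `x_i ⊥ c_j`), `p i j` calculi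
of the points (source lines `x_i c_j`): they commute, incident ones are incident, different ones
agree nowhere. Impossible. -/
theorem flip_gen [Nontrivial K] (h2 : (2 : k) ≠ 0)
    (ω : (Fin 4 → k) →ₗ[k] (Fin 4 → k) →ₗ[k] k) (alt : ∀ x, ω x x = 0)
    (nd : ∀ x, (∀ y, ω x y = 0) → x = 0) (sub : L → Submodule k (Fin 4 → k))
    (hinj : Function.Injective sub) (hPl : ∀ l, Pl ω (sub l))
    (hI : IsClosed {q : PP k × L | q.1.submodule ≤ sub q.2})
    (X C : Fin 3 → (C(L, ℂ) →⋆ₐ[ℂ] (K →L[ℂ] K)))
    (p : Fin 3 → Fin 3 → (C(PP k, ℂ) →⋆ₐ[ℂ] (K →L[ℂ] K)))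
    (cpp : ∀ i j i' j' f g, Commute (p i j f) (p i' j' g))
    (cpX : ∀ i j i' f g, Commute (p i j f) (X i' g))
    (cpC : ∀ i j j' f g, Commute (p i j f) (C j' g))
    (cXX : ∀ i i' f g, Commute (X i f) (X i' g)) (cXC : ∀ i j f g, Commute (X i f) (C j g))
    (cCC : ∀ i j f g, Commute (C i f) (C j g))
    (iX : ∀ i j, Ici {q : PP k × L | q.1.submodule ≤ sub q.2} (p i j) (X i))
    (iC : ∀ i j, Ici {q : PP k × L | q.1.submodule ≤ sub q.2} (p i j) (C j))
    (hr : ∀ i j j', j ≠ j' → Agn (p i j) (p i j'))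
    (hc : ∀ i i' j, i ≠ i' → Agn (p i j) (p i' j)) (hXC : ∀ i j, Agn (X i) (C j))
    (hXX : Agn (X 0) (X 1)) : False := by
  obtain ⟨y, l, h1, h3, h4⟩ := exists_cfg (I := {q : PP k × L | q.1.submodule ≤ sub q.2})
    (E := fun s : Fin 3 × Fin 3 => p s.1 s.2)
    (F := fun s : Fin 3 ⊕ Fin 3 => Sum.elim X C s) (fun s t f g => cpp _ _ _ _ f g)
    (fun s t f g => by
      rcases t with t | t
      · exact cpX _ _ _ _ _
      · exact cpC _ _ _ _ _)
    (fun s t f g => by
      rcases s with s | s <;> rcases t with t | t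
      · exact cXX _ _ _ _
      · exact cXC _ _ _ _
      · exact (cXC _ _ _ _).symm
      · exact cCC _ _ _ _) hI
  refine grid_false h2 (by simp) ω alt nd (fun i => sub (l (.inl i))) (fun j => sub (l (.inr j)))
    (fun i => hPl _) (fun j => hPl _) (fun i j => (y (i, j)).rep) (fun i j => (y (i, j)).rep_nonzero)
    (fun i j => rep_mem (h1 (i, j) (.inl i) (iX i j)))
    (fun i j => rep_mem (h1 (i, j) (.inr j) (iC i j)))
    (fun i j j' h => span_ne (h3 (i, j) (i, j') (hr i j j' h)))
    (fun i i' j h => span_ne (h3 (i, j) (i', j) (hc i i' j h)))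
    (fun i j h => h4 (.inl i) (.inr j) (hXC i j) (hinj h))
    (fun h => h4 (.inl 0) (.inl 1) hXX (hinj h))

end Vale.Agent.P092.H820.Flip
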