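import Vale.Agent.P092.SP.Defs
import Vale.Agent.P092.H820.Flip2

/-!
P092 (helper820), Team P, row [P-SWAP] / [P-FLIP]: the flipped leg does not exist if `2 ≠ 0`
(wrapper of `Flip.flip_gen` in the letters of SP/Defs).
-/

set_option linter.all false

open Topology TopologicalSpace Filter Set ContinuousLinearMap MeasureTheory Module
open scoped InnerProductSpace ComplexConjugate LinearAlgebra.Projectivization

namespace Vale.Agent.P092.H820.FlipW

open Vale.Agent.P092.H820.Cfg Vale.Agent.P092.H820.Grid Vale.Agent.P092.H820.Flip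
open Vale.Agent.P092.SP4
open Vale.Agent.P092.SP (HFam LegC Com)
open Vale.Agent.P092.RC (YY PG)
open Vale.Agent.P092.H232 (Nin)

variable {k : Type} [NontriviallyNormedField k]

/-- the form as a bilinear map -/
noncomputable def omL (k : Type) [NontriviallyNormedField k] :
    (Fin 4 → k) →ₗ[k] (Fin 4 → k) →ₗ[k] k :=
  LinearMap.mk₂ k om om_add_left om_smul_left om_add_right om_smul_right

theorem omL_apply (x y : Fin 4 → k) : omL k x y = om x y := rfl

/-- the source points `x_i` -/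
def xv (i : Fin 3) : Fin 4 → k := ![![1, 0, 0, 0], ![0, 0, 0, 1], ![1, 0, 0, 1]] i

/-- the source points `c_j` -/
def cv (i : Fin 3) : Fin 4 → k := ![![0, 1, 0, 0], ![0, 0, 1, 0], ![0, 1, 1, 0]] i

theorem xv_ne (i : Fin 3) : xv (k := k) i ≠ 0 := by
  intro h
  have h0 := congrFun h 0
  have h3 := congrFun h 3
  fin_cases i <;> simp [xv] at h0 h3

theorem cv_ne (i : Fin 3) : cv (k := k) i ≠ 0 := by
  intro h
  have h0 := congrFun h 1
  have h3 := congrFun h 2
  fin_cases i <;> simp [cv] at h0 h3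

theorem om_xc (i j : Fin 3) : om (xv (k := k) i) (cv j) = 0 := by
  rw [om_eq]
  fin_cases i <;> fin_cases j <;> simp [xv, cv]

theorem li_xc (i j : Fin 3) : LinearIndependent k ![xv (k := k) i, cv j] := by
  rw [LinearIndependent.pair_iff]
  intro s t h
  have h0 := congrFun h 0
  have h1 := congrFun h 1
  have h2 := congrFun h 2
  have h3 := congrFun h 3
  fin_cases i <;> fin_cases j <;> simp_all [xv, cv]

/-- the source line `x_i c_j` -/
noncomputable def lv (i j : Fin 3) : LL k :=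
  ⟨⟨Submodule.span k (Set.range ![xv i, cv j]), by
    rw [finrank_span_eq_card (li_xc i j), Fintype.card_fin]⟩, by
    intro x hx y hy
    have e : Set.range ![xv (k := k) i, cv j] = {xv i, cv j} := by
      rw [Matrix.range_cons, Matrix.range_cons, Matrix.range_empty, Set.union_empty,
        Set.singleton_union]
    simp only [e] at hx hy
    obtain ⟨a, b, rfl⟩ := Submodule.mem_span_pair.1 hx
    obtain ⟨c, d, rfl⟩ := Submodule.mem_span_pair.1 hy
    simp only [om_add_left, om_add_right, om_smul_left, om_smul_right, om_self, om_xc,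
      om_swap (xv i) (cv j)]
    ring⟩

theorem x_mem (i j : Fin 3) : xv i ∈ (lv (k := k) i j).1.1 :=
  Submodule.subset_span ⟨0, rfl⟩

theorem c_mem (i j : Fin 3) : cv j ∈ (lv (k := k) i j).1.1 :=
  Submodule.subset_span ⟨1, rfl⟩

theorem mem_lv (i j : Fin 3) {v : Fin 4 → k} (h : v ∈ (lv (k := k) i j).1.1) :
    ∃ a b : k, v = a • xv i + b • cv j := by
  have e : Set.range ![xv (k := k) i, cv j] = {xv i, cv j} := by
    rw [Matrix.range_cons, Matrix.range_cons, Matrix.range_empty, Set.union_empty,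
      Set.singleton_union]
  change v ∈ Submodule.span k (Set.range ![xv (k := k) i, cv j]) at h
  rw [e] at h
  obtain ⟨a, b, h⟩ := Submodule.mem_span_pair.1 h
  exact ⟨a, b, h.symm⟩

theorem cv0 (j : Fin 3) : cv (k := k) j 0 = 0 ∧ cv (k := k) j 3 = 0 := by
  fin_cases j <;> simp [cv]

theorem xv0 (j : Fin 3) : xv (k := k) j 1 = 0 ∧ xv (k := k) j 2 = 0 := by
  fin_cases j <;> simp [xv]

theorem xv_eq {i i' : Fin 3} {a : k} (h0 : xv (k := k) i 0 = a * xv i' 0)
    (h3 : xv (k := k) i 3 = a * xv i' 3) : i = i' := by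
  fin_cases i <;> fin_cases i' <;> simp [xv] at h0 h3 ⊢
  · rw [← h0] at h3
    exact one_ne_zero h3.symm
  · rw [← h3] at h0
    exact one_ne_zero h0.symm

theorem cv_eq {i i' : Fin 3} {a : k} (h0 : cv (k := k) i 1 = a * cv i' 1)
    (h3 : cv (k := k) i 2 = a * cv i' 2) : i = i' := by
  fin_cases i <;> fin_cases i' <;> simp [cv] at h0 h3 ⊢
  · rw [← h0] at h3
    exact one_ne_zero h3.symm
  · rw [← h3] at h0
    exact one_ne_zero h0.symm

/-- different lines -/
theorem lv_inj {i j i' j' : Fin 3} (h : lv (k := k) i j = lv i' j') : i = i' ∧ j = j' := by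
  have hx := x_mem (k := k) i j
  have hc := c_mem (k := k) i j
  rw [h] at hx hc
  obtain ⟨a, b, hx⟩ := mem_lv _ _ hx
  obtain ⟨c, d, hc⟩ := mem_lv _ _ hc
  constructor
  · refine xv_eq (a := a) ?_ ?_
    · rw [hx, Pi.add_apply, Pi.smul_apply, Pi.smul_apply, (cv0 j').1]
      simp
    · rw [hx, Pi.add_apply, Pi.smul_apply, Pi.smul_apply, (cv0 j').2]
      simp
  · refine cv_eq (a := d) ?_ ?_
    · rw [hc, Pi.add_apply, Pi.smul_apply, Pi.smul_apply, (xv0 i').1]
      simp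
    · rw [hc, Pi.add_apply, Pi.smul_apply, Pi.smul_apply, (xv0 i').2]
      simp

/-- the source point -/
def mkp (v : Fin 4 → k) (h : v ≠ 0) : YY k 3 := Projectivization.mk k v h

theorem mkp_inj {v w : Fin 4 → k} {hv : v ≠ 0} {hw : w ≠ 0} (h : mkp v hv = mkp w hw) :
    ∃ a : k, v = a • w := by
  obtain ⟨a, ha⟩ := (Projectivization.mk_eq_mk_iff' k v w hv hw).1 h
  exact ⟨a, ha.symm⟩

section leg

variable [ProperSpace k] {K : Type} [NormedAddCommGroup K] [InnerProductSpace ℂ K]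
  [CompleteSpace K]

/-- **No flip**: source points `c ↦ Ec c` (lines of the target), source lines `l ↦ F l` (points of
the target), all commuting, exact incidence, `agree nowhere`: impossible if `2 ≠ 0`. -/
theorem flip_com [Nontrivial K] (h2 : (2 : k) ≠ 0)
    (Ec : YY k 3 → (C(LL k, ℂ) →⋆ₐ[ℂ] (K →L[ℂ] K)))
    (F : LL k → (C(YY k 3, ℂ) →⋆ₐ[ℂ] (K →L[ℂ] K)))
    (ee : ∀ c c' f g, Commute (Ec c f) (Ec c' g)) (ff : ∀ l l' f g, Commute (F l f) (F l' g))
    (ef : ∀ c l f g, Commute (Ec c f) (F l g))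
    (inc : ∀ c l, on c l → ∀ (f : C(LL k, ℂ)) (g : C(YY k 3, ℂ)),
      (∀ n ∈ tsupport ⇑f, ∀ y ∈ tsupport ⇑g, ¬ on y n) → Ec c f * F l g = 0)
    (ae : ∀ c c', c ≠ c' → ∀ ξ, (∀ f, Ec c f ξ = Ec c' f ξ) → ξ = 0)
    (af : ∀ l l' c, l ≠ l' → on c l → on c l' → ∀ ξ, (∀ f, F l f ξ = F l' f ξ) → ξ = 0) :
    False := by
  have hxl : ∀ i j, on (mkp (xv (k := k) i) (xv_ne i)) (lv i j) := fun i j =>
    (on_mk _).2 (x_mem i j)
  have hcl : ∀ i j, on (mkp (cv (k := k) j) (cv_ne j)) (lv i j) := fun i j =>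
    (on_mk _).2 (c_mem i j)
  refine flip_gen (L := LL k) h2 (omL k) (fun x => om_self x) (fun x hx => ?_)
    (fun l => l.1.1) (fun l l' h => Subtype.ext (Subtype.ext h))
    (fun l => ⟨l.1.2, fun x hx y hy => l.2 x hx y hy⟩) on_closed
    (fun i => Ec (mkp (xv i) (xv_ne i))) (fun j => Ec (mkp (cv j) (cv_ne j)))
    (fun i j => F (lv i j)) (fun i j i' j' f g => ff _ _ f g)
    (fun i j i' f g => (ef _ _ _ _).symm) (fun i j i' f g => (ef _ _ _ _).symm)
    (fun i i' f g => ee _ _ _ _) (fun i j f g => ee _ _ _ _) (fun i j f g => ee _ _ _ _)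
    (fun i j u v h => ?_) (fun i j u v h => ?_) (fun i j j' h => ?_) (fun i i' j h => ?_)
    (fun i j => ?_) ?_
  · by_contra hc
    obtain ⟨y, hy⟩ := om_nondeg hc
    exact hy (hx y)
  · rw [← (ef (mkp (xv i) (xv_ne i)) (lv i j) v u).eq]
    exact inc _ _ (hxl i j) v u fun n hn y hy => h y hy n hn
  · rw [← (ef (mkp (cv j) (cv_ne j)) (lv i j) v u).eq]
    exact inc _ _ (hcl i j) v u fun n hn y hy => h y hy n hn
  · exact af _ _ _ (fun e => h (lv_inj e).2) (hxl i j) (hxl i j')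
  · exact af _ _ _ (fun e => h (lv_inj e).1) (hcl i j) (hcl i' j)
  · refine ae _ _ fun e => ?_
    obtain ⟨a, ha⟩ := mkp_inj e
    have h0 := congrFun ha 0
    have h3 := congrFun ha 3
    rw [Pi.smul_apply, (cv0 j).1, smul_zero] at h0
    rw [Pi.smul_apply, (cv0 j).2, smul_zero] at h3
    refine xv_ne (k := k) i (funext fun s => ?_)
    fin_cases s
    · exact h0
    · exact (xv0 i).1
    · exact (xv0 i).2
    · exact h3
  · refine ae _ _ fun e => ?_
    obtain ⟨a, ha⟩ := mkp_inj e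
    have h0 := congrFun ha 0
    simp [xv] at h0

variable {E Γ : Type} [Group E] [TopologicalSpace E] [Group Γ]

/-- **[P-SWAP]**: the flipped leg whose calculi commute does not exist. -/
theorem flip_false [MeasurableSpace k] (h2 : (2 : k) ≠ 0) {μ : Measure k} {w : kˣ}
    {𝒰 : Ultrafilter ℕ} {ι : S4 k →* E} {a : E →* PG k 4} {π : E →* (K →L[ℂ] K)}
    {lam : Γ →* (K →L[ℂ] K)} {W : Set (K →L[ℂ] K)} {Ω : K} {m : Set Γ → (K →L[ℂ] K)}
    {q : Γ → S4 k} {NA₁ : ℝ → ℝ → Set (LL k) → Set Γ} {NA₂ : ℝ → ℝ → Set (YY k 3) → Set Γ}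
    {Ec : YY k 3 → (C(LL k, ℂ) →⋆ₐ[ℂ] (K →L[ℂ] K))}
    {F : LL k → (C(YY k 3, ℂ) →⋆ₐ[ℂ] (K →L[ℂ] K))}
    (h : LegC (flip on) μ w 𝒰 ι a π lam W Ω m q NA₁ NA₂ Ec F) (hc : Com Ec F) : False := by
  haveI : Nontrivial K := ⟨⟨Ω, 0, fun e => by
    have h1 := h.base.pic.nΩ
    rw [e, norm_zero] at h1
    exact zero_ne_one h1⟩⟩
  exact flip_com h2 Ec F hc.ee hc.ff hc.ef (fun c l hcl f g hn => (h.pl c l hcl).inc f g hn)
    h.e.agr (fun l l' c hne _ _ => h.f.agr l l' hne)

end leg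

end Vale.Agent.P092.H820.FlipW
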