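import Vale.Agent.P092.H820.Model

/-!
P092 (helper820), stage (S), block [S8]: the amplified frame of an isomorphism of `L(Λ)` onto a
corner of `M_ι(L(Γ))`.
-/

set_option linter.all false

open scoped InnerProductSpace
open Filter Topology ContinuousLinearMap

namespace Vale.Agent.P092.H820

open Vale.Agent.P092.H160 Vale.Agent.P092.H553 Vale.Agent.P092.H432

section conj

variable {Γ ι : Type} [Group Γ]

/-- `(g, i) ↦ (g⁻¹, i)` -/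
def invx (Γ ι : Type) [Group Γ] : Γ × ι ≃ Γ × ι := (Equiv.inv Γ).prodCongr (Equiv.refl ι)

theorem invx_invx (x : Γ × ι) : invx Γ ι (invx Γ ι x) = x := by
  change ((x.1⁻¹)⁻¹, x.2) = x
  rw [inv_inv]

theorem memlp_jx (ξ : Ell2 (Γ × ι)) :
    Memℓp (fun x : Γ × ι => (starRingEnd ℂ) (ξ (invx Γ ι x))) 2 := by
  refine memlp_of_summable ?_
  have h := (Equiv.summable_iff (invx Γ ι)).mpr (summable_sq ξ)
  refine h.congr fun g => ?_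
  simp

/-- `(Jξ)(g,i) = conj ξ(g⁻¹,i)`. -/
noncomputable def jx : Ell2 (Γ × ι) →ₗᵢ⋆[ℂ] Ell2 (Γ × ι) where
  toFun ξ := ⟨fun x => (starRingEnd ℂ) (ξ (invx Γ ι x)), memlp_jx ξ⟩
  map_add' ξ η := by
    ext x
    change (starRingEnd ℂ) ((ξ + η : Ell2 (Γ × ι)) (invx Γ ι x)) = _
    rw [lp.coeFn_add, Pi.add_apply, map_add]
    rfl
  map_smul' c ξ := by
    ext x
    change (starRingEnd ℂ) ((c • ξ : Ell2 (Γ × ι)) (invx Γ ι x)) = _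
    rw [lp.coeFn_smul, Pi.smul_apply, smul_eq_mul, map_mul]
    rfl
  norm_map' ξ := by
    have h : ‖(⟨fun x => (starRingEnd ℂ) (ξ (invx Γ ι x)), memlp_jx ξ⟩ : Ell2 (Γ × ι))‖ ^ 2 =
        ‖ξ‖ ^ 2 := by
      rw [norm_sq, norm_sq, ← Equiv.tsum_eq (invx Γ ι) (fun x => ‖ξ x‖ ^ 2)]
      refine tsum_congr fun x => ?_
      change ‖(starRingEnd ℂ) (ξ (invx Γ ι x))‖ ^ 2 = ‖ξ (invx Γ ι x)‖ ^ 2
      rw [RCLike.norm_conj]
    exact (pow_left_inj₀ (norm_nonneg _) (norm_nonneg _) two_ne_zero).mp h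

theorem jx_apply (ξ : Ell2 (Γ × ι)) (x : Γ × ι) :
    jx ξ x = (starRingEnd ℂ) (ξ (invx Γ ι x)) := rfl

@[simp] theorem jx_jx (ξ : Ell2 (Γ × ι)) : jx (jx ξ) = ξ := by
  ext x
  rw [jx_apply, jx_apply, invx_invx, Complex.conj_conj]

theorem jx_smul (c : ℂ) (ξ : Ell2 (Γ × ι)) : jx (c • ξ) = (starRingEnd ℂ) c • jx ξ :=
  (jx (Γ := Γ) (ι := ι)).map_smulₛₗ c ξ

theorem inner_jx (ξ η : Ell2 (Γ × ι)) : ⟪jx ξ, jx η⟫_ℂ = ⟪η, ξ⟫_ℂ := by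
  rw [inner_eq, inner_eq, ← Equiv.tsum_eq (invx Γ ι)]
  refine tsum_congr fun x => ?_
  rw [jx_apply, jx_apply, invx_invx, Complex.conj_conj, mul_comm]

theorem inner_jx_left (ξ η : Ell2 (Γ × ι)) : ⟪jx ξ, η⟫_ℂ = ⟪jx η, ξ⟫_ℂ := by
  conv_lhs => rw [← jx_jx η, inner_jx]

theorem norm_jx (ξ : Ell2 (Γ × ι)) : ‖jx ξ‖ = ‖ξ‖ := (jx (Γ := Γ) (ι := ι)).norm_map ξ

theorem jx_ep (i : ι) : jx (ep i : Ell2 (Γ × ι)) = ep i := by
  classical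
  ext ⟨g, j⟩
  rw [jx_apply, ep, dl_apply, dl_apply]
  change (starRingEnd ℂ) (if ((g⁻¹, j) : Γ × ι) = (1, i) then 1 else 0) = _
  by_cases h : ((g, j) : Γ × ι) = (1, i)
  · obtain ⟨rfl, rfl⟩ := Prod.mk.inj h
    simp
  · rw [if_neg h, if_neg, map_zero]
    intro h2
    obtain ⟨h3, h4⟩ := Prod.mk.inj h2
    exact h (by rw [inv_eq_one.mp h3, h4])

theorem inner_ep_jx (i : ι) (η : Ell2 (Γ × ι)) :
    ⟪(ep i : Ell2 (Γ × ι)), jx η⟫_ℂ = (starRingEnd ℂ) ⟪(ep i : Ell2 (Γ × ι)), η⟫_ℂ := by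
  rw [← jx_ep i, inner_jx, inner_conj_symm, jx_ep]

/-- `J T J`. -/
noncomputable def cjx (T : Ell2 (Γ × ι) →L[ℂ] Ell2 (Γ × ι)) : Ell2 (Γ × ι) →L[ℂ] Ell2 (Γ × ι) :=
  LinearMap.mkContinuous
    { toFun := fun ξ => jx (T (jx ξ))
      map_add' := fun ξ η => by simp only [map_add]
      map_smul' := fun c ξ => by
        rw [jx_smul, map_smul, jx_smul, RingHom.id_apply, Complex.conj_conj] }
    ‖T‖ (fun ξ => by
      change ‖jx (T (jx ξ))‖ ≤ _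
      rw [norm_jx]
      refine (T.le_opNorm _).trans ?_
      rw [norm_jx])

theorem cjx_apply (T : Ell2 (Γ × ι) →L[ℂ] Ell2 (Γ × ι)) (ξ : Ell2 (Γ × ι)) :
    cjx T ξ = jx (T (jx ξ)) := rfl

theorem cjx_mul (S T : Ell2 (Γ × ι) →L[ℂ] Ell2 (Γ × ι)) : cjx (S * T) = cjx S * cjx T := by
  ext1 ξ
  rw [mul_ap, cjx_apply, cjx_apply, cjx_apply, mul_ap, jx_jx]

theorem cjx_cjx (T : Ell2 (Γ × ι) →L[ℂ] Ell2 (Γ × ι)) : cjx (cjx T) = T := by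
  ext1 ξ
  rw [cjx_apply, cjx_apply, jx_jx, jx_jx]

theorem cjx_adjoint (T : Ell2 (Γ × ι) →L[ℂ] Ell2 (Γ × ι)) :
    adjoint (cjx T) = cjx (adjoint T) := by
  rw [eq_comm, ContinuousLinearMap.eq_adjoint_iff]
  intro x y
  rw [cjx_apply, cjx_apply, inner_jx_left, adjoint_inner_right, ← inner_jx, jx_jx]

theorem jx_lx (s : Γ) (ξ : Ell2 (Γ × ι)) : jx (lx s ξ) = rx s (jx ξ) := by
  ext ⟨g, i⟩
  rw [jx_apply, lx_apply, rx_apply, jx_apply]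
  change (starRingEnd ℂ) (ξ (s⁻¹ * g⁻¹, i)) = (starRingEnd ℂ) (ξ ((g * s)⁻¹, i))
  rw [mul_inv_rev]

theorem jx_rx (s : Γ) (ξ : Ell2 (Γ × ι)) : jx (rx s ξ) = lx s (jx ξ) := by
  rw [← jx_jx (lx s (jx ξ)), jx_lx, jx_jx]

theorem ra_cjx {T : Ell2 (Γ × ι) →L[ℂ] Ell2 (Γ × ι)} (hT : T ∈ NN Γ ι) : RA (cjx T) := by
  rw [mem_NN_iff] at hT
  intro s
  ext1 ξ
  change jx (T (jx (lx s ξ))) = lx s (jx (T (jx ξ)))
  rw [jx_lx, hT, jx_rx]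

theorem cjx_mem {T : Ell2 (Γ × ι) →L[ℂ] Ell2 (Γ × ι)} (hT : RA T) : cjx T ∈ NN Γ ι := by
  rw [mem_NN_iff]
  intro s ξ
  rw [cjx_apply, cjx_apply, jx_rx, hT.app, jx_lx]

end conj

section main

variable {Γ Λ ι : Type} [Group Γ] [Group Λ] [Fintype ι]

/-- The hypothesis on the corner isomorphism `L(Λ) ≅ p M_ι(L(Γ)) p`, `p = θ 1`. -/
structure CornerIso (θ : LG Λ →⋆ₙₐ[ℂ] Matrix ι ι (LG Γ)) : Prop where
  inj : Function.Injective θ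
  surj : ∀ x : Matrix ι ι (LG Γ), θ 1 * x * θ 1 = x → ∃ y, θ y = x

variable {θ : LG Λ →⋆ₙₐ[ℂ] Matrix ι ι (LG Γ)}

theorem CornerIso.corner (h : CornerIso θ) : Corner (LG Λ) (NN Γ ι) ((opH Γ ι).comp θ) where
  inj := fun x y hxy => h.inj (opM_inj hxy)
  mem x := opM_mem _
  surj T hT h1 := by
    obtain ⟨x, rfl⟩ := exists_opM hT
    change opM (θ 1) * opM x * opM (θ 1) = opM x at h1
    rw [← opM_mul, ← opM_mul] at h1
    obtain ⟨y, hy⟩ := h.surj x (opM_inj h1)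
    exact ⟨y, by change opM (θ y) = _; rw [hy]⟩

/-- [S8] (i): the trace formula. -/
theorem CornerIso.trf (hΛ : ∀ g : Λ, g ≠ 1 → Set.Infinite {y : Λ | ∃ h, y = h * g * h⁻¹})
    (h : CornerIso θ) (x : LG Λ) : ∑ i, tr (θ x i i) = (∑ i, tr (θ 1 i i)) * tr x := by
  have h1 := tr_corner hΛ cc_NN h.corner (fun i => (ep i : Ell2 (Γ × ι))) norm_ep
    (fun x y hx hy => trace_NN hx hy) x
  change ∑ i, ⟪(ep i : Ell2 (Γ × ι)), opM (θ x) (ep i)⟫_ℂ =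
    (∑ i, ⟪(ep i : Ell2 (Γ × ι)), opM (θ 1) (ep i)⟫_ℂ) * tr x at h1
  simpa only [inner_ep_opM] using h1

theorem op_ext_NN {S T : Ell2 (Γ × ι) →L[ℂ] Ell2 (Γ × ι)} (hS : S ∈ NN Γ ι) (hT : T ∈ NN Γ ι)
    (h : ∀ i, S (ep i) = T (ep i)) : S = T := by
  rw [mem_NN_iff] at hS hT
  apply op_ext
  rintro ⟨g, i⟩
  have h1 : (dl (g, i) : Ell2 (Γ × ι)) = rx g⁻¹ (ep i) := by
    rw [ep, rx, rei_dl]
    change _ = dl ((1 : Γ) * (g⁻¹)⁻¹, i)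
    rw [one_mul, inv_inv]
  rw [h1, hS, hT, h]

theorem sum_norm_sq (θ : LG Λ →⋆ₙₐ[ℂ] Matrix ι ι (LG Γ)) (x : LG Λ) :
    ((∑ i, ‖opM (θ x) (ep i : Ell2 (Γ × ι))‖ ^ 2 : ℝ) : ℂ) = ∑ i, tr (θ (star x * x) i i) := by
  rw [Complex.ofReal_sum]
  refine Finset.sum_congr rfl fun i _ => ?_
  rw [← inner_ep_opM, map_mul, map_star, opM_mul, opM_star, mul_ap, star_eq_adjoint,
    adjoint_inner_right, inner_self_eq_norm_sq_to_K]
  norm_cast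

theorem trace_pos (h : CornerIso θ) :
    ∃ t : ℝ, 0 < t ∧ ∑ i, tr (θ 1 i i) = (t : ℂ) := by
  have h1 := sum_norm_sq θ 1
  rw [star_one, one_mul] at h1
  refine ⟨_, ?_, h1.symm⟩
  have h2 : 0 ≤ ∑ i, ‖opM (θ 1) (ep i : Ell2 (Γ × ι))‖ ^ 2 := by positivity
  refine lt_of_le_of_ne h2 fun h3 => ?_
  have h4 : opM (θ 1) = 0 := by
    refine op_ext_NN (opM_mem _) (zero_mem _) fun i => ?_
    have h5 := (Finset.sum_eq_zero_iff_of_nonneg (fun i _ => by positivity)).mp h3.symm i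
      (Finset.mem_univ i)
    rw [zero_apply]
    exact norm_eq_zero.mp (pow_eq_zero_iff two_ne_zero |>.mp h5)
  have h5 : (1 : LG Λ) = 0 := by
    refine h.inj ?_
    rw [map_zero]
    refine opM_inj ?_
    rw [h4]
    exact (map_zero (opH Γ ι)).symm
  have h6 : H160.tr (1 : LG Λ) = 0 := by
    rw [h5, tr_eq]
    change ⟪dl 1, (0 : Ell2 Λ →L[ℂ] Ell2 Λ) (dl 1)⟫_ℂ = 0
    rw [zero_apply, inner_zero_right]
  rw [H108.tr_one] at h6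
  exact one_ne_zero h6

/-- The right multiplications of the corner isomorphism. -/
noncomputable def Rr (θ : LG Λ →⋆ₙₐ[ℂ] Matrix ι ι (LG Γ)) (v : Λ) :
    Ell2 (Γ × ι) →L[ℂ] Ell2 (Γ × ι) := cjx (opM (θ (uu v)))

theorem Rr_ep (v : Λ) (i : ι) : Rr θ v (ep i) = jx (opM (θ (uu v)) (ep i)) := by
  rw [Rr, cjx_apply, jx_ep]

theorem tr_uu (v : Λ) (hv : v ≠ 1) : tr (uu v : LG Λ) = 0 := by
  rw [tr_eq]
  change ⟪dl 1, lam v (dl 1)⟫_ℂ = 0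
  rw [lam_dl, mul_one, inner_dl, dl_ne (Ne.symm hv)]

theorem arep_of (hΛ : ∀ g : Λ, g ≠ 1 → Set.Infinite {y : Λ | ∃ h, y = h * g * h⁻¹})
    (h : CornerIso θ) {t : ℝ} (ht : 0 < t) (ht1 : ∑ i, tr (θ 1 i i) = (t : ℂ)) :
    ARep t (Rr θ) where
  ra v := ra_cjx (opM_mem _)
  mul v w := by rw [Rr, Rr, Rr, uu_mul, map_mul, opM_mul, cjx_mul]
  adj v := by
    rw [Rr, Rr, cjx_adjoint, ← star_uu, map_star, opM_star, star_eq_adjoint]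
  pos := ht
  tr_one := by
    have h1 : ∀ i, ⟪(ep i : Ell2 (Γ × ι)), Rr θ 1 (ep i)⟫_ℂ =
        (starRingEnd ℂ) (tr (θ 1 i i)) := by
      intro i
      rw [Rr_ep, inner_ep_jx, inner_ep_opM, uu_one]
    simp only [h1]
    rw [← map_sum, ht1, Complex.conj_ofReal]
  tr_zero v hv := by
    have h1 : ∀ i, ⟪(ep i : Ell2 (Γ × ι)), Rr θ v (ep i)⟫_ℂ =
        (starRingEnd ℂ) (tr (θ (uu v) i i)) := by
      intro i
      rw [Rr_ep, inner_ep_jx, inner_ep_opM]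
    simp only [h1]
    rw [← map_sum, h.trf hΛ, tr_uu v hv, mul_zero, map_zero]

theorem sum_norm_sq' (hΛ : ∀ g : Λ, g ≠ 1 → Set.Infinite {y : Λ | ∃ h, y = h * g * h⁻¹})
    (h : CornerIso θ) {t : ℝ} (ht1 : ∑ i, tr (θ 1 i i) = (t : ℂ)) (x : LG Λ) :
    ∑ i, ‖opM (θ x) (ep i : Ell2 (Γ × ι))‖ ^ 2 = t * ‖(x : Ell2 Λ →L[ℂ] Ell2 Λ) (dl 1)‖ ^ 2 := by
  have h1 := sum_norm_sq θ x
  have h2 := norm_sq_eq_tr x
  rw [h.trf hΛ, ht1, ← h2] at h1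
  exact_mod_cast h1

theorem aframe_of (hΛ : ∀ g : Λ, g ≠ 1 → Set.Infinite {y : Λ | ∃ h, y = h * g * h⁻¹})
    (h : CornerIso θ) {t : ℝ} (ht : 0 < t) (ht1 : ∑ i, tr (θ 1 i i) = (t : ℂ)) :
    AFrame t (Rr θ) where
  toARep := arep_of hΛ h ht ht1
  dense := by
    intro T hT h1 ε hε
    obtain ⟨a, ha⟩ : ∃ a, ((opH Γ ι).comp θ) a = cjx T := by
      refine h.corner.surj _ (cjx_mem hT) ?_
      change opM (θ 1) * cjx T * opM (θ 1) = cjx T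
      have h2 := congrArg cjx h1
      rw [cjx_mul, cjx_mul, Rr, cjx_cjx, uu_one] at h2
      exact h2
    change opM (θ a) = cjx T at ha
    obtain ⟨c, hc⟩ : ∃ c : Λ → ℂ, c = fun g => (a : Ell2 Λ →L[ℂ] Ell2 Λ) (dl 1) g := ⟨_, rfl⟩
    have h5 := hasSum_dl ((a : Ell2 Λ →L[ℂ] Ell2 Λ) (dl 1))
    have hpos : 0 < ε / Real.sqrt t := by positivity
    have h6 := h5.eventually (Metric.ball_mem_nhds _ hpos)
    obtain ⟨s, hs⟩ := h6.exists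
    have h7 : ‖(a : Ell2 Λ →L[ℂ] Ell2 Λ) (dl 1) - ∑ g ∈ s, c g • dl g‖ < ε / Real.sqrt t := by
      rw [← dist_eq_norm, dist_comm, hc]
      exact hs
    have h8 : ((a - fc s c : LG Λ) : Ell2 Λ →L[ℂ] Ell2 Λ) (dl 1) =
        (a : Ell2 Λ →L[ℂ] Ell2 Λ) (dl 1) - ∑ g ∈ s, c g • dl g := by
      rw [← fc_dl]
      rfl
    refine ⟨s, fun v => (starRingEnd ℂ) (c v), ?_⟩
    have h9 : ∀ i, T (ep i) - ∑ v ∈ s, (starRingEnd ℂ) (c v) • Rr θ v (ep i) =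
        jx (opM (θ (a - fc s c)) (ep i)) := by
      intro i
      have h10 : T (ep i) = jx (opM (θ a) (ep i)) := by
        rw [ha, cjx_apply, jx_jx, jx_ep]
      have h11 : opM (θ (fc s c)) (ep i : Ell2 (Γ × ι)) = ∑ v ∈ s, c v • opM (θ (uu v)) (ep i) := by
        change ((opH Γ ι).comp θ) (fc s c) (ep i) = _
        rw [fc, map_sum, sum_apply]
        refine Finset.sum_congr rfl fun v _ => ?_
        rw [map_smul, smul_apply]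
        rfl
      have h12 : opM (θ (a - fc s c)) (ep i : Ell2 (Γ × ι)) =
          opM (θ a) (ep i) - opM (θ (fc s c)) (ep i) := by
        change ((opH Γ ι).comp θ) (a - fc s c) (ep i) = _
        rw [map_sub, sub_apply]
        rfl
      rw [h12, map_sub, h11, map_sum, h10]
      congr 1
      refine Finset.sum_congr rfl fun v _ => ?_
      rw [jx_smul, Rr_ep]
    simp only [h9, norm_jx]
    rw [sum_norm_sq' hΛ h ht1, h8]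
    calc _ ≤ t * (ε / Real.sqrt t) ^ 2 := by gcongr
      _ = ε ^ 2 := by
        rw [div_pow, Real.sq_sqrt ht.le]
        field_simp

/-- [S8] (ii). -/
theorem exists_aframe (hΛ : ∀ g : Λ, g ≠ 1 → Set.Infinite {y : Λ | ∃ h, y = h * g * h⁻¹})
    (h : CornerIso θ) : ∃ t : ℝ, ∑ i, tr (θ 1 i i) = (t : ℂ) ∧
      ∃ R : Λ → (Ell2 (Γ × ι) →L[ℂ] Ell2 (Γ × ι)), AFrame t R := by
  obtain ⟨t, ht, ht1⟩ := trace_pos h
  exact ⟨t, ht1, Rr θ, aframe_of hΛ h ht ht1⟩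

end main

end Vale.Agent.P092.H820
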