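import Vale.Agent.P092.H171.Gp
import Vale.Agent.P092.H171.Ej

/-!
P092 (helper820), Team P: a finite family of commuting calculi of points and lines (two compact
metrizable spaces with a closed incidence relation) has a configuration which satisfies all
incidences and inequalities of the family.
-/

set_option linter.all false

open Topology TopologicalSpace Filter Set ContinuousLinearMap MeasureTheory
open scoped InnerProductSpace ComplexConjugate

namespace Vale.Agent.P092.H820.Cfg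

open Vale.Agent.P092.H171
open Vale.Agent.P092.H466 (ms ms_univ)

variable {K : Type*} [NormedAddCommGroup K] [InnerProductSpace ℂ K] [CompleteSpace K]

section one

variable {P : Type*} [TopologicalSpace P] [CompactSpace P] [MetrizableSpace P]
  [SecondCountableTopology P] {ι : Type*} [Finite ι]

/-- one space -/
theorem exists_one [Nontrivial K] (φ : ι → (C(P, ℂ) →⋆ₐ[ℂ] (K →L[ℂ] K)))
    (hc : ∀ i j f g, Commute (φ i f) (φ j g)) (p : (ι → P) → Prop)
    (hp : ∀ [MeasurableSpace P] [BorelSpace P] (Φ : C(ι → P, ℂ) →⋆ₐ[ℂ] (K →L[ℂ] K)),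
      (∀ i f, Φ (co i f) = φ i f) → ∀ ξ, ∀ᵐ z ∂(ms Φ ξ), p z) : ∃ z, p z := by
  obtain ⟨Φ, hΦ⟩ := exists_joint φ hc
  letI : MeasurableSpace P := borel P
  haveI : BorelSpace P := ⟨rfl⟩
  obtain ⟨ξ, hξ⟩ := exists_ne (0 : K)
  by_contra hcon
  push Not at hcon
  have h5 : ms Φ ξ univ = 0 :=
    measure_eq_zero_iff_ae_notMem.2 ((hp Φ hΦ ξ).mono fun z hz => (hcon z hz).elim)
  have h6 := ms_univ Φ ξ
  rw [Measure.real, h5] at h6
  exact hξ (by simpa using h6.symm)

end one

section two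

variable {Y Y' : Type*} [TopologicalSpace Y] [CompactSpace Y] [MetrizableSpace Y]
  [SecondCountableTopology Y] [TopologicalSpace Y'] [CompactSpace Y'] [MetrizableSpace Y']
  [SecondCountableTopology Y'] {ι ι' : Type*} [Finite ι] [Finite ι']

/-- functions of `Y` as functions of `Y ⊕ Y'` -/
noncomputable def inlH (Y Y' : Type*) [TopologicalSpace Y] [TopologicalSpace Y'] :
    C(Y ⊕ Y', ℂ) →⋆ₐ[ℂ] C(Y, ℂ) :=
  ContinuousMap.compStarAlgHom' ℂ ℂ ⟨Sum.inl, continuous_inl⟩

noncomputable def inrH (Y Y' : Type*) [TopologicalSpace Y] [TopologicalSpace Y'] :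
    C(Y ⊕ Y', ℂ) →⋆ₐ[ℂ] C(Y', ℂ) :=
  ContinuousMap.compStarAlgHom' ℂ ℂ ⟨Sum.inr, continuous_inr⟩

theorem inlH_apply (f : C(Y ⊕ Y', ℂ)) (y : Y) : inlH Y Y' f y = f (.inl y) := rfl

theorem inrH_apply (f : C(Y ⊕ Y', ℂ)) (y : Y') : inrH Y Y' f y = f (.inr y) := rfl

/-- the calculus of a point or of a line -/
noncomputable def both (E : ι → (C(Y, ℂ) →⋆ₐ[ℂ] (K →L[ℂ] K)))
    (F : ι' → (C(Y', ℂ) →⋆ₐ[ℂ] (K →L[ℂ] K))) :
    ι ⊕ ι' → (C(Y ⊕ Y', ℂ) →⋆ₐ[ℂ] (K →L[ℂ] K))
  | .inl i => (E i).comp (inlH Y Y')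
  | .inr j => (F j).comp (inrH Y Y')

variable {E : ι → (C(Y, ℂ) →⋆ₐ[ℂ] (K →L[ℂ] K))} {F : ι' → (C(Y', ℂ) →⋆ₐ[ℂ] (K →L[ℂ] K))}

theorem both_inl (i : ι) (f : C(Y ⊕ Y', ℂ)) : both E F (.inl i) f = E i (inlH Y Y' f) := rfl

theorem both_inr (j : ι') (f : C(Y ⊕ Y', ℂ)) : both E F (.inr j) f = F j (inrH Y Y' f) := rfl

/-- extension by `0` -/
noncomputable def exl (f : C(Y, ℂ)) : C(Y ⊕ Y', ℂ) :=
  ⟨Sum.elim f fun _ => 0, continuous_sum_dom.2 ⟨f.continuous, continuous_const⟩⟩

noncomputable def exr (f : C(Y', ℂ)) : C(Y ⊕ Y', ℂ) :=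
  ⟨Sum.elim (fun _ => 0) f, continuous_sum_dom.2 ⟨continuous_const, f.continuous⟩⟩

theorem inlH_exl (f : C(Y, ℂ)) : inlH Y Y' (exl f) = f := by ext y; rfl

theorem inrH_exr (f : C(Y', ℂ)) : inrH Y Y' (exr f) = f := by ext y; rfl

theorem mem_ts_inl {f : C(Y ⊕ Y', ℂ)} {y : Y} (h : y ∈ tsupport (inlH Y Y' f)) :
    (Sum.inl y : Y ⊕ Y') ∈ tsupport f := by
  have h1 : tsupport (inlH Y Y' f) ⊆ (Sum.inl : Y → Y ⊕ Y') ⁻¹' tsupport f := by
    refine closure_minimal (fun x hx => ?_) ((isClosed_tsupport f).preimage continuous_inl)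
    exact subset_tsupport f hx
  exact h1 h

theorem mem_ts_inr {f : C(Y ⊕ Y', ℂ)} {y : Y'} (h : y ∈ tsupport (inrH Y Y' f)) :
    (Sum.inr y : Y ⊕ Y') ∈ tsupport f := by
  have h1 : tsupport (inrH Y Y' f) ⊆ (Sum.inr : Y' → Y ⊕ Y') ⁻¹' tsupport f := by
    refine closure_minimal (fun x hx => ?_) ((isClosed_tsupport f).preimage continuous_inr)
    exact subset_tsupport f hx
  exact h1 h

/-- two calculi agree nowhere -/
def Agn {Q : Type*} [TopologicalSpace Q] (φ ψ : C(Q, ℂ) →⋆ₐ[ℂ] (K →L[ℂ] K)) : Prop :=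
  ∀ ξ, (∀ f, φ f ξ = ψ f ξ) → ξ = 0

/-- two calculi are incident -/
def Ici (I : Set (Y × Y')) (φ : C(Y, ℂ) →⋆ₐ[ℂ] (K →L[ℂ] K))
    (ψ : C(Y', ℂ) →⋆ₐ[ℂ] (K →L[ℂ] K)) : Prop :=
  ∀ (u : C(Y, ℂ)) (v : C(Y', ℂ)), (∀ x ∈ tsupport u, ∀ l ∈ tsupport v, (x, l) ∉ I) →
    φ u * ψ v = 0

/-- **the configuration of a finite commuting family** -/
theorem exists_cfg [Nontrivial K] (hEE : ∀ i j f g, Commute (E i f) (E j g))
    (hEF : ∀ i j f g, Commute (E i f) (F j g)) (hFF : ∀ i j f g, Commute (F i f) (F j g))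
    {I : Set (Y × Y')} (hI : IsClosed I) :
    ∃ (y : ι → Y) (l : ι' → Y'), (∀ i j, Ici I (E i) (F j) → (y i, l j) ∈ I) ∧
      (∀ i j, Agn (E i) (E j) → y i ≠ y j) ∧ ∀ i j, Agn (F i) (F j) → l i ≠ l j := by
  have hc : ∀ i j f g, Commute (both E F i f) (both E F j g) := by
    rintro (i | i) (j | j) f g
    · exact hEE _ _ _ _
    · exact hEF _ _ _ _
    · exact (hEF _ _ _ _).symm
    · exact hFF _ _ _ _
  obtain ⟨z, h1, h2, h3, h4, h5⟩ := exists_one (both E F) hc
    (fun z => (∀ i, z (.inl i) ∈ range (Sum.inl : Y → Y ⊕ Y')) ∧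
      (∀ j, z (.inr j) ∈ range (Sum.inr : Y' → Y ⊕ Y')) ∧
      (∀ i j, Ici I (E i) (F j) →
        (z (.inl i), z (.inr j)) ∈ (Prod.map Sum.inl Sum.inr : Y × Y' → _) '' I) ∧
      (∀ i j, Agn (E i) (E j) → z (.inl i) ≠ z (.inl j)) ∧
      ∀ i j, Agn (F i) (F j) → z (.inr i) ≠ z (.inr j)) (fun {_ _} Φ hΦ ξ => by
    refine Filter.Eventually.and (ae_all_iff.2 fun i => ?_) (Filter.Eventually.and
      (ae_all_iff.2 fun j => ?_) (Filter.Eventually.and (ae_all_iff.2 fun i =>
      ae_all_iff.2 fun j => ?_) (Filter.Eventually.and (ae_all_iff.2 fun i =>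
      ae_all_iff.2 fun j => ?_) (ae_all_iff.2 fun i => ae_all_iff.2 fun j => ?_))))
    · have h := ae_inc (i := .inl i) (j := .inl i) hΦ
        (I := {q | q.1 ∈ range (Sum.inl : Y → Y ⊕ Y')})
        (isClosed_range_inl.preimage continuous_fst) (fun u v huv => by
          rcases (tsupport v).eq_empty_or_nonempty with h0 | ⟨y, hy⟩
          · have : v = 0 := by
              ext x
              by_contra hx
              have : x ∈ tsupport v := subset_tsupport v hx
              rw [h0] at this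
              exact this
            rw [this, map_zero, mul_zero]
          · have : inlH Y Y' u = 0 := by
              ext x
              by_contra hx
              exact huv _ (subset_tsupport u hx) y hy ⟨x, rfl⟩
            rw [both_inl, this, map_zero, zero_mul]) ξ
      exact h
    · have h := ae_inc (i := .inr j) (j := .inr j) hΦ
        (I := {q | q.1 ∈ range (Sum.inr : Y' → Y ⊕ Y')})
        (isClosed_range_inr.preimage continuous_fst) (fun u v huv => by
          rcases (tsupport v).eq_empty_or_nonempty with h0 | ⟨y, hy⟩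
          · have : v = 0 := by
              ext x
              by_contra hx
              have : x ∈ tsupport v := subset_tsupport v hx
              rw [h0] at this
              exact this
            rw [this, map_zero, mul_zero]
          · have : inrH Y Y' u = 0 := by
              ext x
              by_contra hx
              exact huv _ (subset_tsupport u hx) y hy ⟨x, rfl⟩
            rw [both_inr, this, map_zero, zero_mul]) ξ
      exact h
    · by_cases hij : Ici I (E i) (F j)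
      · have h := ae_inc (i := .inl i) (j := .inr j) hΦ
          (I := (Prod.map Sum.inl Sum.inr : Y × Y' → (Y ⊕ Y') × (Y ⊕ Y')) '' I)
          ((hI.isCompact.image (continuous_inl.prodMap continuous_inr)).isClosed)
          (fun u v huv => hij _ _ fun x hx l hl hxl =>
            huv _ (mem_ts_inl hx) _ (mem_ts_inr hl) ⟨(x, l), hxl, rfl⟩) ξ
        exact h.mono fun z hz _ => hz
      · exact Eventually.of_forall fun z h => absurd h hij
    · by_cases hij : Agn (E i) (E j)
      · have h := ae_ne (i := .inl i) (j := .inl j) hΦ (fun ζ hζ => hij ζ fun f => by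
          have := hζ (exl f)
          rwa [both_inl, both_inl, inlH_exl] at this) ξ
        exact h.mono fun z hz _ => hz
      · exact Eventually.of_forall fun z h => absurd h hij
    · by_cases hij : Agn (F i) (F j)
      · have h := ae_ne (i := .inr i) (j := .inr j) hΦ (fun ζ hζ => hij ζ fun f => by
          have := hζ (exr f)
          rwa [both_inr, both_inr, inrH_exr] at this) ξ
        exact h.mono fun z hz _ => hz
      · exact Eventually.of_forall fun z h => absurd h hij)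
  choose y hy using h1
  choose l hl using h2
  refine ⟨y, l, fun i j h => ?_, fun i j h he => h4 i j h (by rw [← hy, ← hy, he]),
    fun i j h he => h5 i j h (by rw [← hl, ← hl, he])⟩
  obtain ⟨⟨a, b⟩, hab, he⟩ := h3 i j h
  rw [← hy, ← hl] at he
  have e1 : (Sum.inl a : Y ⊕ Y') = .inl (y i) := congrArg Prod.fst he
  have e2 : (Sum.inr b : Y ⊕ Y') = .inr (l j) := congrArg Prod.snd he
  rw [Sum.inl.injEq] at e1
  rw [Sum.inr.injEq] at e2
  rwa [e1, e2] at hab

end two

end Vale.Agent.P092.H820.Cfg
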