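import Vale.Agent.P092.H820.Grid
import Vale.Agent.P092.H820.Cfg
import Vale.Agent.P092.H375.ClsG

/-!
P092 (helper820), Team P, row [P-SWAP] / [P-TYPE]: the type flip (source lines -> target points) of
a leg of `Sp_4(k)` does not exist if `2 ≠ 0`.
-/

set_option linter.all false

open Topology TopologicalSpace Filter Set ContinuousLinearMap MeasureTheory Module
open scoped InnerProductSpace ComplexConjugate LinearAlgebra.Projectivization

namespace Vale.Agent.P092.H820.Flip

open Vale.Agent.P092.H171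
open Vale.Agent.P092.H466 (ms ms_univ)
open Vale.Agent.P092.H820.Cfg Vale.Agent.P092.H820.Grid

/-! ### Linear algebra: nine points -/

section lin

variable {k V : Type*} [Field k] [AddCommGroup V] [Module k V]

/-- three pairwise orthogonal points are on a line -/
theorem three (h4 : finrank k V = 4) (ω : V →ₗ[k] V →ₗ[k] k)
    (alt : ∀ x, ω x x = 0) (nd : ∀ x, (∀ y, ω x y = 0) → x = 0) {x y z : V} (hx : x ≠ 0)
    (hy : y ≠ 0) (hz : z ≠ 0) (hxy : ω x y = 0) (hxz : ω x z = 0) (hyz : ω y z = 0)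
    (h1 : Submodule.span k {x} ≠ Submodule.span k {y})
    (h2 : Submodule.span k {x} ≠ Submodule.span k {z})
    (h3 : Submodule.span k {y} ≠ Submodule.span k {z}) :
    ∃ a b : k, a ≠ 0 ∧ b ≠ 0 ∧ z = a • x + b • y := by
  have sk : ∀ x y, ω x y = -ω y x := fun x y => by
    have h := alt (x + y)
    simp only [map_add, LinearMap.add_apply, alt, zero_add, add_zero] at h
    exact eq_neg_of_add_eq_zero_right h
  have li := li_of_ne hx hy h1
  have hr : finrank k (Submodule.span k {x, y}) = 2 := by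
    have h5 := finrank_span_eq_card li
    rw [Matrix.range_cons, Matrix.range_cons, Matrix.range_empty, Set.union_empty,
      Set.singleton_union, Fintype.card_fin] at h5
    exact h5
  have hP : Pl ω (Submodule.span k {x, y}) := by
    refine ⟨hr, fun u hu v hv => ?_⟩
    obtain ⟨a, b, rfl⟩ := Submodule.mem_span_pair.1 hu
    obtain ⟨c, d, rfl⟩ := Submodule.mem_span_pair.1 hv
    simp only [map_add, map_smul, LinearMap.add_apply, LinearMap.smul_apply, smul_eq_mul, alt,
      hxy, sk y x]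
    ring
  have hxX : x ∈ Submodule.span k {x, y} := Submodule.subset_span (by simp)
  have hyX : y ∈ Submodule.span k {x, y} := Submodule.subset_span (by simp)
  have hzX : z ∈ Submodule.span k {x, y} := iso_le h4 ω alt nd hP fun u hu => by
    obtain ⟨a, b, rfl⟩ := Submodule.mem_span_pair.1 hu
    simp only [map_add, map_smul, LinearMap.add_apply, LinearMap.smul_apply, smul_eq_mul, hxz,
      hyz]
    ring
  exact mem_pair' hr hxX hyX hzX hx hy hz h1 h2 h3

/-- **nine points** -/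
theorem nine (h2 : (2 : k) ≠ 0) (h4 : finrank k V = 4) (ω : V →ₗ[k] V →ₗ[k] k)
    (alt : ∀ x, ω x x = 0) (nd : ∀ x, (∀ y, ω x y = 0) → x = 0) (v : Fin 3 → Fin 3 → V)
    (hv : ∀ i j, v i j ≠ 0) (pr : ∀ i j j', ω (v i j) (v i j') = 0)
    (pc : ∀ i i' j, ω (v i j) (v i' j) = 0)
    (hr : ∀ i j j', j ≠ j' → Submodule.span k {v i j} ≠ Submodule.span k {v i j'})
    (hc : ∀ i i' j, i ≠ i' → Submodule.span k {v i j} ≠ Submodule.span k {v i' j})
    (hd : Submodule.span k {v 0 1} ≠ Submodule.span k {v 1 0})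
    (np : ω (v 0 0) (v 1 1) ≠ 0) : False := by
  have sk : ∀ x y, ω x y = -ω y x := fun x y => by
    have h := alt (x + y)
    simp only [map_add, LinearMap.add_apply, alt, zero_add, add_zero] at h
    exact eq_neg_of_add_eq_zero_right h
  refine np (vec h2 ω alt v pr pc (fun i => three h4 ω alt nd (hv i 0) (hv i 1) (hv i 2)
    (pr i 0 1) (pr i 0 2) (pr i 1 2) (hr i 0 1 (by decide)) (hr i 0 2 (by decide))
    (hr i 1 2 (by decide))) (fun j => three h4 ω alt nd (hv 0 j) (hv 1 j) (hv 2 j)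
    (pc 0 1 j) (pc 0 2 j) (pc 1 2 j) (hc 0 1 j (by decide)) (hc 0 2 j (by decide))
    (hc 1 2 j (by decide))) fun x y z t h => ?_).1
  have e1 := congrArg (ω (v 0 0)) h
  simp only [map_add, map_smul, smul_eq_mul, map_zero, pr 0 0 0, pr 0 0 1, pc 0 1 0] at e1
  have ht : t = 0 := by
    have : t * ω (v 0 0) (v 1 1) = 0 := by linear_combination e1
    exact (mul_eq_zero.1 this).resolve_right np
  have e2 := congrArg (fun u => ω u (v 1 1)) h
  simp only [map_add, map_smul, smul_eq_mul, map_zero, LinearMap.add_apply, LinearMap.smul_apply,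
    LinearMap.zero_apply, pr 1 0 1, pr 1 1 1, pc 0 1 1] at e2
  have hx : x = 0 := by
    have : x * ω (v 0 0) (v 1 1) = 0 := by linear_combination e2
    exact (mul_eq_zero.1 this).resolve_right np
  rw [hx, ht, zero_smul, zero_smul, zero_add, add_zero] at h
  have h5 := LinearIndependent.pair_iff.1 (li_of_ne (hv 0 1) (hv 1 0) hd) y z h
  exact ⟨hx, h5.1, h5.2, ht⟩

end lin

/-! ### The flip -/

section flip

variable {k : Type} [NontriviallyNormedField k] [ProperSpace k] {K : Type*}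
  [NormedAddCommGroup K] [InnerProductSpace ℂ K] [CompleteSpace K]

/-- points of `P³(k)` -/
abbrev PP (k : Type) [NontriviallyNormedField k] := ℙ k (Fin 4 → k)

theorem span_ne {x y : PP k} (h : x ≠ y) :
    Submodule.span k {x.rep} ≠ Submodule.span k {y.rep} := by
  intro he
  apply h
  rw [← Projectivization.submodule_eq, ← Projectivization.submodule_eq] at he
  exact Projectivization.submodule_injective he

/-- `F` and `F'` are related by `R` almost everywhere -/
def Aer (F F' : C(PP k, ℂ) →⋆ₐ[ℂ] (K →L[ℂ] K)) (R : PP k → PP k → Prop) : Prop :=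
  ∀ Φ : C(Fin 2 → PP k, ℂ) →⋆ₐ[ℂ] (K →L[ℂ] K), (∀ f, Φ (co 0 f) = F f) →
    (∀ f, Φ (co 1 f) = F' f) → ∀ ξ, ∀ᵐ z ∂(ms Φ ξ), R (z 0) (z 1)

/-- one space, with a given Borel structure -/
theorem exists_one' {P : Type*} [TopologicalSpace P] [CompactSpace P] [MetrizableSpace P]
    [SecondCountableTopology P] [MeasurableSpace P] [BorelSpace P] {ι : Type*} [Finite ι]
    [Nontrivial K] (φ : ι → (C(P, ℂ) →⋆ₐ[ℂ] (K →L[ℂ] K)))
    (hc : ∀ i j f g, Commute (φ i f) (φ j g)) (p : (ι → P) → Prop)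
    (hp : ∀ (Φ : C(ι → P, ℂ) →⋆ₐ[ℂ] (K →L[ℂ] K)),
      (∀ i f, Φ (co i f) = φ i f) → ∀ ξ, ∀ᵐ z ∂(ms Φ ξ), p z) : ∃ z, p z := by
  obtain ⟨Φ, hΦ⟩ := exists_joint φ hc
  obtain ⟨ξ, hξ⟩ := exists_ne (0 : K)
  by_contra hcon
  push Not at hcon
  have h5 : ms Φ ξ univ = 0 :=
    measure_eq_zero_iff_ae_notMem.2 ((hp Φ hΦ ξ).mono fun z hz => (hcon z hz).elim)
  have h6 := ms_univ Φ ξ
  rw [Measure.real, h5] at h6
  exact hξ (by simpa using h6.symm)

/-- a pair relation of a family -/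
theorem Aer.pull {ι : Type*} [Finite ι] {E : ι → (C(PP k, ℂ) →⋆ₐ[ℂ] (K →L[ℂ] K))}
    {Φ : C(ι → PP k, ℂ) →⋆ₐ[ℂ] (K →L[ℂ] K)} (hΦ : ∀ i f, Φ (co i f) = E i f) {i j : ι}
    {R : PP k → PP k → Prop} (h : Aer (E i) (E j) R) (ξ : K) :
    ∀ᵐ z ∂(ms Φ ξ), R (z i) (z j) := by
  let r : C(ι → PP k, Fin 2 → PP k) := ⟨fun z => ![z i, z j], by
    refine continuous_pi fun s => ?_
    fin_cases s
    · exact continuous_apply i
    · exact continuous_apply j⟩
  exact H375.Cls.ae_pull Φ (Φ.comp (r.compStarAlgHom' ℂ ℂ)) r (fun F => rfl)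
    (fun ξ => h _ (fun f => by rw [← hΦ]; rfl) (fun f => by rw [← hΦ]; rfl) ξ) ξ

/-- **No flip.** Nine calculi `Z i j` (of the source lines `x_i c_j`, `x_i ⊥ c_j`) with values in
the points of `P³(k)`: they commute, two of the same row or column are perpendicular a.e. and agree
nowhere, `Z 0 0` and `Z 1 1` are not perpendicular a.e., `Z 0 1` and `Z 1 0` agree nowhere. This is
impossible if `2 ≠ 0`. -/
theorem no_flip [Nontrivial K] (h2 : (2 : k) ≠ 0)
    (ω : (Fin 4 → k) →ₗ[k] (Fin 4 → k) →ₗ[k] k) (alt : ∀ x, ω x x = 0)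
    (nd : ∀ x, (∀ y, ω x y = 0) → x = 0)
    (Z : Fin 3 → Fin 3 → (C(PP k, ℂ) →⋆ₐ[ℂ] (K →L[ℂ] K)))
    (com : ∀ i j i' j' f g, Commute (Z i j f) (Z i' j' g))
    (pr : ∀ i j j', j ≠ j' → Aer (Z i j) (Z i j') fun x y => ω x.rep y.rep = 0)
    (pc : ∀ i i' j, i ≠ i' → Aer (Z i j) (Z i' j) fun x y => ω x.rep y.rep = 0)
    (hr : ∀ i j j', j ≠ j' → Agn (Z i j) (Z i j'))
    (hc : ∀ i i' j, i ≠ i' → Agn (Z i j) (Z i' j)) (hd : Agn (Z 0 1) (Z 1 0))
    (np : Aer (Z 0 0) (Z 1 1) fun x y => ω x.rep y.rep ≠ 0) : False := by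
  obtain ⟨z, z1, z2, z3, z4, z5, z6⟩ := exists_one' (fun s : Fin 3 × Fin 3 => Z s.1 s.2)
    (fun s t f g => com _ _ _ _ f g)
    (fun z => (∀ i j j', j ≠ j' → ω (z (i, j)).rep (z (i, j')).rep = 0) ∧
      (∀ i i' j, i ≠ i' → ω (z (i, j)).rep (z (i', j)).rep = 0) ∧
      (∀ i j j', j ≠ j' → z (i, j) ≠ z (i, j')) ∧ (∀ i i' j, i ≠ i' → z (i, j) ≠ z (i', j)) ∧
      z (0, 1) ≠ z (1, 0) ∧ ω (z (0, 0)).rep (z (1, 1)).rep ≠ 0) (fun Φ hΦ ξ => by
    refine Filter.Eventually.and ?_ (Filter.Eventually.and ?_ (Filter.Eventually.and ?_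
      (Filter.Eventually.and ?_ (Filter.Eventually.and ?_ ?_))))
    · refine ae_all_iff.2 fun i => ae_all_iff.2 fun j => ae_all_iff.2 fun j' => ?_
      by_cases h : j ≠ j'
      · exact ((pr i j j' h).pull (i := (i, j)) (j := (i, j')) hΦ ξ).mono fun z hz _ => hz
      · exact Eventually.of_forall fun z h' => absurd h' h
    · refine ae_all_iff.2 fun i => ae_all_iff.2 fun i' => ae_all_iff.2 fun j => ?_
      by_cases h : i ≠ i'
      · exact ((pc i i' j h).pull (i := (i, j)) (j := (i', j)) hΦ ξ).mono fun z hz _ => hz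
      · exact Eventually.of_forall fun z h' => absurd h' h
    · refine ae_all_iff.2 fun i => ae_all_iff.2 fun j => ae_all_iff.2 fun j' => ?_
      by_cases h : j ≠ j'
      · exact (ae_ne (i := (i, j)) (j := (i, j')) hΦ (hr i j j' h) ξ).mono fun z hz _ => hz
      · exact Eventually.of_forall fun z h' => absurd h' h
    · refine ae_all_iff.2 fun i => ae_all_iff.2 fun i' => ae_all_iff.2 fun j => ?_
      by_cases h : i ≠ i'
      · exact (ae_ne (i := (i, j)) (j := (i', j)) hΦ (hc i i' j h) ξ).mono fun z hz _ => hz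
      · exact Eventually.of_forall fun z h' => absurd h' h
    · exact ae_ne (i := (0, 1)) (j := (1, 0)) hΦ hd ξ
    · exact np.pull (i := (0, 0)) (j := (1, 1)) hΦ ξ)
  refine nine h2 (by simp) ω alt nd (fun i j => (z (i, j)).rep) (fun i j => (z (i, j)).rep_nonzero)
    (fun i j j' => ?_) (fun i i' j => ?_) (fun i j j' h => span_ne (z3 i j j' h))
    (fun i i' j h => span_ne (z4 i i' j h)) (span_ne z5) z6
  · by_cases h : j = j'
    · rw [h]; exact alt _
    · exact z1 i j j' h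
  · by_cases h : i = i'
    · rw [h]; exact alt _
    · exact z2 i i' j h

end flip

end Vale.Agent.P092.H820.Flip
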