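import Vale.Agent.P092.H820.Trace
import Vale.Agent.P092.H432.Frame

/-!
P092 (helper820), stage (S), block [S8]: `M_ι(L(Γ))` acting on `ℓ²(Γ × ι)` from the left.
-/

set_option linter.all false

open scoped InnerProductSpace
open Filter Topology ContinuousLinearMap

namespace Vale.Agent.P092.H820

open Vale.Agent.P092.H160 Vale.Agent.P092.H553 Vale.Agent.P092.H432

section slices

variable {Γ ι : Type}

theorem summable_sj (j : ι) (ξ : Ell2 (Γ × ι)) : Summable fun g : Γ => ‖ξ (g, j)‖ ^ 2 :=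
  (summable_sq ξ).comp_injective (i := fun g : Γ => (g, j)) fun a b h => (Prod.mk.inj h).1

/-- The `j`-th component `ξ(·, j)`. -/
noncomputable def sj (j : ι) : Ell2 (Γ × ι) →L[ℂ] Ell2 Γ :=
  LinearMap.mkContinuous
    { toFun := fun ξ => mk2 (fun g => ξ (g, j)) (summable_sj j ξ)
      map_add' := fun ξ η => rfl
      map_smul' := fun c ξ => rfl }
    1 (fun ξ => by
      rw [one_mul]
      refine abs_le_of_sq_le_sq' ?_ (norm_nonneg _) |>.2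
      rw [norm_sq, norm_sq]
      exact Summable.tsum_le_tsum_of_inj (fun g : Γ => (g, j)) (fun a b h => (Prod.mk.inj h).1)
        (fun _ _ => by positivity) (fun _ => le_rfl) (summable_sj j ξ) (summable_sq ξ))

@[simp] theorem sj_apply (j : ι) (ξ : Ell2 (Γ × ι)) (g : Γ) : sj j ξ g = ξ (g, j) := rfl

/-- The inclusion of the `i`-th component. -/
noncomputable def ij (i : ι) : Ell2 Γ →L[ℂ] Ell2 (Γ × ι) := adjoint (sj i)

theorem adjoint_ij (i : ι) : adjoint (ij i : Ell2 Γ →L[ℂ] Ell2 (Γ × ι)) = sj i :=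
  adjoint_adjoint _

theorem sj_dl [DecidableEq ι] (i j : ι) (g : Γ) :
    sj i (dl (g, j) : Ell2 (Γ × ι)) = if i = j then dl g else 0 := by
  classical
  ext h
  rw [sj_apply, dl_apply]
  by_cases hij : i = j
  · subst hij
    rw [if_pos rfl, dl_apply]
    simp
  · rw [if_neg hij, if_neg (fun h => hij (Prod.mk.inj h).2)]
    rfl

theorem ij_apply [DecidableEq ι] (i j : ι) (ξ : Ell2 Γ) (g : Γ) :
    (ij i ξ : Ell2 (Γ × ι)) (g, j) = if j = i then ξ g else 0 := by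
  rw [← inner_dl, ij, adjoint_inner_right, sj_dl]
  by_cases hij : i = j
  · rw [if_pos hij, if_pos hij.symm, inner_dl]
  · rw [if_neg hij, if_neg (fun h => hij h.symm), inner_zero_left]

theorem ij_dl (i : ι) (g : Γ) : (ij i (dl g) : Ell2 (Γ × ι)) = dl (g, i) := by
  classical
  ext ⟨h, j⟩
  rw [ij_apply, dl_apply, dl_apply]
  by_cases hij : j = i
  · subst hij
    simp
  · rw [if_neg hij, if_neg (fun h => hij (Prod.mk.inj h).2)]

theorem sj_ij [DecidableEq ι] (i j : ι) (ξ : Ell2 Γ) :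
    sj i (ij j ξ : Ell2 (Γ × ι)) = if i = j then ξ else 0 := by
  ext g
  rw [sj_apply, ij_apply]
  by_cases hij : i = j
  · rw [if_pos hij, if_pos hij]
  · rw [if_neg hij, if_neg hij]; rfl

theorem sj_ij_self (i : ι) (ξ : Ell2 Γ) : sj i (ij i ξ : Ell2 (Γ × ι)) = ξ := by
  classical
  rw [sj_ij, if_pos rfl]

theorem sum_ij_sj [Fintype ι] (ξ : Ell2 (Γ × ι)) : ∑ i, ij i (sj i ξ) = ξ := by
  classical
  ext ⟨g, j⟩
  rw [lp.coeFn_sum, Finset.sum_apply]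
  simp only [ij_apply, sj_apply]
  simp

end slices

section model

variable {Γ ι : Type} [Group Γ]

/-- right translation on `ℓ²(Γ × ι)` -/
noncomputable def rx (s : Γ) : Ell2 (Γ × ι) →L[ℂ] Ell2 (Γ × ι) :=
  rei ((Equiv.mulRight s⁻¹).prodCongr (Equiv.refl ι))

theorem rx_apply (s : Γ) (ξ : Ell2 (Γ × ι)) (g : Γ) (i : ι) : rx s ξ (g, i) = ξ (g * s, i) := by
  change ξ (g * s⁻¹⁻¹, i) = _
  rw [inv_inv]

theorem star_rx (s : Γ) : star (rx s : Ell2 (Γ × ι) →L[ℂ] Ell2 (Γ × ι)) = rx s⁻¹ := by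
  rw [star_eq_adjoint, rx, adjoint_rei]
  ext ξ ⟨g, i⟩
  rw [rx_apply]
  change ξ (g * s⁻¹, i) = _
  rfl

theorem sj_rx (j : ι) (s : Γ) (ξ : Ell2 (Γ × ι)) : sj j (rx s ξ) = rho s (sj j ξ) := by
  ext g
  rw [sj_apply, rx_apply, rho_apply, sj_apply]

theorem rx_ij (i : ι) (s : Γ) (ξ : Ell2 Γ) : (rx s (ij i ξ) : Ell2 (Γ × ι)) = ij i (rho s ξ) := by
  classical
  ext ⟨g, j⟩
  rw [rx_apply, ij_apply, ij_apply, rho_apply]

/-- The commutant of the right translations. -/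
noncomputable def NN (Γ ι : Type) [Group Γ] :
    StarSubalgebra ℂ (Ell2 (Γ × ι) →L[ℂ] Ell2 (Γ × ι)) :=
  StarSubalgebra.centralizer ℂ (Set.range (rx (Γ := Γ) (ι := ι)))

theorem cc_NN : CC (NN Γ ι) := ⟨_, rfl⟩

theorem mem_NN_iff {T : Ell2 (Γ × ι) →L[ℂ] Ell2 (Γ × ι)} :
    T ∈ NN Γ ι ↔ ∀ s ξ, T (rx s ξ) = rx s (T ξ) := by
  rw [NN, StarSubalgebra.mem_centralizer_iff]
  constructor
  · intro h s ξ
    exact (congrArg (fun S : Ell2 (Γ × ι) →L[ℂ] Ell2 (Γ × ι) => S ξ) (h (rx s) ⟨s, rfl⟩).1).symm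
  · rintro h _ ⟨s, rfl⟩
    refine ⟨?_, ?_⟩
    · ext1 ξ
      exact (h s ξ).symm
    · rw [star_rx]
      ext1 ξ
      exact (h s⁻¹ ξ).symm

variable [Fintype ι]

/-- The operator on `ℓ²(Γ × ι)` given by a matrix with entries in `L(Γ)`. -/
noncomputable def opM (x : Matrix ι ι (LG Γ)) : Ell2 (Γ × ι) →L[ℂ] Ell2 (Γ × ι) :=
  ∑ i, ∑ j, ij i ∘L (x i j : Ell2 Γ →L[ℂ] Ell2 Γ) ∘L sj j

theorem opM_apply (x : Matrix ι ι (LG Γ)) (ξ : Ell2 (Γ × ι)) :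
    opM x ξ = ∑ i, ∑ j, ij i ((x i j : Ell2 Γ →L[ℂ] Ell2 Γ) (sj j ξ)) := by
  rw [opM, sum_apply]
  refine Finset.sum_congr rfl fun i _ => ?_
  rw [sum_apply]
  rfl

theorem sj_opM (x : Matrix ι ι (LG Γ)) (i : ι) (ξ : Ell2 (Γ × ι)) :
    sj i (opM x ξ) = ∑ j, (x i j : Ell2 Γ →L[ℂ] Ell2 Γ) (sj j ξ) := by
  classical
  rw [opM_apply, map_sum, Finset.sum_eq_single i (fun k _ hk => ?_) (fun h => absurd (Finset.mem_univ i) h)]
  · rw [map_sum]
    exact Finset.sum_congr rfl fun j _ => sj_ij_self _ _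
  · rw [map_sum]
    refine Finset.sum_eq_zero fun j _ => ?_
    rw [sj_ij, if_neg (Ne.symm hk)]

theorem opM_ij (x : Matrix ι ι (LG Γ)) (i j : ι) (ξ : Ell2 Γ) :
    sj i (opM x (ij j ξ)) = (x i j : Ell2 Γ →L[ℂ] Ell2 Γ) ξ := by
  classical
  rw [sj_opM, Finset.sum_eq_single j (fun k _ hk => ?_) (fun h => absurd (Finset.mem_univ j) h)]
  · rw [sj_ij_self]
  · rw [sj_ij, if_neg hk, map_zero]

theorem ext_sj {ξ η : Ell2 (Γ × ι)} (h : ∀ i, sj i ξ = sj i η) : ξ = η := by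
  rw [← sum_ij_sj ξ, ← sum_ij_sj η]
  exact Finset.sum_congr rfl fun i _ => by rw [h]

theorem opM_mul (x y : Matrix ι ι (LG Γ)) : opM (x * y) = opM x * opM y := by
  ext1 ξ
  refine ext_sj fun i => ?_
  rw [mul_ap, sj_opM, sj_opM]
  simp only [sj_opM, map_sum]
  rw [Finset.sum_comm]
  refine Finset.sum_congr rfl fun j _ => ?_
  rw [Matrix.mul_apply]
  have h : ((∑ k, x i k * y k j : LG Γ) : Ell2 Γ →L[ℂ] Ell2 Γ) =
      ∑ k, (x i k : Ell2 Γ →L[ℂ] Ell2 Γ) * (y k j : Ell2 Γ →L[ℂ] Ell2 Γ) := by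
    simp only [AddSubmonoidClass.coe_finsetSum]
    rfl
  rw [h, sum_apply]
  rfl

theorem opM_add (x y : Matrix ι ι (LG Γ)) : opM (x + y) = opM x + opM y := by
  ext1 ξ
  refine ext_sj fun i => ?_
  rw [add_apply, map_add, sj_opM, sj_opM, sj_opM, ← Finset.sum_add_distrib]
  rfl

theorem opM_smul (c : ℂ) (x : Matrix ι ι (LG Γ)) : opM (c • x) = c • opM x := by
  ext1 ξ
  refine ext_sj fun i => ?_
  rw [smul_apply, map_smul, sj_opM, sj_opM, Finset.smul_sum]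
  rfl

theorem opM_star (x : Matrix ι ι (LG Γ)) : opM (star x) = star (opM x) := by
  rw [star_eq_adjoint, ContinuousLinearMap.eq_adjoint_iff]
  intro ξ η
  have h1 : ∀ (ζ ω : Ell2 (Γ × ι)), ⟪ζ, ω⟫_ℂ = ∑ i, ⟪sj i ζ, sj i ω⟫_ℂ := by
    intro ζ ω
    conv_lhs => rw [← sum_ij_sj ω]
    rw [inner_sum]
    refine Finset.sum_congr rfl fun i _ => ?_
    rw [ij, adjoint_inner_right]
  rw [h1, h1 ξ]
  simp only [sj_opM, inner_sum, sum_inner]
  rw [Finset.sum_comm]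
  refine Finset.sum_congr rfl fun i _ => Finset.sum_congr rfl fun j _ => ?_
  change ⟪(star (x i j : Ell2 Γ →L[ℂ] Ell2 Γ)) (sj i ξ), sj j η⟫_ℂ = _
  rw [star_eq_adjoint, adjoint_inner_left]

theorem opM_mem (x : Matrix ι ι (LG Γ)) : opM x ∈ NN Γ ι := by
  rw [mem_NN_iff]
  intro s ξ
  refine ext_sj fun i => ?_
  rw [sj_rx, sj_opM, sj_opM, map_sum]
  refine Finset.sum_congr rfl fun j _ => ?_
  rw [sj_rx]
  exact (cmm_rho_of_mem (x i j).2).apply s _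

theorem exists_opM {T : Ell2 (Γ × ι) →L[ℂ] Ell2 (Γ × ι)} (hT : T ∈ NN Γ ι) :
    ∃ x : Matrix ι ι (LG Γ), opM x = T := by
  rw [mem_NN_iff] at hT
  have h : ∀ i j, sj i ∘L T ∘L ij j ∈ LG Γ := by
    intro i j
    refine mem_LG_of_cmm fun s => ?_
    ext1 ξ
    change sj i (T (ij j (rho s ξ))) = rho s (sj i (T (ij j ξ)))
    rw [← rx_ij, hT, sj_rx]
  refine ⟨Matrix.of fun i j => ⟨_, h i j⟩, ?_⟩
  ext1 ξ
  refine ext_sj fun i => ?_
  rw [sj_opM]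
  change ∑ j, sj i (T (ij j (sj j ξ))) = _
  rw [← map_sum, ← map_sum, sum_ij_sj]

theorem opM_inj {x y : Matrix ι ι (LG Γ)} (h : opM x = opM y) : x = y := by
  refine Matrix.ext fun i j => Subtype.ext ?_
  ext1 ξ
  rw [← opM_ij, ← opM_ij, h]

/-- `opM` as a `*`-homomorphism. -/
noncomputable def opH (Γ ι : Type) [Group Γ] [Fintype ι] :
    Matrix ι ι (LG Γ) →⋆ₙₐ[ℂ] (Ell2 (Γ × ι) →L[ℂ] Ell2 (Γ × ι)) where
  toFun := opM
  map_smul' := opM_smul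
  map_zero' := by
    have := opM_smul (0 : ℂ) (0 : Matrix ι ι (LG Γ))
    rwa [smul_zero, zero_smul] at this
  map_add' := opM_add
  map_mul' := opM_mul
  map_star' := opM_star

theorem opH_apply (x : Matrix ι ι (LG Γ)) : opH Γ ι x = opM x := rfl

theorem inner_ep_opM (x : Matrix ι ι (LG Γ)) (i j : ι) :
    ⟪(ep i : Ell2 (Γ × ι)), opM x (ep j)⟫_ℂ = tr (x i j) := by
  rw [ep, ep, ← ij_dl i, ← ij_dl j, ij, adjoint_inner_left]
  change ⟪dl 1, sj i (opM x (ij j (dl 1)))⟫_ℂ = _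
  rw [opM_ij]
  rfl

theorem norm_ep (i : ι) : ‖(ep i : Ell2 (Γ × ι))‖ = 1 := norm_dl _

theorem trace_NN {S T : Ell2 (Γ × ι) →L[ℂ] Ell2 (Γ × ι)} (hS : S ∈ NN Γ ι) (hT : T ∈ NN Γ ι) :
    ∑ i, ⟪(ep i : Ell2 (Γ × ι)), (S * T) (ep i)⟫_ℂ =
      ∑ i, ⟪(ep i : Ell2 (Γ × ι)), (T * S) (ep i)⟫_ℂ := by
  obtain ⟨x, rfl⟩ := exists_opM hS
  obtain ⟨y, rfl⟩ := exists_opM hT
  have h : ∀ (x : ι → ι → LG Γ) (i : ι), tr (∑ k, x i k) = ∑ k, tr (x i k) := by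
    intro x i
    have hc : ((∑ k, x i k : LG Γ) : Ell2 Γ →L[ℂ] Ell2 Γ) =
        ∑ k, (x i k : Ell2 Γ →L[ℂ] Ell2 Γ) := by
      simp only [AddSubmonoidClass.coe_finsetSum]
    rw [tr_eq, hc, sum_apply, inner_sum]
    rfl
  simp only [← opM_mul, inner_ep_opM, Matrix.mul_apply]
  rw [show (∑ i, tr (∑ j, x i j * y j i)) = ∑ i, ∑ j, tr (x i j * y j i) from
      Finset.sum_congr rfl fun i _ => h (fun i j => x i j * y j i) i,
    show (∑ i, tr (∑ j, y i j * x j i)) = ∑ i, ∑ j, tr (y i j * x j i) from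
      Finset.sum_congr rfl fun i _ => h (fun i j => y i j * x j i) i, Finset.sum_comm]
  exact Finset.sum_congr rfl fun i _ => Finset.sum_congr rfl fun j _ => H108.tr_comm _ _

end model

end Vale.Agent.P092.H820
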