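import Vale.Agent.P092.H108.Iso

/-!
P092 (helper820), stage (S), block [S8]: normality of injective (non-unital) `*`-homomorphisms of a
von Neumann algebra onto a corner of another one, and the resulting trace formula.
-/

namespace Vale.Agent.P092.H820
open Vale.Agent.P092.H108
open Filter Topology ContinuousLinearMap
open scoped InnerProductSpace ComplexOrder

section general

variable {H : Type*} [NormedAddCommGroup H] [InnerProductSpace ℂ H] [CompleteSpace H]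

/-- `M` is the commutant of some set. -/
def CC (M : StarSubalgebra ℂ (H →L[ℂ] H)) : Prop :=
  ∃ S : Set (H →L[ℂ] H), M = StarSubalgebra.centralizer ℂ S

variable {M : StarSubalgebra ℂ (H →L[ℂ] H)}

theorem CC.mem_of_tendsto (hM : CC M) {I : Type*} {l : Filter I} [l.NeBot]
    {T : I → (H →L[ℂ] H)} {L : H →L[ℂ] H} (hT : ∀ i, T i ∈ M)
    (hL : ∀ ξ η : H, Tendsto (fun i => inner ℂ ξ (T i η)) l (𝓝 (inner ℂ ξ (L η)))) :
    L ∈ M := by
  obtain ⟨S, rfl⟩ := hM
  simp only [StarSubalgebra.mem_centralizer_iff] at hT ⊢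
  have key : ∀ y : H →L[ℂ] H, (∀ i, y * T i = T i * y) → y * L = L * y := by
    intro y hy
    refine inner_ext fun ξ η => ?_
    have h1 : Tendsto (fun i => inner ℂ ξ ((y * T i) η)) l (𝓝 (inner ℂ ξ ((y * L) η))) := by
      have := hL (star y ξ) η
      simp only [star_apply_inner] at this
      exact this
    have h2 : Tendsto (fun i => inner ℂ ξ ((T i * y) η)) l (𝓝 (inner ℂ ξ ((L * y) η))) :=
      hL ξ (y η)
    refine tendsto_nhds_unique h1 (h2.congr fun i => ?_)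
    rw [hy i]
  intro y hy
  exact ⟨key y fun i => (hT i y hy).1, key _ fun i => (hT i y hy).2⟩

theorem CC.mem_of_comm (hM : CC M) {x z : H →L[ℂ] H} (hx : x ∈ M)
    (h : ∀ y : H →L[ℂ] H, y * x = x * y → y * z = z * y) : z ∈ M := by
  obtain ⟨S, rfl⟩ := hM
  simp only [StarSubalgebra.mem_centralizer_iff] at hx ⊢
  intro y hy
  exact ⟨h y (hx y hy).1, h _ (hx y hy).2⟩

theorem CC.ff_mem (hM : CC M) {x : H →L[ℂ] H} (hx : x ∈ M) : ff x ∈ M :=
  hM.mem_of_comm hx fun _ hy => ff_comm hy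

theorem CC.sqrt_mem (hM : CC M) {x : H →L[ℂ] H} (hx : x ∈ M) (h : 0 ≤ x) :
    ∃ c ∈ M, star c * c = x ∧ ∀ y : H →L[ℂ] H, y * x = x * y → y * c = c * y := by
  obtain ⟨c, hc, hc2⟩ := exists_sqrt h
  exact ⟨c, hM.mem_of_comm hx hc2, hc, hc2⟩

end general

section corner

variable {H K : Type*} [NormedAddCommGroup H] [InnerProductSpace ℂ H] [CompleteSpace H]
  [NormedAddCommGroup K] [InnerProductSpace ℂ K] [CompleteSpace K]
variable {M : StarSubalgebra ℂ (H →L[ℂ] H)} {N : StarSubalgebra ℂ (K →L[ℂ] K)}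

/-- An injective `*`-homomorphism of `M` onto the corner of `N` given by `θ 1`. -/
structure Corner (M : StarSubalgebra ℂ (H →L[ℂ] H)) (N : StarSubalgebra ℂ (K →L[ℂ] K))
    (θ : M →⋆ₙₐ[ℂ] (K →L[ℂ] K)) : Prop where
  inj : Function.Injective θ
  mem : ∀ x, θ x ∈ N
  surj : ∀ T ∈ N, θ 1 * T * θ 1 = T → ∃ x, θ x = T

variable {θ : M →⋆ₙₐ[ℂ] (K →L[ℂ] K)}

theorem one_mul_th (x : M) : θ 1 * θ x = θ x := by rw [← map_mul, one_mul]
theorem th_mul_one (x : M) : θ x * θ 1 = θ x := by rw [← map_mul, mul_one]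

theorem th_one_nonneg : 0 ≤ θ (1 : M) := by
  have h : θ (1 : M) = star (θ 1) * θ 1 := by rw [← map_star, star_one, ← map_mul, one_mul]
  rw [h]
  exact star_mul_self_nonneg _

theorem th_one_le : θ (1 : M) ≤ 1 := by
  have h1 : star (θ (1 : M)) = θ 1 := by rw [← map_star, star_one]
  have h : 1 - θ (1 : M) = star (1 - θ 1) * (1 - θ 1) := by
    rw [star_sub, star_one, h1, sub_mul, mul_sub, mul_sub, one_mul_th, one_mul, mul_one, one_mul,
      sub_self, sub_zero]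
  rw [← sub_nonneg, h]
  exact star_mul_self_nonneg _

theorem map_nonneg (hM : CC M) (θ : M →⋆ₙₐ[ℂ] (K →L[ℂ] K)) {x : M}
    (hx : 0 ≤ (x : H →L[ℂ] H)) : 0 ≤ θ x := by
  obtain ⟨c, hc, hcx, -⟩ := hM.sqrt_mem x.2 hx
  have h1 : x = star (⟨c, hc⟩ : M) * ⟨c, hc⟩ := Subtype.ext hcx.symm
  rw [h1, map_mul, map_star]
  exact star_mul_self_nonneg _

theorem map_mono (hM : CC M) (θ : M →⋆ₙₐ[ℂ] (K →L[ℂ] K)) {x y : M}
    (h : (x : H →L[ℂ] H) ≤ y) : θ x ≤ θ y := by
  have h1 : 0 ≤ ((y - x : M) : H →L[ℂ] H) := sub_nonneg.2 h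
  have h2 := map_nonneg hM θ h1
  rw [map_sub] at h2
  exact sub_nonneg.1 h2

theorem Corner.nonneg (hθ : Corner M N θ) (hN : CC N) {x : M} (hx : 0 ≤ θ x) :
    0 ≤ (x : H →L[ℂ] H) := by
  obtain ⟨c, hc, hcx, hcomm⟩ := hN.sqrt_mem (hθ.mem x) hx
  have h1 : θ 1 * c = c * θ 1 := hcomm _ (by rw [one_mul_th, th_mul_one])
  have h2 : c - c * θ 1 = 0 := by
    have h3 : star (c - c * θ 1) * (c - c * θ 1) = 0 := by
      have h4 : star (θ (1 : M)) = θ 1 := by rw [← map_star, star_one]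
      rw [star_sub, star_mul, h4, sub_mul, mul_sub, mul_sub, ← mul_assoc, hcx, th_mul_one,
        mul_assoc, hcx, one_mul_th, mul_assoc, ← mul_assoc (star c), hcx, ← mul_assoc,
        one_mul_th, th_mul_one]
      simp
    exact CStarRing.star_mul_self_eq_zero_iff _ |>.1 h3
  have h3 : c * θ 1 = c := (sub_eq_zero.1 h2).symm
  obtain ⟨d, hd⟩ := hθ.surj c hc (by rw [h1, mul_assoc, th_mul_one, h3])
  have h5 : x = star d * d := by
    refine hθ.inj ?_
    rw [map_mul, map_star, hd, hcx]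
  rw [h5]
  exact star_mul_self_nonneg (d : H →L[ℂ] H)

theorem Corner.exists_of_tendsto (hθ : Corner M N θ) (hN : CC N) {I : Type*} {l : Filter I}
    [l.NeBot] {x : I → M} {L : K →L[ℂ] K}
    (hL : ∀ ξ η : K, Tendsto (fun i => inner ℂ ξ (θ (x i) η)) l (𝓝 (inner ℂ ξ (L η)))) :
    ∃ r, θ r = L := by
  refine hθ.surj L (hN.mem_of_tendsto (fun i => hθ.mem (x i)) hL) ?_
  refine inner_ext fun ξ η => ?_
  refine tendsto_nhds_unique ?_ (hL ξ η)
  have h1 := hL (star (θ 1) ξ) (θ 1 η)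
  simp only [star_apply_inner] at h1
  refine h1.congr fun i => ?_
  change inner ℂ ξ ((θ 1 * (θ (x i) * θ 1)) η) = _
  rw [th_mul_one, one_mul_th]

theorem normal_key (hM : CC M) (hN : CC N) (hθ : Corner M N θ) (e : H)
    (he : ∀ T ∈ M, T e = 0 → T = 0) {J : Type} [Fintype J] (f : J → K)
    (y : ℕ → M) (h1 : ∀ n, ‖(y n : H →L[ℂ] H)‖ ≤ 1)
    (h2 : ∀ n, ‖(y n : H →L[ℂ] H) e‖ ^ 2 ≤ (1 / 4) ^ n) (c : ℝ) (hc : 0 < c)
    (h3 : ∀ n, c ≤ ∑ j, (inner ℂ (f j) (θ (star (y n) * y n) (f j))).re) : False := by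
  obtain ⟨a, ha⟩ : ∃ a : ℕ → M, a = fun n => star (y n) * y n := ⟨_, rfl⟩
  have ha0 : ∀ n, 0 ≤ (a n : H →L[ℂ] H) := by
    intro n
    rw [ha]
    exact star_mul_self_nonneg (y n : H →L[ℂ] H)
  have ha1 : ∀ n, (a n : H →L[ℂ] H) ≤ 1 := by
    intro n
    refine le_one_of (ha0 n) ?_
    rw [ha]
    change ‖star (y n : H →L[ℂ] H) * (y n : H →L[ℂ] H)‖ ≤ 1
    rw [CStarRing.norm_star_mul_self]
    exact mul_le_one₀ (h1 n) (norm_nonneg _) (h1 n)
  have hat : ∀ n, (inner ℂ e ((a n : H →L[ℂ] H) e)).re ≤ (1 / 4) ^ n := by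
    intro n
    have h5 : inner ℂ e ((a n : H →L[ℂ] H) e) = ((‖(y n : H →L[ℂ] H) e‖ ^ 2 : ℝ) : ℂ) := by
      rw [ha]
      change inner ℂ e ((star (y n : H →L[ℂ] H)) ((y n : H →L[ℂ] H) e)) = _
      rw [← star_apply_inner, star_star, inner_self_eq_norm_sq_to_K]
      norm_cast
    rw [h5, Complex.ofReal_re]
    exact h2 n
  obtain ⟨b, hb⟩ : ∃ b : ℕ → ℕ → M, b = fun N K => ∑ k ∈ Finset.range K, a (N + k) := ⟨_, rfl⟩
  have hbc : ∀ N K, (b N K : H →L[ℂ] H) = ∑ k ∈ Finset.range K, (a (N + k) : H →L[ℂ] H) := by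
    intro N K
    rw [hb]
    simp only [AddSubmonoidClass.coe_finsetSum]
  have hb0 : ∀ N K, 0 ≤ (b N K : H →L[ℂ] H) := by
    intro N K
    rw [hbc]
    exact Finset.sum_nonneg fun k _ => ha0 _
  have hbm : ∀ N K, (b N K : H →L[ℂ] H) ≤ b N (K + 1) := by
    intro N K
    rw [hbc, hbc, Finset.sum_range_succ]
    exact le_add_of_nonneg_right (ha0 _)
  have hbs : ∀ N K, (b (N + 1) K : H →L[ℂ] H) ≤ b N (K + 1) := by
    intro N K
    rw [hbc, hbc, Finset.sum_range_succ', add_zero]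
    have h : ∀ k, N + 1 + k = N + (k + 1) := fun k => by ring
    simp only [h]
    exact le_add_of_nonneg_right (ha0 _)
  have hbt : ∀ N K, (inner ℂ e ((b N K : H →L[ℂ] H) e)).re ≤ 2 * (1 / 4) ^ N := by
    intro N K
    rw [hbc, sum_apply, inner_sum, Complex.re_sum]
    calc ∑ k ∈ Finset.range K, (inner ℂ e ((a (N + k) : H →L[ℂ] H) e)).re
        ≤ ∑ k ∈ Finset.range K, (1 / 4 : ℝ) ^ N * (1 / 4) ^ k := by
          refine Finset.sum_le_sum fun k _ => ?_
          rw [← pow_add]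
          exact hat _
      _ = (1 / 4 : ℝ) ^ N * ∑ k ∈ Finset.range K, (1 / 4 : ℝ) ^ k := by rw [Finset.mul_sum]
      _ ≤ (1 / 4 : ℝ) ^ N * 2 := by
          gcongr
          have := Summable.sum_le_tsum (Finset.range K) (fun k _ => by positivity)
            (summable_geometric_of_lt_one (by norm_num : (0 : ℝ) ≤ 1 / 4) (by norm_num))
          rw [tsum_geometric_of_lt_one (by norm_num) (by norm_num)] at this
          norm_num at this ⊢
          linarith
      _ = _ := by ring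
  -- the suprema
  have hs : ∀ N, ∃ s : M, ‖(s : H →L[ℂ] H)‖ ≤ 1 ∧
      (∀ K, ff (b N K : H →L[ℂ] H) ≤ s) ∧
      (∀ S : H →L[ℂ] H, (∀ K, ff (b N K : H →L[ℂ] H) ≤ S) → s ≤ S) ∧
      (inner ℂ e ((s : H →L[ℂ] H) e)).re ≤ 2 * (1 / 4) ^ N := by
    intro N
    obtain ⟨L, U, h1, h2, h3, h4⟩ := mono_limit
      (T := fun K => ff (b N K : H →L[ℂ] H)) (fun K => norm_ff _)
      (monotone_nat_of_le_succ fun K => ff_mono (hb0 _ _) (hbm _ _))
    refine ⟨⟨L, hM.mem_of_tendsto (fun K => hM.ff_mem (b N K).2) h4⟩, h1, h2, h3, ?_⟩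
    refine le_of_tendsto ((Complex.continuous_re.tendsto _).comp (h4 e e)) ?_
    refine Eventually.of_forall fun K => ?_
    exact (inner_le_of_le (ff_le (hb0 N K)) _).trans (hbt N K)
  choose s hs1 hs2 hs3 hs4 using hs
  have hs0 : ∀ N, 0 ≤ (s N : H →L[ℂ] H) := fun N => (ff_nonneg _).trans (hs2 N 0)
  have hsm : ∀ N, (s (N + 1) : H →L[ℂ] H) ≤ s N := by
    intro N
    refine hs3 _ _ fun K => ?_
    exact (ff_mono (hb0 _ _) (hbs _ _)).trans (hs2 N (K + 1))
  obtain ⟨L, U, hL1, hL2, hL3, hL4⟩ := anti_limit hs1 (antitone_nat_of_succ_le hsm)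
  have hLm : L ∈ M := hM.mem_of_tendsto (fun K => (s K).2) hL4
  have hL0 : 0 ≤ L := hL3 0 hs0
  have hLz : L = 0 := by
    obtain ⟨c, hc, hcL, -⟩ := hM.sqrt_mem hLm hL0
    have h5 : ∀ N : ℕ, (inner ℂ e (L e)).re ≤ 2 * (1 / 4) ^ N := fun N =>
      (inner_le_of_le (hL2 N) _).trans (hs4 N)
    have h6 : Tendsto (fun N : ℕ => 2 * (1 / 4 : ℝ) ^ N) atTop (𝓝 (2 * 0)) :=
      (tendsto_pow_atTop_nhds_zero_of_lt_one (by norm_num) (by norm_num)).const_mul _
    rw [mul_zero] at h6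
    have h7 := ge_of_tendsto' h6 h5
    have h8 : inner ℂ e (L e) = ((‖c e‖ ^ 2 : ℝ) : ℂ) := by
      rw [← hcL]
      change inner ℂ e ((star c) (c e)) = _
      rw [← star_apply_inner, star_star, inner_self_eq_norm_sq_to_K]
      norm_cast
    rw [h8, Complex.ofReal_re] at h7
    have h9 : c e = 0 := by
      rw [← norm_eq_zero]
      exact pow_eq_zero_iff (two_ne_zero) |>.1 (le_antisymm h7 (sq_nonneg _))
    rw [← hcL, he c hc h9, mul_zero]
  -- the other side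
  have ht0 : ∀ N, 0 ≤ θ (s N) := fun N => map_nonneg hM θ (hs0 N)
  have ht1 : ∀ N, ‖θ (s N)‖ ≤ 1 := by
    intro N
    refine norm_le_of (ht0 N) ?_
    have h5 : (s N : H →L[ℂ] H) ≤ (1 : M) := le_one_of (hs0 N) (hs1 N)
    exact (map_mono hM θ h5).trans th_one_le
  obtain ⟨R, V, hM1, hM2, hM3, hM4⟩ := anti_limit ht1
    (antitone_nat_of_succ_le fun N => map_mono hM θ (hsm N))
  obtain ⟨r, hr⟩ := hθ.exists_of_tendsto hN hM4
  have hM0 : 0 ≤ R := hM3 0 ht0
  have hMz : r = 0 := by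
    have h5 : ∀ N, (r : H →L[ℂ] H) ≤ s N := by
      intro N
      have h6 : 0 ≤ θ (s N - r) := by
        rw [map_sub, hr]
        exact sub_nonneg.2 (hM2 N)
      exact sub_nonneg.1 (hθ.nonneg hN h6)
    have h6 := hL3 _ h5
    rw [hLz] at h6
    have h7 : 0 ≤ (r : H →L[ℂ] H) := hθ.nonneg hN (by rw [hr]; exact hM0)
    exact Subtype.ext (le_antisymm h6 h7)
  have hMz' : R = 0 := by rw [← hr, hMz, map_zero]
  have h5 : ∀ N, c / 2 ≤ ∑ j, (inner ℂ (f j) (θ (s N) (f j))).re := by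
    intro N
    have h6 : (a N : H →L[ℂ] H) ≤ (s N + s N : M) := by
      have h7 : ff (a N : H →L[ℂ] H) ≤ s N := by
        have h8 := hs2 N 1
        have h9 : b N 1 = a N := by
          rw [hb]
          simp
        rwa [h9] at h8
      exact (le_two_ff (ha0 N) (ha1 N)).trans (add_le_add h7 h7)
    have h7 : ∀ j, (inner ℂ (f j) (θ (a N) (f j))).re ≤
        (inner ℂ (f j) (θ (s N) (f j))).re + (inner ℂ (f j) (θ (s N) (f j))).re := by
      intro j
      have h7 := inner_le_of_le (map_mono hM θ h6) (f j)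
      have h8 : θ (s N + s N) (f j) = θ (s N) (f j) + θ (s N) (f j) := by
        rw [map_add]
        rfl
      rwa [h8, inner_add_right, Complex.add_re] at h7
    have h9 := h3 N
    have h10 := Finset.sum_le_sum fun (j : J) (_ : j ∈ Finset.univ) => h7 j
    rw [Finset.sum_add_distrib] at h10
    rw [ha] at h10
    linarith
  have h6 : Tendsto (fun k => ∑ j, (inner ℂ (f j) (θ (s k) (f j))).re) V
      (𝓝 (∑ j, (inner ℂ (f j) (R (f j))).re)) :=
    tendsto_finsetSum _ fun j _ => (Complex.continuous_re.tendsto _).comp (hM4 (f j) (f j))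
  rw [hMz'] at h6
  have h7 := ge_of_tendsto h6 (Eventually.of_forall h5)
  simp at h7
  linarith

end corner

end Vale.Agent.P092.H820
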