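import Mathlib.LinearAlgebra.Dimension.Finrank
import Mathlib.LinearAlgebra.FiniteDimensional.Lemmas
import Mathlib.LinearAlgebra.FiniteDimensional.Basic
import Mathlib.Tactic.LinearCombination
import Mathlib.Tactic.FieldSimp
import Mathlib.Tactic.Ring

/-!
P092 (helper820), row [P3-FLIP], part 1: the finite geometry of the polar spaces of rank two of the
`ε`-hermitian forms. Regularity of lines (orthogonal forms), regularity of order four of lines
(every form), regularity of points (dimension four), and the configurations which violate them.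
-/

set_option linter.all false

open Module

namespace Vale.Agent.P092.H820.P3

/-- a grid `m + 1` by `m + 1` whose last corner is missing -/
structure Cf {A : Type*} (R : A → A → Prop) {m : ℕ} (x c : Fin (m + 1) → A) : Prop where
  xc : ∀ i j, (i ≠ Fin.last m ∨ j ≠ Fin.last m) → R (x i) (c j)
  nl : ¬ R (x (Fin.last m)) (c (Fin.last m))
  xx : ∀ i j, i ≠ j → ¬ R (x i) (x j)
  cc : ∀ i j, i ≠ j → ¬ R (c i) (c j)

section form

variable {k V : Type*} [Field k] [AddCommGroup V] [Module k V]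

/-- an `ε`-hermitian form -/
structure HF (σ : k →+* k) (ε : k) (h : V → V → k) : Prop where
  inv : ∀ x, σ (σ x) = x
  eps : ε * ε = 1
  seps : σ ε = ε
  add : ∀ x x' y, h (x + x') y = h x y + h x' y
  smul : ∀ a x y, h (a • x) y = a * h x y
  herm : ∀ x y, h y x = ε * σ (h x y)

variable {σ : k →+* k} {ε : k} {h : V → V → k}

namespace HF

variable (H : HF σ ε h)

include H

theorem addr (x y y' : V) : h x (y + y') = h x y + h x y' := by
  rw [H.herm (y + y') x, H.add, map_add, mul_add, ← H.herm, ← H.herm]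

theorem smulr (a : k) (x y : V) : h x (a • y) = σ a * h x y := by
  rw [H.herm (a • y) x, H.smul, map_mul, H.herm y x]
  ring

theorem zero_l (y : V) : h 0 y = 0 := by
  have := H.smul 0 0 y
  rwa [zero_smul, zero_mul] at this

theorem zero_r (x : V) : h x 0 = 0 := by
  have := H.smulr 0 x 0
  rwa [zero_smul, map_zero, zero_mul] at this

theorem symm {x y : V} (e : h x y = 0) : h y x = 0 := by
  rw [H.herm x y, e, map_zero, mul_zero]

theorem ne {x y : V} (e : h x y ≠ 0) : h y x ≠ 0 := fun e' => e (H.symm e')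

theorem eps_ne : ε ≠ 0 := by
  intro e
  have := H.eps
  rw [e, mul_zero] at this
  exact zero_ne_one this

end HF

/-- singular -/
def Sg (h : V → V → k) (X : Submodule k V) : Prop := ∀ x ∈ X, ∀ y ∈ X, h x y = 0

/-- a common point -/
def Mt (X Y : Submodule k V) : Prop := ∃ x, x ≠ 0 ∧ x ∈ X ∧ x ∈ Y

theorem Mt.symm {X Y : Submodule k V} (e : Mt X Y) : Mt Y X := by
  obtain ⟨x, h0, h1, h2⟩ := e
  exact ⟨x, h0, h2, h1⟩

/-- a singular plane -/
structure Ln (h : V → V → k) (X : Submodule k V) : Prop where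
  sg : Sg h X
  dm : finrank k X = 2

theorem fin_of {X : Submodule k V} {m : ℕ} (h2 : finrank k X = m + 1) : FiniteDimensional k X :=
  FiniteDimensional.of_finrank_pos (by rw [h2]; exact Nat.succ_pos _)

/-- two independent vectors of a plane generate it -/
theorem span2 {X : Submodule k V} (h2 : finrank k X = 2) {a b : V} (ha : a ∈ X) (hb : b ∈ X)
    (li : LinearIndependent k ![a, b]) {c : V} (hc : c ∈ X) : ∃ r s : k, c = r • a + s • b := by
  haveI := fin_of h2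
  have h1 : Submodule.span k (Set.range ![a, b]) = X := by
    refine Submodule.eq_of_le_of_finrank_eq (Submodule.span_le.2 ?_) ?_
    · rintro _ ⟨i, rfl⟩
      fin_cases i
      · exact ha
      · exact hb
    · rw [finrank_span_eq_card li, h2, Fintype.card_fin]
  rw [← h1] at hc
  have e : Set.range ![a, b] = {a, b} := by
    rw [Matrix.range_cons, Matrix.range_cons, Matrix.range_empty, Set.union_empty,
      Set.singleton_union]
  rw [e] at hc
  obtain ⟨r, s, hc⟩ := Submodule.mem_span_pair.1 hc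
  exact ⟨r, s, hc.symm⟩

/-- adding a vector -/
theorem finrank_sup_one {X : Submodule k V} [FiniteDimensional k X] {v : V} (hv : v ∉ X) :
    finrank k ↥(X ⊔ Submodule.span k {v}) = finrank k X + 1 := by
  have hv0 : v ≠ 0 := fun h => hv (by rw [h]; exact X.zero_mem)
  have h1 := Submodule.finrank_sup_add_finrank_inf_eq X (Submodule.span k {v})
  have h2 : X ⊓ Submodule.span k {v} = ⊥ := by
    rw [Submodule.eq_bot_iff]
    rintro x ⟨hx, hx'⟩
    obtain ⟨a, rfl⟩ := Submodule.mem_span_singleton.1 hx'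
    by_contra h
    have ha : a ≠ 0 := fun h' => h (by rw [h', zero_smul])
    apply hv
    have := X.smul_mem a⁻¹ hx
    rwa [smul_smul, inv_mul_cancel₀ ha, one_smul] at this
  rw [h2, finrank_bot, add_zero, finrank_span_singleton hv0] at h1
  exact h1

theorem sg_sup (H : HF σ ε h) {X : Submodule k V} (hX : Sg h X) {v : V} (hv : h v v = 0)
    (hp : ∀ x ∈ X, h x v = 0) : Sg h (X ⊔ Submodule.span k {v}) := by
  intro x hx y hy
  obtain ⟨a, ha, b, hb, rfl⟩ := Submodule.mem_sup.1 hx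
  obtain ⟨c, hc, d, hd, rfl⟩ := Submodule.mem_sup.1 hy
  obtain ⟨r, rfl⟩ := Submodule.mem_span_singleton.1 hb
  obtain ⟨s, rfl⟩ := Submodule.mem_span_singleton.1 hd
  rw [H.add, H.addr, H.addr, H.smulr, H.smulr, H.smul, H.smul, hX a ha c hc, hp a ha, hv,
    H.symm (hp c hc)]
  ring

/-- the singular subspaces have dimension at most two -/
def W2 (h : V → V → k) : Prop := ∀ X : Submodule k V, Sg h X → finrank k X ≤ 2

/-- disjoint lines are opposite -/
theorem opp (H : HF σ ε h) (hw : W2 h) {X Y : Submodule k V} (hY : Ln h Y)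
    (hX : Sg h X) (hXY : ¬ Mt X Y) {a : V} (ha : a ∈ X) (h0 : a ≠ 0) : ∃ d ∈ Y, h a d ≠ 0 := by
  haveI := fin_of hY.dm
  by_contra hc
  push Not at hc
  have haY : a ∉ Y := fun h' => hXY ⟨a, h0, ha, h'⟩
  have h1 := finrank_sup_one haY
  have h2 := hw _ (sg_sup H hY.sg (hX a ha a ha) fun x hx => H.symm (hc x hx))
  rw [hY.dm] at h1
  omega

/-- the transversal of two disjoint lines through a point -/
theorem ex_tr {X Y M : Submodule k V} (hM : finrank k M = 2) (hXY : ¬ Mt X Y) (h1 : Mt X M)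
    (h2 : Mt Y M) : ∃ a b, a ≠ 0 ∧ b ≠ 0 ∧ a ∈ X ∧ b ∈ Y ∧ a ∈ M ∧ b ∈ M ∧
      LinearIndependent k ![a, b] ∧ ∀ m ∈ M, ∃ r s : k, m = r • a + s • b := by
  obtain ⟨a, a0, aX, aM⟩ := h1
  obtain ⟨b, b0, bY, bM⟩ := h2
  have li : LinearIndependent k ![a, b] := by
    rw [LinearIndependent.pair_iff]
    intro s t hst
    have hs : s = 0 := by
      by_contra hs
      refine hXY ⟨a, a0, aX, ?_⟩
      have : a = (-(s⁻¹ * t)) • b := by
        have h3 : s • a = -(t • b) := eq_neg_of_add_eq_zero_left hst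
        have h4 := congrArg (fun v => s⁻¹ • v) h3
        simp only [smul_smul, inv_mul_cancel₀ hs, one_smul, smul_neg] at h4
        rw [h4, neg_smul]
      rw [this]
      exact Y.smul_mem _ bY
    refine ⟨hs, ?_⟩
    rw [hs, zero_smul, zero_add] at hst
    exact (smul_eq_zero.1 hst).resolve_right b0
  exact ⟨a, b, a0, b0, aX, bY, aM, bM, li, fun m hm => span2 hM aM bM li hm⟩

/-- a third line which meets the transversal -/
theorem ex_third {X Y M L : Submodule k V} (hXL : ¬ Mt L X) (hYL : ¬ Mt L Y) {a b : V} 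
    (aX : a ∈ X) (bY : b ∈ Y) (h0 : a ≠ 0) (h0' : b ≠ 0)
    (hM : ∀ m ∈ M, ∃ r s : k, m = r • a + s • b) (hL : Mt L M) :
    ∃ r : k, r ≠ 0 ∧ a + r • b ∈ L := by
  obtain ⟨c, c0, cL, cM⟩ := hL
  obtain ⟨r, s, rfl⟩ := hM c cM
  have hr : r ≠ 0 := by
    rintro rfl
    rw [zero_smul, zero_add] at c0 cL
    exact hYL ⟨_, c0, cL, Y.smul_mem _ bY⟩
  have hs : s ≠ 0 := by
    rintro rfl
    rw [zero_smul, add_zero] at c0 cL
    exact hXL ⟨_, c0, cL, X.smul_mem _ aX⟩
  refine ⟨r⁻¹ * s, mul_ne_zero (inv_ne_zero hr) hs, ?_⟩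
  have := L.smul_mem r⁻¹ cL
  rwa [smul_add, smul_smul, smul_smul, inv_mul_cancel₀ hr, one_smul] at this

/-- the criterion for a transversal to meet a third line -/
theorem meet (H : HF σ ε h) {X Y M L : Submodule k V} (hY : Ln h Y) (hXY : ¬ Mt X Y)
    (hop : ∀ a ∈ X, a ≠ 0 → ∃ d ∈ Y, h a d ≠ 0) (hM : Sg h M) {a b c : V} (aX : a ∈ X)
    (a0 : a ≠ 0) (bY : b ∈ Y) (b0 : b ≠ 0) (aM : a ∈ M) (bM : b ∈ M) (cY : c ∈ Y)
    (hc : a + c ∈ L) (hac : h a c = 0) : Mt L M := by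
  obtain ⟨d, dY, hd⟩ := hop a aX a0
  have hab : h a b = 0 := hM a aM b bM
  have li : LinearIndependent k ![b, d] := by
    rw [LinearIndependent.pair_iff]
    intro s t hst
    have ht : t = 0 := by
      have h1 := congrArg (fun v => h a v) hst
      simp only [H.addr, H.smulr, H.zero_r, hab, mul_zero, zero_add] at h1
      have := (mul_eq_zero.1 h1).resolve_right hd
      rwa [map_eq_zero] at this
    refine ⟨?_, ht⟩
    rw [ht, zero_smul, add_zero] at hst
    exact (smul_eq_zero.1 hst).resolve_right b0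
  obtain ⟨r, s, rfl⟩ := span2 hY.dm bY dY li cY
  have hs : s = 0 := by
    rw [H.addr, H.smulr, H.smulr, hab, mul_zero, zero_add] at hac
    have := (mul_eq_zero.1 hac).resolve_right hd
    rwa [map_eq_zero] at this
  subst hs
  rw [zero_smul, add_zero] at hc cY
  refine ⟨a + r • b, fun e => ?_, hc, M.add_mem aM (M.smul_mem _ bM)⟩
  refine hXY ⟨a, a0, aX, ?_⟩
  rw [eq_neg_of_add_eq_zero_left e]
  exact Y.neg_mem cY

/-- the data of two disjoint lines `X`, `Y`, two transversals and a third line `L` -/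
structure Gd (h : V → V → k) (X Y L : Submodule k V) (a₁ a₂ b₁ b₂ : V) : Prop where
  a₁X : a₁ ∈ X
  a₂X : a₂ ∈ X
  b₁Y : b₁ ∈ Y
  b₂Y : b₂ ∈ Y
  c₁L : a₁ + b₁ ∈ L
  c₂L : a₂ + b₂ ∈ L
  z₁ : h a₁ b₁ = 0
  z₂ : h a₂ b₂ = 0
  liX : LinearIndependent k ![a₁, a₂]
  liY : LinearIndependent k ![b₁, b₂]

theorem Gd.tr (H : HF σ ε h) {X Y L : Submodule k V} {a₁ a₂ b₁ b₂ : V}
    (g : Gd h X Y L a₁ a₂ b₁ b₂) (hX : Sg h X) (hY : Sg h Y) (hL : Sg h L) :
    h a₂ b₁ = - (ε * σ (h a₁ b₂)) := by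
  have h1 := hL _ g.c₁L _ g.c₂L
  rw [H.add, H.addr, H.addr, hX _ g.a₁X _ g.a₂X, hY _ g.b₁Y _ g.b₂Y, zero_add, add_zero] at h1
  have h2 : h b₁ a₂ = - h a₁ b₂ := by linear_combination h1
  rw [H.herm b₁ a₂, h2, map_neg, mul_neg]

/-- the value `h(a, T a)` -/
theorem Gd.val (H : HF σ ε h) {X Y L : Submodule k V} {a₁ a₂ b₁ b₂ : V}
    (g : Gd h X Y L a₁ a₂ b₁ b₂) (hX : Sg h X) (hY : Sg h Y) (hL : Sg h L) (x y : k) :
    h (x • a₁ + y • a₂) (x • b₁ + y • b₂) = x * σ y * h a₁ b₂ - ε * (y * σ x * σ (h a₁ b₂)) := by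
  rw [H.add, H.addr, H.addr, H.smul, H.smul, H.smul, H.smul, H.smulr, H.smulr, H.smulr, H.smulr,
    g.z₁, g.z₂, g.tr H hX hY hL]
  ring

theorem Gd.mem {X Y L : Submodule k V} {a₁ a₂ b₁ b₂ : V}
    (g : Gd h X Y L a₁ a₂ b₁ b₂) (x y : k) :
    (x • a₁ + y • a₂) + (x • b₁ + y • b₂) ∈ L := by
  have e : (x • a₁ + y • a₂) + (x • b₁ + y • b₂) = x • (a₁ + b₁) + y • (a₂ + b₂) := by
    rw [smul_add, smul_add]; abel
  rw [e]
  exact L.add_mem (L.smul_mem _ g.c₁L) (L.smul_mem _ g.c₂L)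

/-- a transversal which meets `L` -/
theorem Gd.of_meet (H : HF σ ε h) {X Y L M : Submodule k V} {a₁ a₂ b₁ b₂ : V}
    (g : Gd h X Y L a₁ a₂ b₁ b₂) (hXL : ¬ Mt L X) (hYL : ¬ Mt L Y) {x y : k} {b : V}
    (bY : b ∈ Y) (b0 : b ≠ 0) (a0 : x • a₁ + y • a₂ ≠ 0) (hab : h (x • a₁ + y • a₂) b = 0)
    (hM : ∀ m ∈ M, ∃ r s : k, m = r • (x • a₁ + y • a₂) + s • b) (hL : Mt L M) :
    h (x • a₁ + y • a₂) (x • b₁ + y • b₂) = 0 := by
  have aX : x • a₁ + y • a₂ ∈ X := X.add_mem (X.smul_mem _ g.a₁X) (X.smul_mem _ g.a₂X)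
  obtain ⟨r, hr, hrL⟩ := ex_third hXL hYL aX bY a0 b0 hM hL
  have h1 : (x • b₁ + y • b₂) = r • b := by
    by_contra hne
    refine hYL ⟨(x • b₁ + y • b₂) - r • b, sub_ne_zero.2 hne, ?_, ?_⟩
    · have := L.sub_mem (g.mem x y) hrL
      rwa [add_sub_add_left_eq_sub] at this
    · exact Y.sub_mem (Y.add_mem (Y.smul_mem _ g.b₁Y) (Y.smul_mem _ g.b₂Y)) (Y.smul_mem _ bY)
  rw [h1, H.smulr, hab, mul_zero]

theorem Gd.ne (H : HF σ ε h) {X Y L : Submodule k V} {a₁ a₂ b₁ b₂ : V}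
    (g : Gd h X Y L a₁ a₂ b₁ b₂) (hY : Ln h Y)
    (hop : ∀ a ∈ X, a ≠ 0 → ∃ d ∈ Y, h a d ≠ 0) : h a₁ b₂ ≠ 0 := by
  intro h0
  have a0 : a₁ ≠ 0 := g.liX.ne_zero 0
  obtain ⟨d, dY, hd⟩ := hop a₁ g.a₁X a0
  obtain ⟨r, s, rfl⟩ := span2 hY.dm g.b₁Y g.b₂Y g.liY dY
  apply hd
  rw [H.addr, H.smulr, H.smulr, g.z₁, h0, mul_zero, mul_zero, add_zero]

end form

end Vale.Agent.P092.H820.P3
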