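import Vale.Agent.P092.H820.P3Reg

/-!
P092 (helper820), row [P3-FLIP], part 3: hyperbolic pairs, the vector outside them, and the
configurations.
-/

set_option linter.all false

open Module

namespace Vale.Agent.P092.H820.P3

variable {k V : Type*} [Field k] [AddCommGroup V] [Module k V]
  {σ : k →+* k} {ε : k} {h : V → V → k}

/-- two orthogonal hyperbolic pairs -/
structure Hyp (ε : k) (h : V → V → k) (e f e' f' : V) : Prop where
  ee : h e e = 0
  ef : h e f = 1
  ee' : h e e' = 0
  ef' : h e f' = 0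
  fe : h f e = ε
  ff : h f f = 0
  fe' : h f e' = 0
  ff' : h f f' = 0
  e'e : h e' e = 0
  e'f : h e' f = 0
  e'e' : h e' e' = 0
  e'f' : h e' f' = 1
  f'e : h f' e = 0
  f'f : h f' f = 0
  f'e' : h f' e' = ε
  f'f' : h f' f' = 0

theorem Hyp.of (H : HF σ ε h) {e f e' f' : V} (ee : h e e = 0) (ff : h f f = 0)
    (e'e' : h e' e' = 0) (f'f' : h f' f' = 0) (ef : h e f = 1) (e'f' : h e' f' = 1)
    (ee' : h e e' = 0) (ff' : h f f' = 0) (ef' : h e f' = 0) (e'f : h e' f = 0) :
    Hyp ε h e f e' f' where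
  ee := ee
  ef := ef
  ee' := ee'
  ef' := ef'
  fe := by rw [H.herm e f, ef, map_one, mul_one]
  ff := ff
  fe' := H.symm e'f
  ff' := ff'
  e'e := H.symm ee'
  e'f := e'f
  e'e' := e'e'
  e'f' := e'f'
  f'e := H.symm ef'
  f'f := H.symm ff'
  f'e' := by rw [H.herm e' f', e'f', map_one, mul_one]
  f'f' := f'f'

/-- prescribed products with two independent vectors -/
theorem ex_prod (H : HF σ ε h) (nd : ∀ x, x ≠ 0 → ∃ y, h x y ≠ 0) {e e' : V}
    (li : LinearIndependent k ![e, e']) : ∃ y, h e y = 1 ∧ h e' y = 0 := by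
  have e0 : e' ≠ 0 := li.ne_zero 1
  obtain ⟨y₁, hy₁⟩ := nd e' e0
  -- a vector with `h e' y₀ = 1`
  have h1 : h e' ((σ (h e' y₁))⁻¹ • y₁) = 1 := by
    rw [H.smulr, map_inv₀, H.inv, inv_mul_cancel₀ hy₁]
  set y₀ := (σ (h e' y₁))⁻¹ • y₁ with hy₀
  by_contra hc
  push Not at hc
  have h2 : ∀ y, h e' y = 0 → h e y = 0 := by
    intro y hy
    by_contra hne
    refine hc ((σ (h e y))⁻¹ • y) ?_ ?_
    · rw [H.smulr, map_inv₀, H.inv, inv_mul_cancel₀ hne]
    · rw [H.smulr, hy, mul_zero]
  have h3 : e + (-(h e y₀)) • e' = 0 := by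
    by_contra hne
    obtain ⟨y, hy⟩ := nd _ hne
    apply hy
    have h4 := h2 (y + (-(σ (h e' y))) • y₀) (by
      rw [H.addr, H.smulr, h1, map_neg, H.inv]; ring)
    rw [H.addr, H.smulr, map_neg, H.inv] at h4
    rw [H.add, H.smul]
    linear_combination h4
  have h5 := (LinearIndependent.pair_iff.1 li) 1 (-(h e y₀)) (by rw [one_smul]; exact h3)
  exact one_ne_zero h5.1

/-- isotropic correction -/
theorem ex_iso (H : HF σ ε h) (tv : ∀ y, ∃ β, h y y = β + ε * σ β) {e y : V} (ee : h e e = 0)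
    (ey : h e y = 1) : ∃ α : k, h (y + α • e) (y + α • e) = 0 := by
  obtain ⟨β, hβ⟩ := tv y
  refine ⟨-β, ?_⟩
  rw [H.add, H.addr, H.addr, H.smul, H.smul, H.smulr, H.smulr, ee, ey, hβ, H.herm e y, ey, map_neg,
    map_one]
  ring

/-- **hyperbolic pairs** over a singular plane -/
theorem ex_hyp (H : HF σ ε h) (nd : ∀ x, x ≠ 0 → ∃ y, h x y ≠ 0)
    (tv : ∀ y, ∃ β, h y y = β + ε * σ β) {e e' : V} (li : LinearIndependent k ![e, e'])
    (ee : h e e = 0) (e'e' : h e' e' = 0) (ee' : h e e' = 0) :
    ∃ f f', Hyp ε h e f e' f' := by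
  obtain ⟨y, hy1, hy2⟩ := ex_prod H nd li
  obtain ⟨α, hα⟩ := ex_iso H tv ee hy1
  set f := y + α • e with hf
  have ef : h e f = 1 := by rw [hf, H.addr, H.smulr, ee, hy1, mul_zero, add_zero]
  have e'f : h e' f = 0 := by
    rw [hf, H.addr, H.smulr, H.symm ee', hy2, mul_zero, add_zero]
  have fe : h f e = ε := by rw [H.herm e f, ef, map_one, mul_one]
  have li' : LinearIndependent k ![e', e] := by
    rw [LinearIndependent.pair_iff] at li ⊢
    intro s t hst
    have := li t s (by rw [add_comm]; exact hst)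
    exact ⟨this.2, this.1⟩
  obtain ⟨z, hz1, hz2⟩ := ex_prod H nd li'
  -- make it orthogonal to `f`
  set z' := z + (-(ε * σ (h f z))) • e with hz'
  have fz' : h f z' = 0 := by
    rw [hz', H.addr, H.smulr, fe, map_neg, map_mul, H.inv, H.seps]
    have := H.eps
    linear_combination (-(h f z)) * this
  have ez' : h e z' = 0 := by rw [hz', H.addr, H.smulr, ee, hz2, mul_zero, add_zero]
  have e'z' : h e' z' = 1 := by
    rw [hz', H.addr, H.smulr, H.symm ee', hz1, mul_zero, add_zero]
  obtain ⟨α', hα'⟩ := ex_iso H tv e'e' e'z'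
  refine ⟨f, z' + α' • e', Hyp.of H ee hα e'e' hα' ef ?_ ee' ?_ ?_ e'f⟩
  · rw [H.addr, H.smulr, e'e', e'z', mul_zero, add_zero]
  · rw [H.addr, H.smulr, H.symm e'f, fz', mul_zero, add_zero]
  · rw [H.addr, H.smulr, ee', ez', mul_zero, add_zero]

/-- **an anisotropic vector outside the pairs** -/
theorem ex_w (H : HF σ ε h) (hw : W2 h) (h5 : 4 < finrank k V) {e f e' f' : V}
    (g : Hyp ε h e f e' f') :
    ∃ w, h w w ≠ 0 ∧ h w e = 0 ∧ h w f = 0 ∧ h w e' = 0 ∧ h w f' = 0 := by
  obtain ⟨v, hv⟩ : ∃ v, v ∉ Submodule.span k (Set.range ![e, f, e', f']) := by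
    by_contra hc
    push Not at hc
    have h1 : Submodule.span k (Set.range ![e, f, e', f']) = ⊤ := by
      rw [eq_top_iff]; intro x _; exact hc x
    have h2 := finrank_range_le_card (R := k) ![e, f, e', f']
    rw [Set.finrank, h1, finrank_top, Fintype.card_fin] at h2
    omega
  set w := v + (-(h v f)) • e + (-(ε * h v e)) • f + (-(h v f')) • e' + (-(ε * h v e')) • f'
    with hw'
  have hwm : w ≠ 0 := by
    intro h0
    apply hv
    have h1 : v = (h v f) • e + (ε * h v e) • f + (h v f') • e' + (ε * h v e') • f' := by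
      have : v = w - ((-(h v f)) • e + (-(ε * h v e)) • f + (-(h v f')) • e' +
          (-(ε * h v e')) • f') := by rw [hw']; abel
      rw [h0, zero_sub] at this
      refine this.trans ?_
      simp only [neg_smul]
      abel
    rw [h1]
    have hm : ∀ i, ![e, f, e', f'] i ∈ Submodule.span k (Set.range ![e, f, e', f']) :=
      fun i => Submodule.subset_span ⟨i, rfl⟩
    exact Submodule.add_mem _ (Submodule.add_mem _ (Submodule.add_mem _
      (Submodule.smul_mem _ _ (hm 0)) (Submodule.smul_mem _ _ (hm 1)))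
      (Submodule.smul_mem _ _ (hm 2))) (Submodule.smul_mem _ _ (hm 3))
  have we : h w e = 0 := by
    rw [hw', H.add, H.add, H.add, H.add, H.smul, H.smul, H.smul, H.smul, g.ee, g.fe, g.e'e, g.f'e]
    linear_combination (-(h v e)) * H.eps
  have wf : h w f = 0 := by
    rw [hw', H.add, H.add, H.add, H.add, H.smul, H.smul, H.smul, H.smul, g.ef, g.ff, g.e'f, g.f'f]
    ring
  have we' : h w e' = 0 := by
    rw [hw', H.add, H.add, H.add, H.add, H.smul, H.smul, H.smul, H.smul, g.ee', g.fe', g.e'e',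
      g.f'e']
    linear_combination (-(h v e')) * H.eps
  have wf' : h w f' = 0 := by
    rw [hw', H.add, H.add, H.add, H.add, H.smul, H.smul, H.smul, H.smul, g.ef', g.ff', g.e'f',
      g.f'f']
    ring
  refine ⟨w, fun hww => ?_, we, wf, we', wf'⟩
  -- otherwise a singular space of dimension three
  have li : LinearIndependent k ![e, e'] := by
    rw [LinearIndependent.pair_iff]
    intro s t hst
    have f1 := congrArg (fun v => h v f) hst
    have f2 := congrArg (fun v => h v f') hst
    simp only [H.add, H.smul, H.zero_l, g.ef, g.e'f, g.ef', g.e'f', mul_zero, mul_one, add_zero,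
      zero_add] at f1 f2
    exact ⟨f1, f2⟩
  have hr : finrank k ↥(Submodule.span k (Set.range ![e, e'])) = 2 := by
    rw [finrank_span_eq_card li, Fintype.card_fin]
  haveI := fin_of hr
  have er : Set.range ![e, e'] = {e, e'} := by
    rw [Matrix.range_cons, Matrix.range_cons, Matrix.range_empty, Set.union_empty,
      Set.singleton_union]
  have hs : Sg h (Submodule.span k (Set.range ![e, e'])) := by
    intro x hx y hy
    rw [er] at hx hy
    obtain ⟨a, b, rfl⟩ := Submodule.mem_span_pair.1 hx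
    obtain ⟨c, d, rfl⟩ := Submodule.mem_span_pair.1 hy
    simp only [H.add, H.addr, H.smul, H.smulr, g.ee, g.ee', g.e'e, g.e'e', mul_zero, add_zero]
  have hwn : w ∉ Submodule.span k (Set.range ![e, e']) := by
    intro hx
    rw [er] at hx
    obtain ⟨a, b, hab⟩ := Submodule.mem_span_pair.1 hx
    rw [← hab] at wf wf'
    simp only [H.add, H.smul, g.ef, g.e'f, g.ef', g.e'f', mul_zero, mul_one, add_zero,
      zero_add] at wf wf'
    apply hwm
    rw [← hab, wf, wf', zero_smul, zero_smul, add_zero]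
  have h6 := hw _ (sg_sup H hs hww fun x hx => by
    rw [er] at hx
    obtain ⟨a, b, rfl⟩ := Submodule.mem_span_pair.1 hx
    rw [H.add, H.smul, H.smul, H.symm we, H.symm we', mul_zero, mul_zero, add_zero])
  rw [finrank_sup_one hwn, hr] at h6
  omega

/-- the third point -/
theorem third (H : HF σ ε h) {e f w : V} {β : k} (ee : h e e = 0) (ff : h f f = 0)
    (ef : h e f = 1) (we : h w e = 0) (wf : h w f = 0) (hβ : h w w = β + ε * σ β)
    (h0 : h w w ≠ 0) : h (w + e + (-(σ β)) • f) (w + e + (-(σ β)) • f) = 0 ∧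
      h e (w + e + (-(σ β)) • f) ≠ 0 ∧ h f (w + e + (-(σ β)) • f) ≠ 0 := by
  have fe : h f e = ε := by rw [H.herm e f, ef, map_one, mul_one]
  refine ⟨?_, ?_, ?_⟩
  · simp only [H.add, H.addr, H.smul, H.smulr, ee, ff, ef, fe, we, wf, H.symm we, H.symm wf,
      map_neg, H.inv, hβ]
    ring
  · simp only [H.add, H.addr, H.smul, H.smulr, ee, ff, ef, fe, we, wf, H.symm we, H.symm wf,
      map_neg, H.inv, zero_add, mul_one]
    intro hb
    apply h0
    have : β = 0 := neg_eq_zero.1 hb
    rw [hβ, this, map_zero, mul_zero, add_zero]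
  · simp only [H.add, H.addr, H.smul, H.smulr, ee, ff, ef, fe, we, wf, H.symm we, H.symm wf,
      map_neg, H.inv, zero_add, mul_zero, add_zero]
    exact H.eps_ne

/-- **configuration of points, order three** -/
theorem conf3 (H : HF σ ε h) {e f e' f' w : V} (g : Hyp ε h e f e' f') {β : k}
    (we : h w e = 0) (wf : h w f = 0) (we' : h w e' = 0) (wf' : h w f' = 0)
    (hβ : h w w = β + ε * σ β) (h0 : h w w ≠ 0) :
    ∃ x c : Fin (2 + 1) → V, (∀ i, h (x i) (x i) = 0) ∧ (∀ i, h (c i) (c i) = 0) ∧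
      Cf (fun v w => h v w = 0) x c := by
  obtain ⟨a1, a2, a3⟩ := third H g.ee g.ff g.ef we wf hβ h0
  obtain ⟨b1, b2, b3⟩ := third H g.e'e' g.f'f' g.e'f' we' wf' hβ h0
  have hef : h e f ≠ 0 := by rw [g.ef]; exact one_ne_zero
  have hef' : h e' f' ≠ 0 := by rw [g.e'f']; exact one_ne_zero
  refine ⟨![e, f, w + e + (-(σ β)) • f], ![e', f', w + e' + (-(σ β)) • f'], ?_, ?_, ?_, ?_, ?_, ?_⟩
  · intro i
    fin_cases i
    · exact g.ee
    · exact g.ff
    · exact a1
  · intro i
    fin_cases i
    · exact g.e'e'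
    · exact g.f'f'
    · exact b1
  · intro i j hij
    fin_cases i <;> fin_cases j
    · exact g.ee'
    · exact g.ef'
    · show h e (w + e' + (-(σ β)) • f') = 0
      rw [H.addr, H.addr, H.smulr, H.symm we, g.ee', g.ef', mul_zero, add_zero, add_zero]
    · exact g.fe'
    · exact g.ff'
    · show h f (w + e' + (-(σ β)) • f') = 0
      rw [H.addr, H.addr, H.smulr, H.symm wf, g.fe', g.ff', mul_zero, add_zero, add_zero]
    · show h (w + e + (-(σ β)) • f) e' = 0
      rw [H.add, H.add, H.smul, we', g.ee', g.fe', mul_zero, add_zero, add_zero]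
    · show h (w + e + (-(σ β)) • f) f' = 0
      rw [H.add, H.add, H.smul, wf', g.ef', g.ff', mul_zero, add_zero, add_zero]
    · rcases hij with h' | h' <;> exact absurd rfl h'
  · show ¬ h (w + e + (-(σ β)) • f) (w + e' + (-(σ β)) • f') = 0
    simp only [H.add, H.addr, H.smul, H.smulr, we', wf', H.symm we, H.symm wf, g.ee', g.ef', g.fe',
      g.ff', mul_zero, add_zero]
    exact h0
  · intro i j hij
    fin_cases i <;> fin_cases j
    · exact absurd rfl hij
    · exact hef
    · exact a2
    · exact H.ne hef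
    · exact absurd rfl hij
    · exact a3
    · exact H.ne a2
    · exact H.ne a3
    · exact absurd rfl hij
  · intro i j hij
    fin_cases i <;> fin_cases j
    · exact absurd rfl hij
    · exact hef'
    · exact b2
    · exact H.ne hef'
    · exact absurd rfl hij
    · exact b3
    · exact H.ne b2
    · exact H.ne b3
    · exact absurd rfl hij

/-- the fourth point on the hyperbolic line -/
theorem fourth (H : HF σ ε h) {e f w : V} {β κ : k} (ee : h e e = 0) (ff : h f f = 0)
    (ef : h e f = 1) (we : h w e = 0) (wf : h w f = 0) (hβ : h w w = β + ε * σ β)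
    (h0 : h w w ≠ 0) (κ0 : κ ≠ 0) (hκ : σ κ + ε * κ = 0) :
    h (e + κ • f) (e + κ • f) = 0 ∧ h e (e + κ • f) ≠ 0 ∧ h f (e + κ • f) ≠ 0 ∧
      h (e + κ • f) (w + e + (-(σ β)) • f) ≠ 0 := by
  have fe : h f e = ε := by rw [H.herm e f, ef, map_one, mul_one]
  refine ⟨?_, ?_, ?_, ?_⟩
  · simp only [H.add, H.addr, H.smul, H.smulr, ee, ff, ef, fe]
    linear_combination hκ
  · simp only [H.addr, H.smulr, ee, ef, zero_add, mul_one]
    rwa [Ne, map_eq_zero]
  · simp only [H.addr, H.smulr, fe, ff, mul_zero, add_zero]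
    exact H.eps_ne
  · simp only [H.add, H.addr, H.smul, H.smulr, ee, ff, ef, fe, H.symm we, H.symm wf, map_neg,
      H.inv]
    intro hb
    apply h0
    have h1 : β = κ * ε := by linear_combination -hb
    rw [hβ, h1, map_mul, H.seps]
    linear_combination hκ + σ κ * H.eps

/-- **configuration of points, order four** -/
theorem conf4 (H : HF σ ε h) {e f e' f' w : V} (g : Hyp ε h e f e' f') {β κ : k}
    (we : h w e = 0) (wf : h w f = 0) (we' : h w e' = 0) (wf' : h w f' = 0)
    (hβ : h w w = β + ε * σ β) (h0 : h w w ≠ 0) (κ0 : κ ≠ 0) (hκ : σ κ + ε * κ = 0) :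
    ∃ x c : Fin (3 + 1) → V, (∀ i, h (x i) (x i) = 0) ∧ (∀ i, h (c i) (c i) = 0) ∧
      Cf (fun v w => h v w = 0) x c := by
  obtain ⟨a1, a2, a3⟩ := third H g.ee g.ff g.ef we wf hβ h0
  obtain ⟨b1, b2, b3⟩ := third H g.e'e' g.f'f' g.e'f' we' wf' hβ h0
  obtain ⟨a4, a5, a6, a7⟩ := fourth H g.ee g.ff g.ef we wf hβ h0 κ0 hκ
  obtain ⟨b4, b5, b6, b7⟩ := fourth H g.e'e' g.f'f' g.e'f' we' wf' hβ h0 κ0 hκ
  have hef : h e f ≠ 0 := by rw [g.ef]; exact one_ne_zero
  have hef' : h e' f' ≠ 0 := by rw [g.e'f']; exact one_ne_zero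
  refine ⟨![e, f, e + κ • f, w + e + (-(σ β)) • f],
    ![e', f', e' + κ • f', w + e' + (-(σ β)) • f'], ?_, ?_, ?_, ?_, ?_, ?_⟩
  · intro i
    fin_cases i
    · exact g.ee
    · exact g.ff
    · exact a4
    · exact a1
  · intro i
    fin_cases i
    · exact g.e'e'
    · exact g.f'f'
    · exact b4
    · exact b1
  · intro i j hij
    fin_cases i <;> fin_cases j
    · exact g.ee'
    · exact g.ef'
    · show h e (e' + κ • f') = 0
      simp only [H.addr, H.smulr, g.ee', g.ef', mul_zero, add_zero]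
    · show h e (w + e' + (-(σ β)) • f') = 0
      simp only [H.addr, H.smulr, H.symm we, g.ee', g.ef', mul_zero, add_zero, add_zero]
    · exact g.fe'
    · exact g.ff'
    · show h f (e' + κ • f') = 0
      simp only [H.addr, H.smulr, g.fe', g.ff', mul_zero, add_zero]
    · show h f (w + e' + (-(σ β)) • f') = 0
      simp only [H.addr, H.smulr, H.symm wf, g.fe', g.ff', mul_zero, add_zero, add_zero]
    · show h (e + κ • f) e' = 0
      simp only [H.add, H.smul, g.ee', g.fe', mul_zero, add_zero]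
    · show h (e + κ • f) f' = 0
      simp only [H.add, H.smul, g.ef', g.ff', mul_zero, add_zero]
    · show h (e + κ • f) (e' + κ • f') = 0
      simp only [H.add, H.smul, H.addr, H.smulr, g.ee', g.fe', g.ef', g.ff', mul_zero, add_zero]
    · show h (e + κ • f) (w + e' + (-(σ β)) • f') = 0
      simp only [H.add, H.smul, H.addr, H.smulr, g.ee', g.fe', g.ef', g.ff', H.symm we, H.symm wf,
        mul_zero, add_zero]
    · show h (w + e + (-(σ β)) • f) e' = 0
      simp only [H.add, H.smul, we', g.ee', g.fe', mul_zero, add_zero, add_zero]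
    · show h (w + e + (-(σ β)) • f) f' = 0
      simp only [H.add, H.smul, wf', g.ef', g.ff', mul_zero, add_zero, add_zero]
    · show h (w + e + (-(σ β)) • f) (e' + κ • f') = 0
      simp only [H.add, H.smul, H.addr, H.smulr, we', wf', g.ee', g.fe', g.ef', g.ff', mul_zero,
        add_zero]
    · rcases hij with h' | h' <;> exact absurd rfl h'
  · show ¬ h (w + e + (-(σ β)) • f) (w + e' + (-(σ β)) • f') = 0
    simp only [H.add, H.addr, H.smul, H.smulr, we', wf', H.symm we, H.symm wf, g.ee', g.ef', g.fe',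
      g.ff', mul_zero, add_zero]
    exact h0
  · intro i j hij
    fin_cases i <;> fin_cases j
    · exact absurd rfl hij
    · exact hef
    · exact a5
    · exact a2
    · exact H.ne hef
    · exact absurd rfl hij
    · exact a6
    · exact a3
    · exact H.ne a5
    · exact H.ne a6
    · exact absurd rfl hij
    · exact a7
    · exact H.ne a2
    · exact H.ne a3
    · exact H.ne a7
    · exact absurd rfl hij
  · intro i j hij
    fin_cases i <;> fin_cases j
    · exact absurd rfl hij
    · exact hef'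
    · exact b5
    · exact b2
    · exact H.ne hef'
    · exact absurd rfl hij
    · exact b6
    · exact b3
    · exact H.ne b5
    · exact H.ne b6
    · exact absurd rfl hij
    · exact b7
    · exact H.ne b2
    · exact H.ne b3
    · exact H.ne b7
    · exact absurd rfl hij

end Vale.Agent.P092.H820.P3
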