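import Vale.Agent.P092.CL.Quad
import Vale.Agent.P092.CL.Lt
import Vale.Agent.P092.H820.P3FlipW

/-!
P092 (helper820), row [CL-FLIP]: `FlipStmt` of `CL/Quad` for every symplectic or unitary form of
Witt index two (`2 ≠ 0`, or dimension at least five, or `σ ≠ 1`).
-/

set_option linter.all false

open Module Matrix Set TopologicalSpace MeasureTheory Topology Filter
open scoped InnerProductSpace

namespace Vale.Agent.P092.H820.P3

open Vale.Agent.P092.H303 (FormGroup Idx hyp)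
open Vale.Agent.P092.H370.Po
open Vale.Agent.P092.H714.Cl (hf Frm)
open Vale.Agent.P092.CL (Lt HFam LegC LegF Com FlipStmt lt V2)

section gen

variable {n : Type} [Fintype n] [DecidableEq n] {k : Type} [NontriviallyNormedField k]
  {σ : k →+* k} {ε : k} {J : Matrix n n k} [ProperSpace k] [Fact (Continuous σ)]
  {S V₁ V₂ : Type} [Group S] [MeasurableSpace V₁] [MeasurableSpace V₂] [TopologicalSpace S]
  [MulAction S (SGr σ J 1)] [ContinuousConstSMul S (SGr σ J 1)]
  [MulAction S (SGr σ J 2)] [ContinuousConstSMul S (SGr σ J 2)]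
  [NormedAddCommGroup V₁] [NormedAddCommGroup V₂]

/-- **[CL-FLIP]**, any letters with points `SGr σ J 1`, lines `SGr σ J 2` -/
theorem flip_stmt (w : WF σ ε J) (hne : 4 < Fintype.card n ∨ ∃ y, σ y ≠ ε * y)
    {L : Lt S (SGr σ J 1) (SGr σ J 2) V₁ V₂} (hIn : ∀ x l, L.In x l ↔ Inc x l) : FlipStmt L := by
  intro K _ _ _ _ Ec F pl ae af hc
  exact no_flip' w hne (β := Ec) (ν := F) hc.ee hc.ff hc.ef
    (fun c l hcl f g hn => (pl c l ((hIn c l).2 hcl)).inc f g
      fun y hy x hx hin => hn y hy x hx ((hIn x y).1 hin))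
    (fun c c' l hne' _ _ => ae c c' hne') (fun l l' c hne' _ _ => af l l' hne')

end gen

section lett

variable {k : Type} [NontriviallyNormedField k] [ProperSpace k] {ι : Type} [Fintype ι]
  [DecidableEq ι] {σ : k →+* k} [Fact (Continuous σ)] {ε : k} {J₀ : Matrix ι ι k}

/-- **[CL-FLIP]** for the letters of `CL/Lt` (`s = 0`) -/
theorem flip_lt [MeasurableSpace k] (hF : Frm σ ε (hyp (0 + 2) ε J₀))
    (wi : WI σ (hyp (0 + 2) ε J₀) 2)
    (hne : (2 : k) ≠ 0 ∨ 4 < Fintype.card (Idx (0 + 2) ι) ∨ ∃ x, σ x ≠ x) {w : k} (hw : w ≠ 0)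
    (hσ : σ w = w) (μ₁ : Measure k) (μ₂ : Measure (V2 σ ε)) :
    FlipStmt (lt hF hw hσ μ₁ μ₂) :=
  flip_stmt (WF.of_frm hF wi) (hne_of hF hne) (L := lt hF hw hσ μ₁ μ₂) fun x l => Iff.rfl

end lett

end Vale.Agent.P092.H820.P3
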