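import Vale.Agent.P092.H820.P3Ln
import Vale.Agent.P092.H370.Po4
import Vale.Agent.P092.H831.Leg

/-!
P092 (helper820), row [P3-FLIP], part 5: the quadrangle of a form of Witt index two, in the letters
`SGr σ J 1`, `SGr σ J 2`.
-/

set_option linter.all false

open Module Matrix Set

namespace Vale.Agent.P092.H820.P3

open Vale.Agent.P092.H370.Po
open Vale.Agent.P092.H714.Cl (hf Frm hf_add_left hf_smul_left)
open Vale.Agent.P092.H831 (SQ TQ)

section alg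

variable {n : Type} [Fintype n] [DecidableEq n] {k : Type} [Field k]
  {σ : k →+* k} {ε : k} {J : Matrix n n k}

/-- a nondegenerate trace valued `ε`-hermitian form of Witt index two -/
structure WF (σ : k →+* k) (ε : k) (J : Matrix n n k) : Prop where
  H : HF σ ε (hf σ J)
  nd : ∀ x, x ≠ 0 → ∃ y, hf σ J x y ≠ 0
  tv : ∀ y, ∃ β, hf σ J y y = β + ε * σ β
  wi : WI σ J 2

/-- from the algebraic data -/
theorem WF.of (inv : ∀ x, σ (σ x) = x) (eps : ε * ε = 1) (seps : σ ε = ε)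
    (herm : ∀ x y, hf σ J y x = ε * σ (hf σ J x y)) (nd : ∀ x, x ≠ 0 → ∃ y, hf σ J x y ≠ 0)
    (tv : ∀ y, ∃ β, hf σ J y y = β + ε * σ β) (wi : WI σ J 2) : WF σ ε J where
  H := ⟨inv, eps, seps, hf_add_left σ J, fun a x y => hf_smul_left σ J a x y, herm⟩
  nd := nd
  tv := tv
  wi := wi

theorem WF.of_frm (hF : Frm σ ε J) (wi : WI σ J 2) : WF σ ε J :=
  WF.of hF.inv hF.eps hF.seps hF.herm hF.nondeg hF.tv wi

theorem WF.w2 (w : WF σ ε J) : W2 (hf σ J) := fun X hX => w.wi.2 X hX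

/-- a generator of a point -/
theorem gen (p : SGr σ J 1) : ∃ v, v ≠ 0 ∧ v ∈ p.S ∧ ∀ x ∈ p.S, ∃ a : k, x = a • v := by
  obtain ⟨v, hv, h⟩ := finrank_eq_one_iff'.1 p.dim
  refine ⟨v.1, fun e => hv (Subtype.ext e), v.2, fun x hx => ?_⟩
  obtain ⟨c, hc⟩ := h ⟨x, hx⟩
  exact ⟨c, (congrArg Subtype.val hc).symm⟩

theorem inc_iff {p : SGr σ J 1} {v : n → k} (hv : v ∈ p.S) (hg : ∀ x ∈ p.S, ∃ a : k, x = a • v)
    {j : ℕ} {l : SGr σ J j} : Inc p l ↔ v ∈ l.S := by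
  constructor
  · intro h; exact h hv
  · intro h x hx
    obtain ⟨a, rfl⟩ := hg x hx
    exact l.S.smul_mem _ h

/-- the point of an isotropic vector -/
def mkP (v : n → k) (h0 : v ≠ 0) (h : hf σ J v v = 0) : SGr σ J 1 :=
  SGr.mk' (Submodule.span k {v}) (by
    intro x hx y hy
    obtain ⟨a, rfl⟩ := Submodule.mem_span_singleton.1 hx
    obtain ⟨b, rfl⟩ := Submodule.mem_span_singleton.1 hy
    rw [hf_smul_left, H714.Cl.hf_smul_right, h, mul_zero, mul_zero]) (finrank_span_singleton h0)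

theorem mem_mkP {v : n → k} {h0 : v ≠ 0} {h : hf σ J v v = 0} : v ∈ (mkP v h0 h).S :=
  Submodule.mem_span_singleton_self v

theorem gen_mkP {v : n → k} {h0 : v ≠ 0} {h : hf σ J v v = 0} :
    ∀ x ∈ (mkP v h0 h).S, ∃ a : k, x = a • v := fun x hx => by
  obtain ⟨a, e⟩ := Submodule.mem_span_singleton.1 hx
  exact ⟨a, e.symm⟩

/-- the line of a singular plane -/
def mkL (X : Submodule k (n → k)) (h : Ln (hf σ J) X) : SGr σ J 2 := SGr.mk' X h.sg h.dm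

theorem SGr.ln (l : SGr σ J 2) : Ln (hf σ J) l.S := ⟨l.sing, l.dim⟩

/-- two lines have a common point -/
theorem mt_iff {l l' : SGr σ J 2} : (∃ p : SGr σ J 1, Inc p l ∧ Inc p l') ↔ Mt l.S l'.S := by
  constructor
  · rintro ⟨p, h1, h2⟩
    obtain ⟨v, h0, hv, -⟩ := gen p
    exact ⟨v, h0, h1 hv, h2 hv⟩
  · rintro ⟨v, h0, h1, h2⟩
    exact ⟨mkP v h0 (l.sing v h1 v h1), (inc_iff mem_mkP gen_mkP).2 h1,
      (inc_iff mem_mkP gen_mkP).2 h2⟩

/-- independent generators -/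
theorem li_gen {p p' : SGr σ J 1} (hne : p ≠ p') {v v' : n → k} (h0 : v ≠ 0) (h0' : v' ≠ 0)
    (hv : v ∈ p.S) (hv' : v' ∈ p'.S) (hg : ∀ x ∈ p.S, ∃ a : k, x = a • v)
    (hg' : ∀ x ∈ p'.S, ∃ a : k, x = a • v') : LinearIndependent k ![v, v'] := by
  rw [LinearIndependent.pair_iff]
  intro s t hst
  have hs : s = 0 := by
    by_contra hs
    apply hne
    refine SGr.eq_of_le ((inc_iff hv hg).2 ?_)
    have h3 : s • v = -(t • v') := eq_neg_of_add_eq_zero_left hst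
    have h4 := congrArg (fun v => s⁻¹ • v) h3
    simp only [smul_smul, inv_mul_cancel₀ hs, one_smul, smul_neg] at h4
    rw [h4]
    exact p'.S.neg_mem (p'.S.smul_mem _ hv')
  refine ⟨hs, ?_⟩
  rw [hs, zero_smul, zero_add] at hst
  exact (smul_eq_zero.1 hst).resolve_right h0'

/-- independent vectors of a plane -/
theorem ex2 {X : Submodule k (n → k)} (h2 : finrank k X = 2) :
    ∃ a b, a ∈ X ∧ b ∈ X ∧ LinearIndependent k ![a, b] := by
  haveI := fin_of h2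
  let B := finBasisOfFinrankEq k X h2
  refine ⟨(B 0).1, (B 1).1, (B 0).2, (B 1).2, ?_⟩
  have h := B.linearIndependent.map' X.subtype (Submodule.ker_subtype X)
  have e : (![(B 0).1, (B 1).1] : Fin 2 → n → k) = X.subtype ∘ B := by
    funext i
    fin_cases i <;> rfl
  rw [e]
  exact h

/-- a second vector of a plane -/
theorem ex2' {X : Submodule k (n → k)} (h2 : finrank k X = 2) {a : n → k} (ha : a ∈ X)
    (h0 : a ≠ 0) : ∃ b ∈ X, LinearIndependent k ![a, b] := by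
  have h6 : ¬ X ≤ Submodule.span k {a} := fun h' => by
    have := Submodule.finrank_mono h'
    rw [finrank_span_singleton h0] at this
    omega
  obtain ⟨b, hb, hba⟩ := SetLike.not_le_iff_exists.1 h6
  refine ⟨b, hb, ?_⟩
  rw [LinearIndependent.pair_iff' h0]
  intro c e
  exact hba (Submodule.mem_span_singleton.2 ⟨c, e⟩)

/-- the line of two orthogonal points -/
theorem line_of (w : WF σ ε J) {p p' : SGr σ J 1} (hne : p ≠ p') (h : Col p p') :
    ∃ l : SGr σ J 2, Inc p l ∧ Inc p' l := by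
  obtain ⟨v, h0, hv, hg⟩ := gen p
  obtain ⟨v', h0', hv', hg'⟩ := gen p'
  refine ⟨mkL (pl v v') (ln_pl w.H (li_gen hne h0 h0' hv hv' hg hg') (p.sing v hv v hv)
    (p'.sing v' hv' v' hv') (h v hv v' hv')), (inc_iff hv hg).2 (left_pl _ _),
    (inc_iff hv' hg').2 (right_pl _ _)⟩

/-- the projection of a point on a line -/
theorem proj (w : WF σ ε J) (p : SGr σ J 1) (l : SGr σ J 2) :
    ∃ (q : SGr σ J 1) (m : SGr σ J 2), Inc q l ∧ Inc p m ∧ Inc q m := by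
  by_cases hpl : Inc p l
  · exact ⟨p, l, hpl, hpl, hpl⟩
  obtain ⟨v, h0, hv, hg⟩ := gen p
  obtain ⟨a, b, ha, hb, li⟩ := ex2 l.dim
  obtain ⟨x, hx, hx0, hxv⟩ : ∃ x ∈ l.S, x ≠ 0 ∧ hf σ J x v = 0 := by
    by_cases h1 : hf σ J a v = 0
    · exact ⟨a, ha, li.ne_zero 0, h1⟩
    · refine ⟨hf σ J b v • a + (-(hf σ J a v)) • b, l.S.add_mem (l.S.smul_mem _ ha)
        (l.S.smul_mem _ hb), fun e => h1 ?_, ?_⟩
      · exact neg_eq_zero.1 (LinearIndependent.pair_iff.1 li _ _ e).2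
      · rw [w.H.add, w.H.smul, w.H.smul]; ring
  set q : SGr σ J 1 := mkP x hx0 (l.sing x hx x hx) with hq
  have hql : Inc q l := (inc_iff mem_mkP gen_mkP).2 hx
  have hne : p ≠ q := fun e => hpl (by rw [e]; exact hql)
  obtain ⟨m, h1, h2⟩ := line_of w hne (by
    intro y hy z hz
    obtain ⟨c, rfl⟩ := hg y hy
    obtain ⟨d, rfl⟩ := gen_mkP z hz
    rw [w.H.smul, w.H.smulr, w.H.symm hxv, mul_zero, mul_zero])
  exact ⟨q, m, hql, h1, h2⟩

theorem uniq {p p' : SGr σ J 1} {l l' : SGr σ J 2} (hne : p ≠ p') (h1 : Inc p l) (h2 : Inc p' l)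
    (h3 : Inc p l') (h4 : Inc p' l') : l = l' := by
  obtain ⟨v, h0, hv, hg⟩ := gen p
  obtain ⟨v', h0', hv', hg'⟩ := gen p'
  refine SGr.eq_of_le fun x hx => ?_
  obtain ⟨r, s, rfl⟩ := span2 l.dim (h1 hv) (h2 hv') (li_gen hne h0 h0' hv hv' hg hg') hx
  exact l'.S.add_mem (l'.S.smul_mem _ (h3 hv)) (l'.S.smul_mem _ (h4 hv'))

theorem tri (w : WF σ ε J) {p q q' : SGr σ J 1} {l m m' : SGr σ J 2} (hpl : ¬ Inc p l)
    (h1 : Inc q l) (h2 : Inc p m) (h3 : Inc q m) (h4 : Inc q' l) (h5 : Inc p m')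
    (h6 : Inc q' m') : q = q' := by
  by_contra hne
  obtain ⟨v, h0, hv, hg⟩ := gen p
  obtain ⟨u, u0, hu, hgu⟩ := gen q
  obtain ⟨u', u0', hu', hgu'⟩ := gen q'
  have li := li_gen hne u0 u0' hu hu' hgu hgu'
  haveI := fin_of l.dim
  have hvl : v ∉ l.S := fun h => hpl ((inc_iff hv hg).2 h)
  have h7 : ∀ x ∈ l.S, hf σ J x v = 0 := by
    intro x hx
    obtain ⟨r, s, rfl⟩ := span2 l.dim (h1 hu) (h4 hu') li hx
    rw [w.H.add, w.H.smul, w.H.smul, m.sing u (h3 hu) v (h2 hv), m'.sing u' (h6 hu') v (h5 hv),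
      mul_zero, mul_zero, add_zero]
  have h8 := w.w2 _ (sg_sup w.H l.sing (p.sing v hv v hv) h7)
  rw [finrank_sup_one hvl, l.dim] at h8
  omega

theorem two (w : WF σ ε J) (p : SGr σ J 1) :
    ∃ l l' : SGr σ J 2, l ≠ l' ∧ Inc p l ∧ Inc p l' := by
  obtain ⟨Y, hY, hd⟩ := w.wi.1
  obtain ⟨q, m, h1, h2, h3⟩ := proj w p (SGr.mk' Y hY hd)
  obtain ⟨v, h0, hv, hg⟩ := gen p
  obtain ⟨e', he', li⟩ := ex2' m.dim (h2 hv) h0
  obtain ⟨f, f', g⟩ := ex_hyp w.H w.nd w.tv li (p.sing v hv v hv) (m.sing e' he' e' he')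
    (m.sing v (h2 hv) e' he')
  have o := one_ne_zero (α := k)
  have l2 : LinearIndependent k ![v, f'] := li_of w.H (u := f) (v := e') (by rw [g.ef]; exact o)
    g.f'f (by rw [g.f'e']; exact w.H.eps_ne)
  refine ⟨m, mkL (pl v f') (ln_pl w.H l2 g.ee g.f'f' g.ef'), fun e => ?_, h2,
    (inc_iff hv hg).2 (left_pl _ _)⟩
  have h5 : f' ∈ m.S := by rw [e]; exact right_pl _ _
  have h6 := m.sing f' h5 e' he'
  rw [g.f'e'] at h6
  exact w.H.eps_ne h6

theorem two' (l : SGr σ J 2) : ∃ p p' : SGr σ J 1, p ≠ p' ∧ Inc p l ∧ Inc p' l := by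
  obtain ⟨a, b, ha, hb, li⟩ := ex2 l.dim
  refine ⟨mkP a (li.ne_zero 0) (l.sing a ha a ha), mkP b (li.ne_zero 1) (l.sing b hb b hb),
    fun e => ?_, (inc_iff mem_mkP gen_mkP).2 ha, (inc_iff mem_mkP gen_mkP).2 hb⟩
  have h1 : b ∈ (mkP a (li.ne_zero 0) (l.sing a ha a ha)).S := by rw [e]; exact mem_mkP
  obtain ⟨c, hc⟩ := gen_mkP b h1
  exact (LinearIndependent.pair_iff' (li.ne_zero 0)).1 li c hc.symm

/-- **the source quadrangle** -/
theorem sq (w : WF σ ε J) : SQ (Inc : SGr σ J 1 → SGr σ J 2 → Prop) where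
  uniq p p' l l' hne h1 h2 h3 h4 := uniq hne h1 h2 h3 h4
  proj := proj w
  tri p l q q' m m' h0 h1 h2 h3 h4 h5 h6 := tri w h0 h1 h2 h3 h4 h5 h6
  two := two w
  two' := two'

/-- collinear = orthogonal -/
theorem col_iff (w : WF σ ε J) {p p' : SGr σ J 1} :
    (∃ l : SGr σ J 2, Inc p l ∧ Inc p' l) ↔ Col p p' := by
  constructor
  · rintro ⟨l, h1, h2⟩ x hx y hy
    exact l.sing x (h1 hx) y (h2 hy)
  · intro h
    by_cases hne : p = p'
    · obtain ⟨l, -, -, h1, -⟩ := two w p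
      exact ⟨l, h1, hne ▸ h1⟩
    · exact line_of w hne h

theorem col_gen {p p' : SGr σ J 1} (H : HF σ ε (hf σ J)) {v v' : n → k} (hv : v ∈ p.S)
    (hv' : v' ∈ p'.S) (hg : ∀ x ∈ p.S, ∃ a : k, x = a • v)
    (hg' : ∀ x ∈ p'.S, ∃ a : k, x = a • v') : Col p p' ↔ hf σ J v v' = 0 := by
  constructor
  · intro h; exact h v hv v' hv'
  · intro h x hx y hy
    obtain ⟨a, rfl⟩ := hg x hx
    obtain ⟨b, rfl⟩ := hg' y hy
    rw [H.smul, H.smulr, h, mul_zero, mul_zero]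

/-! ### regularity of the target -/

/-- relation of points -/
abbrev RP (p p' : SGr σ J 1) : Prop := ∃ l : SGr σ J 2, Inc p l ∧ Inc p' l

/-- relation of lines -/
abbrev RL (l l' : SGr σ J 2) : Prop := ∃ p : SGr σ J 1, Inc p l ∧ Inc p l'

theorem cf_map {A B : Type*} {R : A → A → Prop} {S : B → B → Prop} {m : ℕ}
    {x c : Fin (m + 1) → A} {x' c' : Fin (m + 1) → B} (h : Cf R x c)
    (xc : ∀ i j, R (x i) (c j) ↔ S (x' i) (c' j)) (xx : ∀ i j, R (x i) (x j) ↔ S (x' i) (x' j))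
    (cc : ∀ i j, R (c i) (c j) ↔ S (c' i) (c' j)) : Cf S x' c' where
  xc i j hij := (xc i j).1 (h.xc i j hij)
  nl e := h.nl ((xc _ _).2 e)
  xx i j hij e := h.xx i j hij ((xx _ _).2 e)
  cc i j hij e := h.cc i j hij ((cc _ _).2 e)

theorem reg3L (w : WF σ ε J) (hσ : ∀ x, σ x = x) (hε : ε = 1)
    (x c : Fin (2 + 1) → SGr σ J 2) : ¬ Cf RL x c := fun h =>
  reg3_lines w.H w.w2 hσ hε (fun i => (x i).S) (fun i => (c i).S) (fun i => SGr.ln _)
    (fun i => SGr.ln _) (cf_map h (fun _ _ => mt_iff) (fun _ _ => mt_iff) fun _ _ => mt_iff)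

theorem reg4L (w : WF σ ε J) (x c : Fin (3 + 1) → SGr σ J 2) : ¬ Cf RL x c := fun h =>
  reg4_lines w.H w.w2 (fun i => (x i).S) (fun i => (c i).S) (fun i => SGr.ln _)
    (fun i => SGr.ln _) (cf_map h (fun _ _ => mt_iff) (fun _ _ => mt_iff) fun _ _ => mt_iff)

theorem reg3P (w : WF σ ε J) (h4 : Fintype.card n = 4) (x c : Fin (2 + 1) → SGr σ J 1) :
    ¬ Cf RP x c := by
  intro h
  choose v hv0 hv hg using fun i => gen (x i)
  choose u hu0 hu hgu using fun i => gen (c i)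
  have k1 : ∀ i j, RP (x i) (c j) ↔ hf σ J (v i) (u j) = 0 := fun i j =>
    (col_iff w).trans (col_gen w.H (hv i) (hu j) (hg i) (hgu j))
  have k2 : ∀ i j, RP (x i) (x j) ↔ hf σ J (v i) (v j) = 0 := fun i j =>
    (col_iff w).trans (col_gen w.H (hv i) (hv j) (hg i) (hg j))
  have k3 : ∀ i j, RP (c i) (c j) ↔ hf σ J (u i) (u j) = 0 := fun i j =>
    (col_iff w).trans (col_gen w.H (hu i) (hu j) (hgu i) (hgu j))
  refine h.nl ((k1 _ _).2 ?_)
  exact reg3_pts w.H (by rw [finrank_fintype_fun_eq_card, h4])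
    ((x 0).sing _ (hv 0) _ (hv 0)) ((x 1).sing _ (hv 1) _ (hv 1)) ((c 0).sing _ (hu 0) _ (hu 0))
    ((c 1).sing _ (hu 1) _ (hu 1)) (fun e => h.xx 0 1 (by decide) ((k2 _ _).2 e))
    (fun e => h.cc 0 1 (by decide) ((k3 _ _).2 e)) ((k1 _ _).1 (h.xc 0 0 (by decide)))
    ((k1 _ _).1 (h.xc 0 1 (by decide))) ((k1 _ _).1 (h.xc 1 0 (by decide)))
    ((k1 _ _).1 (h.xc 1 1 (by decide))) ((k1 _ _).1 (h.xc 2 0 (by decide)))
    ((k1 _ _).1 (h.xc 2 1 (by decide))) ((k1 _ _).1 (h.xc 0 2 (by decide)))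
    ((k1 _ _).1 (h.xc 1 2 (by decide)))

/-! ### the configurations of the source -/

theorem ex_hyp4 (w : WF σ ε J) : ∃ e f e' f', Hyp ε (hf σ J) e f e' f' := by
  obtain ⟨Y, hY, hd⟩ := w.wi.1
  obtain ⟨a, b, ha, hb, li⟩ := ex2 hd
  obtain ⟨f, f', g⟩ := ex_hyp w.H w.nd w.tv li (hY a ha a ha) (hY b hb b hb) (hY a ha b hb)
  exact ⟨_, _, _, _, g⟩

theorem cfP (w : WF σ ε J) {m : ℕ} (hm : 1 ≤ m) {x c : Fin (m + 1) → n → k}
    (hx : ∀ i, hf σ J (x i) (x i) = 0) (hc : ∀ i, hf σ J (c i) (c i) = 0)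
    (h : Cf (fun v w => hf σ J v w = 0) x c) :
    ∃ x' c' : Fin (m + 1) → SGr σ J 1, Cf RP x' c' := by
  have ne : ∀ i : Fin (m + 1), ∃ j, i ≠ j := by
    intro i
    by_cases hi : i = 0
    · refine ⟨⟨1, by omega⟩, ?_⟩
      rw [hi]
      intro e
      have := congrArg Fin.val e
      simp at this
    · exact ⟨0, hi⟩
  have x0 : ∀ i, x i ≠ 0 := by
    intro i e
    obtain ⟨j, hij⟩ := ne i
    exact h.xx i j hij (by show hf σ J (x i) (x j) = 0; rw [e, w.H.zero_l])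
  have c0 : ∀ i, c i ≠ 0 := by
    intro i e
    obtain ⟨j, hij⟩ := ne i
    exact h.cc i j hij (by show hf σ J (c i) (c j) = 0; rw [e, w.H.zero_l])
  refine ⟨fun i => mkP (x i) (x0 i) (hx i), fun i => mkP (c i) (c0 i) (hc i), cf_map h ?_ ?_ ?_⟩
  · intro i j
    exact ((col_iff w).trans (col_gen w.H mem_mkP mem_mkP gen_mkP gen_mkP)).symm
  · intro i j
    exact ((col_iff w).trans (col_gen w.H mem_mkP mem_mkP gen_mkP gen_mkP)).symm
  · intro i j
    exact ((col_iff w).trans (col_gen w.H mem_mkP mem_mkP gen_mkP gen_mkP)).symm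

theorem conf3P (w : WF σ ε J) (h5 : 4 < Fintype.card n) :
    ∃ x c : Fin (2 + 1) → SGr σ J 1, Cf RP x c := by
  obtain ⟨e, f, e', f', g⟩ := ex_hyp4 w
  obtain ⟨z, hz, ze, zf, ze', zf'⟩ := ex_w w.H w.w2 (by rw [finrank_fintype_fun_eq_card]; exact h5) g
  obtain ⟨β, hβ⟩ := w.tv z
  obtain ⟨x, c, hx, hc, hcf⟩ := conf3 w.H g ze zf ze' zf' hβ hz
  exact cfP w (by omega) hx hc hcf

theorem conf4P (w : WF σ ε J) (h5 : 4 < Fintype.card n) {y : k} (hy : σ y ≠ ε * y) :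
    ∃ x c : Fin (3 + 1) → SGr σ J 1, Cf RP x c := by
  obtain ⟨e, f, e', f', g⟩ := ex_hyp4 w
  obtain ⟨z, hz, ze, zf, ze', zf'⟩ := ex_w w.H w.w2 (by rw [finrank_fintype_fun_eq_card]; exact h5) g
  obtain ⟨β, hβ⟩ := w.tv z
  -- `κ = σ y - ε y`
  obtain ⟨x, c, hx, hc, hcf⟩ := conf4 w.H g ze zf ze' zf' hβ hz (κ := σ y - ε * y)
    (sub_ne_zero.2 hy) (by
      rw [map_sub, map_mul, w.H.inv, w.H.seps]
      linear_combination (-y) * w.H.eps)
  exact cfP w (by omega) hx hc hcf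

theorem confL3 (w : WF σ ε J) {y : k} (hy : σ y ≠ ε * y) :
    ∃ x c : Fin (2 + 1) → SGr σ J 2, Cf RL x c := by
  obtain ⟨e, f, e', f', g⟩ := ex_hyp4 w
  obtain ⟨x, c, hx, hc, hcf⟩ := confL w.H g hy
  exact ⟨fun i => mkL (x i) (hx i), fun i => mkL (c i) (hc i),
    cf_map hcf (fun i j => (mt_iff (l := mkL (x i) (hx i)) (l' := mkL (c j) (hc j))).symm)
      (fun i j => (mt_iff (l := mkL (x i) (hx i)) (l' := mkL (x j) (hx j))).symm)
      fun i j => (mt_iff (l := mkL (c i) (hc i)) (l' := mkL (c j) (hc j))).symm⟩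

end alg

section top

variable {n : Type} [Fintype n] [DecidableEq n] {k : Type} [NontriviallyNormedField k]
  {σ : k →+* k} {ε : k} {J : Matrix n n k}

/-- **the target quadrangle** -/
theorem tq (w : WF σ ε J) : TQ (Inc : SGr σ J 1 → SGr σ J 2 → Prop) where
  closed := inc_closed
  uniq x x' y y' hne h1 h2 h3 h4 := uniq hne h1 h2 h3 h4
  tri x x' z nn m m' hz h1 h2 h3 h4 h5 h6 := tri w hz h5 h2 h1 h6 h4 h3

end top

end Vale.Agent.P092.H820.P3
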