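import Vale.Agent.P092.H820.P3Cf

/-!
P092 (helper820), row [P3-FLIP], part 4: the configuration of lines.
-/

set_option linter.all false

open Module

namespace Vale.Agent.P092.H820.P3

variable {k V : Type*} [Field k] [AddCommGroup V] [Module k V]
  {σ : k →+* k} {ε : k} {h : V → V → k}

/-- the plane of two vectors -/
def pl (a b : V) : Submodule k V := Submodule.span k {a, b}

theorem mem_pl {a b z : V} : z ∈ (pl a b : Submodule k V) ↔ ∃ r s : k, z = r • a + s • b := by
  unfold pl
  rw [Submodule.mem_span_pair]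
  constructor
  · rintro ⟨r, s, e⟩; exact ⟨r, s, e.symm⟩
  · rintro ⟨r, s, e⟩; exact ⟨r, s, e.symm⟩

theorem left_pl (a b : V) : a ∈ (pl a b : Submodule k V) := Submodule.subset_span (by simp)

theorem right_pl (a b : V) : b ∈ (pl a b : Submodule k V) := Submodule.subset_span (by simp)

theorem ln_pl (H : HF σ ε h) {a b : V} (li : LinearIndependent k ![a, b]) (aa : h a a = 0)
    (bb : h b b = 0) (ab : h a b = 0) : Ln h (pl a b) where
  sg := by
    intro x hx y hy
    obtain ⟨p, q, rfl⟩ := mem_pl.1 hx
    obtain ⟨r, s, rfl⟩ := mem_pl.1 hy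
    simp only [H.add, H.addr, H.smul, H.smulr, aa, bb, ab, H.symm ab, mul_zero, add_zero]
  dm := by
    have e : Set.range ![a, b] = {a, b} := by
      rw [Matrix.range_cons, Matrix.range_cons, Matrix.range_empty, Set.union_empty,
        Set.singleton_union]
    have := finrank_span_eq_card li
    rw [e, Fintype.card_fin] at this
    exact this

/-- independence from two functionals -/
theorem li_of (H : HF σ ε h) {a b u v : V} (h1 : h a u ≠ 0) (h2 : h b u = 0) (h3 : h b v ≠ 0) :
    LinearIndependent k ![a, b] := by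
  rw [LinearIndependent.pair_iff]
  intro s t hst
  have f1 := congrArg (fun z => h z u) hst
  simp only [H.add, H.smul, H.zero_l, h2, mul_zero, add_zero] at f1
  have hs : s = 0 := (mul_eq_zero.1 f1).resolve_right h1
  have f2 := congrArg (fun z => h z v) hst
  simp only [H.add, H.smul, H.zero_l, hs, zero_mul, zero_add] at f2
  exact ⟨hs, (mul_eq_zero.1 f2).resolve_right h3⟩

/-- the coordinates of a combination -/
theorem cf_zero (H : HF σ ε h) {e f e' f' : V} (g : Hyp ε h e f e' f') {a b c d : k}
    (hz : a • e + b • f + c • e' + d • f' = 0) : a = 0 ∧ b = 0 ∧ c = 0 ∧ d = 0 := by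
  have f1 := congrArg (fun v => h v e) hz
  have f2 := congrArg (fun v => h v f) hz
  have f3 := congrArg (fun v => h v e') hz
  have f4 := congrArg (fun v => h v f') hz
  simp only [H.add, H.smul, H.zero_l, g.ee, g.fe, g.e'e, g.f'e, g.ef, g.ff, g.e'f, g.f'f, g.ee',
    g.fe', g.e'e', g.f'e', g.ef', g.ff', g.e'f', g.f'f', mul_zero, mul_one, add_zero,
    zero_add] at f1 f2 f3 f4
  exact ⟨f2, (mul_eq_zero.1 f1).resolve_right H.eps_ne, f4,
    (mul_eq_zero.1 f3).resolve_right H.eps_ne⟩

/-- **configuration of lines, order three** -/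
theorem confL (H : HF σ ε h) {e f e' f' : V} (g : Hyp ε h e f e' f') {y : k}
    (hy : σ y ≠ ε * y) :
    ∃ x c : Fin (2 + 1) → Submodule k V, (∀ i, Ln h (x i)) ∧ (∀ i, Ln h (c i)) ∧
      Cf (Mt (k := k) (V := V)) x c := by
  have y0 : y ≠ 0 := by rintro rfl; apply hy; rw [map_zero, mul_zero]
  have sy0 : σ y ≠ 0 := by rwa [Ne, map_eq_zero]
  have o := one_ne_zero (α := k)
  have e0 := H.eps_ne
  -- values
  have v1 : h (e + f') f = 1 := by rw [H.add, g.ef, g.f'f, add_zero]
  have v2 : h (e' + (-ε) • f) f = 0 := by rw [H.add, H.smul, g.e'f, g.ff, mul_zero, add_zero]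
  have v3 : h (e' + (-ε) • f) f' = 1 := by rw [H.add, H.smul, g.e'f', g.ff', mul_zero, add_zero]
  have v4 : h (e + y • e') f = 1 := by rw [H.add, H.smul, g.ef, g.e'f, mul_zero, add_zero]
  have v5 : h (σ y • f + (-1 : k) • f') f = 0 := by
    rw [H.add, H.smul, H.smul, g.ff, g.f'f, mul_zero, mul_zero, add_zero]
  have v6 : h (σ y • f + (-1 : k) • f') e' ≠ 0 := by
    rw [H.add, H.smul, H.smul, g.fe', g.f'e', mul_zero, zero_add]
    exact mul_ne_zero (neg_ne_zero.2 o) e0
  refine ⟨![pl e e', pl f f', pl (e + f') (e' + (-ε) • f)],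
    ![pl e f', pl e' f, pl (e + y • e') (σ y • f + (-1 : k) • f')], ?_, ?_, ?_, ?_, ?_, ?_⟩
  · intro i
    fin_cases i
    · exact ln_pl H (li_of H (u := f) (v := f') (by rw [g.ef]; exact o) g.e'f
        (by rw [g.e'f']; exact o)) g.ee g.e'e' g.ee'
    · exact ln_pl H (li_of H (u := e) (v := e') (by rw [g.fe]; exact e0) g.f'e
        (by rw [g.f'e']; exact e0)) g.ff g.f'f' g.ff'
    · refine ln_pl H (li_of H (u := f) (v := f') (by rw [v1]; exact o) v2
        (by rw [v3]; exact o)) ?_ ?_ ?_
      · simp only [H.add, H.addr, g.ee, g.ef', g.f'e, g.f'f', add_zero]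
      · simp only [H.add, H.addr, H.smul, H.smulr, g.e'e', g.e'f, g.fe', g.ff, mul_zero, add_zero]
      · simp only [H.add, H.addr, H.smul, H.smulr, g.ee', g.ef, g.f'e', g.f'f, map_neg, H.seps]
        ring
  · intro i
    fin_cases i
    · exact ln_pl H (li_of H (u := f) (v := e') (by rw [g.ef]; exact o) g.f'f
        (by rw [g.f'e']; exact e0)) g.ee g.f'f' g.ef'
    · exact ln_pl H (li_of H (u := f') (v := e) (by rw [g.e'f']; exact o) g.ff'
        (by rw [g.fe]; exact e0)) g.e'e' g.ff g.e'f
    · refine ln_pl H (li_of H (u := f) (v := e') (by rw [v4]; exact o) v5 v6) ?_ ?_ ?_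
      · simp only [H.add, H.addr, H.smul, H.smulr, g.ee, g.ee', g.e'e, g.e'e', mul_zero, add_zero]
      · simp only [H.add, H.addr, H.smul, H.smulr, g.ff, g.ff', g.f'f, g.f'f', mul_zero, add_zero]
      · simp only [H.add, H.addr, H.smul, H.smulr, g.ef, g.ef', g.e'f, g.e'f', H.inv, map_neg,
          map_one]
        ring
  · intro i j hij
    fin_cases i <;> fin_cases j
    · exact ⟨e, fun h0 => by have := g.ef; rw [h0, H.zero_l] at this; exact o this.symm,
        left_pl _ _, left_pl _ _⟩
    · exact ⟨e', fun h0 => by have := g.e'f'; rw [h0, H.zero_l] at this; exact o this.symm,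
        right_pl _ _, left_pl _ _⟩
    · exact ⟨e + y • e', fun h0 => by rw [h0, H.zero_l] at v4; exact o v4.symm,
        mem_pl.2 ⟨1, y, by rw [one_smul]⟩, left_pl _ _⟩
    · exact ⟨f', fun h0 => by have := g.f'e'; rw [h0, H.zero_l] at this; exact e0 this.symm,
        right_pl _ _, right_pl _ _⟩
    · exact ⟨f, fun h0 => by have := g.fe; rw [h0, H.zero_l] at this; exact e0 this.symm,
        left_pl _ _, right_pl _ _⟩
    · exact ⟨σ y • f + (-1 : k) • f', fun h0 => by rw [h0, H.zero_l] at v6; exact v6 rfl,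
        mem_pl.2 ⟨_, _, rfl⟩, right_pl _ _⟩
    · exact ⟨e + f', fun h0 => by rw [h0, H.zero_l] at v1; exact o v1.symm,
        left_pl _ _, mem_pl.2 ⟨1, 1, by rw [one_smul, one_smul]⟩⟩
    · exact ⟨e' + (-ε) • f, fun h0 => by rw [h0, H.zero_l] at v3; exact o v3.symm,
        right_pl _ _, mem_pl.2 ⟨1, -ε, by rw [one_smul]⟩⟩
    · rcases hij with h' | h' <;> exact absurd rfl h'
  · rintro ⟨z, z0, hz1, hz2⟩
    obtain ⟨p, q, rfl⟩ := mem_pl.1 hz1
    obtain ⟨r, s, hz⟩ := mem_pl.1 hz2
    obtain ⟨h1, h2, h3, h4⟩ := cf_zero H g (a := p - r) (b := -(ε * q) - s * σ y)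
      (c := q - r * y) (d := p + s) (by
        have : (p - r) • e + (-(ε * q) - s * σ y) • f + (q - r * y) • e' + (p + s) • f' =
          (p • (e + f') + q • (e' + (-ε) • f)) - (r • (e + y • e') +
            s • (σ y • f + (-1 : k) • f')) := by
          module
        rw [this, ← hz, sub_self])
    have hr : r = p := (sub_eq_zero.1 h1).symm
    have hs : s = -p := by linear_combination h4
    have hq : q = p * y := by rw [← hr]; exact sub_eq_zero.1 h3
    rw [hs, hq] at h2
    have h5 : p * (σ y - ε * y) = 0 := by linear_combination h2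
    have hp : p = 0 := (mul_eq_zero.1 h5).resolve_right (sub_ne_zero.2 hy)
    apply z0
    rw [hq, hp, zero_mul, zero_smul, zero_smul, add_zero]
  · have d01 : ¬ Mt (pl e e' : Submodule k V) (pl f f') := by
      rintro ⟨z, z0, hz1, hz2⟩
      obtain ⟨p, q, rfl⟩ := mem_pl.1 hz1
      obtain ⟨r, s, hz⟩ := mem_pl.1 hz2
      obtain ⟨h1, h2, h3, h4⟩ := cf_zero H g (a := p) (b := -r) (c := q) (d := -s) (by
        have : p • e + (-r) • f + q • e' + (-s) • f' = (p • e + q • e') - (r • f + s • f') := by
          module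
        rw [this, ← hz, sub_self])
      apply z0
      rw [h1, h3, zero_smul, zero_smul, add_zero]
    have d02 : ¬ Mt (pl e e' : Submodule k V) (pl (e + f') (e' + (-ε) • f)) := by
      rintro ⟨z, z0, hz1, hz2⟩
      obtain ⟨p, q, rfl⟩ := mem_pl.1 hz1
      obtain ⟨r, s, hz⟩ := mem_pl.1 hz2
      obtain ⟨h1, h2, h3, h4⟩ := cf_zero H g (a := p - r) (b := s * ε) (c := q - s) (d := -r) (by
        have : (p - r) • e + (s * ε) • f + (q - s) • e' + (-r) • f' =
            (p • e + q • e') - (r • (e + f') + s • (e' + (-ε) • f)) := by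
          module
        rw [this, ← hz, sub_self])
      have hr : r = 0 := neg_eq_zero.1 h4
      have hs : s = 0 := (mul_eq_zero.1 h2).resolve_right e0
      apply z0
      rw [hz, hr, hs, zero_smul, zero_smul, add_zero]
    have d12 : ¬ Mt (pl f f' : Submodule k V) (pl (e + f') (e' + (-ε) • f)) := by
      rintro ⟨z, z0, hz1, hz2⟩
      obtain ⟨p, q, rfl⟩ := mem_pl.1 hz1
      obtain ⟨r, s, hz⟩ := mem_pl.1 hz2
      obtain ⟨h1, h2, h3, h4⟩ := cf_zero H g (a := -r) (b := p + s * ε) (c := -s) (d := q - r) (by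
        have : (-r) • e + (p + s * ε) • f + (-s) • e' + (q - r) • f' =
            (p • f + q • f') - (r • (e + f') + s • (e' + (-ε) • f)) := by
          module
        rw [this, ← hz, sub_self])
      have hr : r = 0 := neg_eq_zero.1 h1
      have hs : s = 0 := neg_eq_zero.1 h3
      apply z0
      rw [hz, hr, hs, zero_smul, zero_smul, add_zero]
    intro i j hij
    fin_cases i <;> fin_cases j
    · exact absurd rfl hij
    · exact d01
    · exact d02
    · exact fun m => d01 m.symm
    · exact absurd rfl hij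
    · exact d12
    · exact fun m => d02 m.symm
    · exact fun m => d12 m.symm
    · exact absurd rfl hij
  · have d01 : ¬ Mt (pl e f' : Submodule k V) (pl e' f) := by
      rintro ⟨z, z0, hz1, hz2⟩
      obtain ⟨p, q, rfl⟩ := mem_pl.1 hz1
      obtain ⟨r, s, hz⟩ := mem_pl.1 hz2
      obtain ⟨h1, h2, h3, h4⟩ := cf_zero H g (a := p) (b := -s) (c := -r) (d := q) (by
        have : p • e + (-s) • f + (-r) • e' + q • f' = (p • e + q • f') - (r • e' + s • f) := by
          module
        rw [this, ← hz, sub_self])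
      apply z0
      rw [h1, h4, zero_smul, zero_smul, add_zero]
    have d02 : ¬ Mt (pl e f' : Submodule k V) (pl (e + y • e') (σ y • f + (-1 : k) • f')) := by
      rintro ⟨z, z0, hz1, hz2⟩
      obtain ⟨p, q, rfl⟩ := mem_pl.1 hz1
      obtain ⟨r, s, hz⟩ := mem_pl.1 hz2
      obtain ⟨h1, h2, h3, h4⟩ := cf_zero H g (a := p - r) (b := s * σ y) (c := r * y)
        (d := q + s) (by
        have : (p - r) • e + (s * σ y) • f + (r * y) • e' + (q + s) • f' =
            (p • e + q • f') - (r • (e + y • e') + s • (σ y • f + (-1 : k) • f')) +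
              (2 * s * σ y) • f + (2 * r * y) • e' := by
          module
        rw [this, ← hz, sub_self, zero_add]
        have k1 := congrArg (fun v => h v e) hz
        have k2 := congrArg (fun v => h v f') hz
        simp only [H.add, H.smul, g.ee, g.fe, g.e'e, g.f'e, g.ef', g.ff', g.e'f', g.f'f', mul_zero,
          mul_one, add_zero, zero_add] at k1 k2
        have k3 : s * σ y = 0 := by
          have := (mul_eq_zero.1 ((mul_assoc s (σ y) ε).trans k1.symm)).resolve_right e0
          exact this
        have k4 : r * y = 0 := k2.symm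
        rw [mul_assoc, k3, mul_assoc, k4, mul_zero, zero_smul, zero_smul, add_zero])
      have hr : r = 0 := (mul_eq_zero.1 h3).resolve_right y0
      have hs : s = 0 := (mul_eq_zero.1 h2).resolve_right sy0
      apply z0
      rw [hz, hr, hs, zero_smul, zero_smul, add_zero]
    have d12 : ¬ Mt (pl e' f : Submodule k V) (pl (e + y • e') (σ y • f + (-1 : k) • f')) := by
      rintro ⟨z, z0, hz1, hz2⟩
      obtain ⟨p, q, rfl⟩ := mem_pl.1 hz1
      obtain ⟨r, s, hz⟩ := mem_pl.1 hz2
      obtain ⟨h1, h2, h3, h4⟩ := cf_zero H g (a := -r) (b := q - s * σ y) (c := p - r * y)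
        (d := s) (by
        have : (-r) • e + (q - s * σ y) • f + (p - r * y) • e' + s • f' =
            (p • e' + q • f) - (r • (e + y • e') + s • (σ y • f + (-1 : k) • f')) := by
          module
        rw [this, ← hz, sub_self])
      have hr : r = 0 := neg_eq_zero.1 h1
      apply z0
      rw [hz, hr, h4, zero_smul, zero_smul, add_zero]
    intro i j hij
    fin_cases i <;> fin_cases j
    · exact absurd rfl hij
    · exact d01
    · exact d02
    · exact fun m => d01 m.symm
    · exact absurd rfl hij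
    · exact d12
    · exact fun m => d02 m.symm
    · exact fun m => d12 m.symm
    · exact absurd rfl hij

end Vale.Agent.P092.H820.P3
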