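import Vale.Agent.P092.H820.P3Alg

/-!
P092 (helper820), row [P3-FLIP], part 2: regularity of the lines and of the points.
-/

set_option linter.all false

open Module

namespace Vale.Agent.P092.H820.P3

variable {k V : Type*} [Field k] [AddCommGroup V] [Module k V]
  {σ : k →+* k} {ε : k} {h : V → V → k}

theorem li_of_disj {X M N : Submodule k V} {a b : V} (a0 : a ≠ 0) (b0 : b ≠ 0) (aM : a ∈ M)
    (bN : b ∈ N) (hMN : ¬ Mt M N) : LinearIndependent k ![a, b] := by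
  rw [LinearIndependent.pair_iff]
  intro s t hst
  have hs : s = 0 := by
    by_contra hs
    refine hMN ⟨a, a0, aM, ?_⟩
    have h3 : s • a = -(t • b) := eq_neg_of_add_eq_zero_left hst
    have h4 := congrArg (fun v => s⁻¹ • v) h3
    simp only [smul_smul, inv_mul_cancel₀ hs, one_smul, smul_neg] at h4
    rw [h4]
    exact N.neg_mem (N.smul_mem _ bN)
  refine ⟨hs, ?_⟩
  rw [hs, zero_smul, zero_add] at hst
  exact (smul_eq_zero.1 hst).resolve_right b0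

/-- the data exist -/
theorem gd_of (H : HF σ ε h) {X Y L M N : Submodule k V} (hM : Sg h M) (hN : Sg h N)
    {a₁ a₂ b₁ b₂ : V} (a₁X : a₁ ∈ X) (a₂X : a₂ ∈ X) (b₁Y : b₁ ∈ Y) (b₂Y : b₂ ∈ Y)
    (a₁M : a₁ ∈ M) (b₁M : b₁ ∈ M) (a₂N : a₂ ∈ N) (b₂N : b₂ ∈ N) (a₁0 : a₁ ≠ 0) (a₂0 : a₂ ≠ 0)
    (b₁0 : b₁ ≠ 0) (b₂0 : b₂ ≠ 0) (hMN : ¬ Mt M N) {r s : k} (hr : r ≠ 0) (hs : s ≠ 0)
    (h1 : a₁ + r • b₁ ∈ L) (h2 : a₂ + s • b₂ ∈ L) : Gd h X Y L a₁ a₂ (r • b₁) (s • b₂) where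
  a₁X := a₁X
  a₂X := a₂X
  b₁Y := Y.smul_mem _ b₁Y
  b₂Y := Y.smul_mem _ b₂Y
  c₁L := h1
  c₂L := h2
  z₁ := by rw [H.smulr, hM _ a₁M _ b₁M, mul_zero]
  z₂ := by rw [H.smulr, hN _ a₂N _ b₂N, mul_zero]
  liX := li_of_disj (X := X) a₁0 a₂0 a₁M a₂N hMN
  liY := li_of_disj (X := X) (smul_ne_zero hr b₁0) (smul_ne_zero hs b₂0) (M.smul_mem _ b₁M)
    (N.smul_mem _ b₂N) hMN

/-- **lines are regular** for a symmetric form -/
theorem reg3_lines (H : HF σ ε h) (hw : W2 h) (hσ : ∀ x, σ x = x) (hε : ε = 1)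
    (x c : Fin (2 + 1) → Submodule k V) (hx : ∀ i, Ln h (x i)) (hc : ∀ i, Ln h (c i))
    (hcf : Cf (Mt (k := k) (V := V)) x c) : False := by
  have hXY : ¬ Mt (x 0) (x 1) := hcf.xx 0 1 (by decide)
  have hMN : ¬ Mt (c 0) (c 1) := hcf.cc 0 1 (by decide)
  have hLX : ¬ Mt (x 2) (x 0) := hcf.xx 2 0 (by decide)
  have hLY : ¬ Mt (x 2) (x 1) := hcf.xx 2 1 (by decide)
  have hop : ∀ a ∈ x 0, a ≠ 0 → ∃ d ∈ x 1, h a d ≠ 0 := fun a ha h0 =>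
    opp H hw (hx 1) (hx 0).sg hXY ha h0
  obtain ⟨a₁, b₁, a₁0, b₁0, a₁X, b₁Y, a₁M, b₁M, -, sp₁⟩ := ex_tr (hc 0).dm hXY
    (hcf.xc 0 0 (by decide)) (hcf.xc 1 0 (by decide))
  obtain ⟨a₂, b₂, a₂0, b₂0, a₂X, b₂Y, a₂N, b₂N, -, sp₂⟩ := ex_tr (hc 1).dm hXY
    (hcf.xc 0 1 (by decide)) (hcf.xc 1 1 (by decide))
  obtain ⟨a, b, a0, b0, aX, bY, aM, bM, -, sp⟩ := ex_tr (hc 2).dm hXY
    (hcf.xc 0 2 (by decide)) (hcf.xc 1 2 (by decide))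
  obtain ⟨r, hr, hrL⟩ := ex_third hLX hLY a₁X b₁Y a₁0 b₁0 sp₁ (hcf.xc 2 0 (by decide))
  obtain ⟨s, hs, hsL⟩ := ex_third hLX hLY a₂X b₂Y a₂0 b₂0 sp₂ (hcf.xc 2 1 (by decide))
  have g := gd_of H (hc 0).sg (hc 1).sg a₁X a₂X b₁Y b₂Y a₁M b₁M a₂N b₂N a₁0 a₂0 b₁0 b₂0 hMN hr hs
    hrL hsL
  obtain ⟨p, q, rfl⟩ := span2 (hx 0).dm a₁X a₂X g.liX aX
  have hv := g.val H (hx 0).sg (hx 1).sg (hx 2).sg p q
  rw [hσ, hσ, hσ, hε] at hv
  have hv' : h (p • a₁ + q • a₂) (p • (r • b₁) + q • (s • b₂)) = 0 := by rw [hv]; ring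
  exact hcf.nl (meet H (hx 1) hXY hop (hc 2).sg aX a0 bY b0 aM bM
    ((x 1).add_mem ((x 1).smul_mem _ g.b₁Y) ((x 1).smul_mem _ g.b₂Y)) (g.mem p q) hv')

/-- **lines are regular of order four**, any form -/
theorem reg4_lines (H : HF σ ε h) (hw : W2 h)
    (x c : Fin (3 + 1) → Submodule k V) (hx : ∀ i, Ln h (x i)) (hc : ∀ i, Ln h (c i))
    (hcf : Cf (Mt (k := k) (V := V)) x c) : False := by
  have hXY : ¬ Mt (x 0) (x 1) := hcf.xx 0 1 (by decide)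
  have hMN : ¬ Mt (c 0) (c 1) := hcf.cc 0 1 (by decide)
  have hLX : ¬ Mt (x 2) (x 0) := hcf.xx 2 0 (by decide)
  have hLY : ¬ Mt (x 2) (x 1) := hcf.xx 2 1 (by decide)
  have hLX' : ¬ Mt (x 3) (x 0) := hcf.xx 3 0 (by decide)
  have hLY' : ¬ Mt (x 3) (x 1) := hcf.xx 3 1 (by decide)
  have hop : ∀ a ∈ x 0, a ≠ 0 → ∃ d ∈ x 1, h a d ≠ 0 := fun a ha h0 =>
    opp H hw (hx 1) (hx 0).sg hXY ha h0
  obtain ⟨a₁, b₁, a₁0, b₁0, a₁X, b₁Y, a₁M, b₁M, -, sp₁⟩ := ex_tr (hc 0).dm hXY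
    (hcf.xc 0 0 (by decide)) (hcf.xc 1 0 (by decide))
  obtain ⟨a₂, b₂, a₂0, b₂0, a₂X, b₂Y, a₂N, b₂N, -, sp₂⟩ := ex_tr (hc 1).dm hXY
    (hcf.xc 0 1 (by decide)) (hcf.xc 1 1 (by decide))
  obtain ⟨a, b, a0, b0, aX, bY, aM, bM, -, sp⟩ := ex_tr (hc 2).dm hXY
    (hcf.xc 0 2 (by decide)) (hcf.xc 1 2 (by decide))
  obtain ⟨a', b', a0', b0', aX', bY', aM', bM', -, sp'⟩ := ex_tr (hc 3).dm hXY
    (hcf.xc 0 3 (by decide)) (hcf.xc 1 3 (by decide))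
  obtain ⟨r, hr, hrL⟩ := ex_third hLX hLY a₁X b₁Y a₁0 b₁0 sp₁ (hcf.xc 2 0 (by decide))
  obtain ⟨s, hs, hsL⟩ := ex_third hLX hLY a₂X b₂Y a₂0 b₂0 sp₂ (hcf.xc 2 1 (by decide))
  obtain ⟨r', hr', hrL'⟩ := ex_third hLX' hLY' a₁X b₁Y a₁0 b₁0 sp₁ (hcf.xc 3 0 (by decide))
  obtain ⟨s', hs', hsL'⟩ := ex_third hLX' hLY' a₂X b₂Y a₂0 b₂0 sp₂ (hcf.xc 3 1 (by decide))
  have g := gd_of H (hc 0).sg (hc 1).sg a₁X a₂X b₁Y b₂Y a₁M b₁M a₂N b₂N a₁0 a₂0 b₁0 b₂0 hMN hr hs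
    hrL hsL
  have g' := gd_of H (hc 0).sg (hc 1).sg a₁X a₂X b₁Y b₂Y a₁M b₁M a₂N b₂N a₁0 a₂0 b₁0 b₂0 hMN
    hr' hs' hrL' hsL'
  obtain ⟨p, q, rfl⟩ := span2 (hx 0).dm a₁X a₂X g.liX aX
  obtain ⟨p', q', rfl⟩ := span2 (hx 0).dm a₁X a₂X g.liX aX'
  have t0 : h a₁ (s • b₂) ≠ 0 := g.ne H (hx 1) hop
  have e1 := g.of_meet H hLX hLY bY b0 a0 ((hc 2).sg _ aM _ bM) sp (hcf.xc 2 2 (by decide))
  have e2 := g'.of_meet H hLX' hLY' bY b0 a0 ((hc 2).sg _ aM _ bM) sp (hcf.xc 3 2 (by decide))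
  have e3 := g.of_meet H hLX hLY bY' b0' a0' ((hc 3).sg _ aM' _ bM') sp' (hcf.xc 2 3 (by decide))
  rw [g.val H (hx 0).sg (hx 1).sg (hx 2).sg] at e1 e3
  rw [g'.val H (hx 0).sg (hx 1).sg (hx 3).sg] at e2
  have hp : p ≠ 0 := by
    rintro rfl
    refine hcf.cc 2 1 (by decide) ⟨_, a0, aM, ?_⟩
    rw [zero_smul, zero_add]
    exact (c 1).smul_mem _ a₂N
  have hq : q ≠ 0 := by
    rintro rfl
    refine hcf.cc 2 0 (by decide) ⟨_, a0, aM, ?_⟩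
    rw [zero_smul, add_zero]
    exact (c 0).smul_mem _ a₁M
  set t := h a₁ (s • b₂) with ht
  set t' := h a₁ (s' • b₂) with ht'
  have hσ : ∀ {z : k}, z ≠ 0 → σ z ≠ 0 := fun hz => by rwa [Ne, map_eq_zero]
  have e4 : t' * σ t = t * σ t' := by
    have h1 : p * σ q * t' * (ε * (q * σ p * σ t)) = p * σ q * t * (ε * (q * σ p * σ t')) := by
      linear_combination (ε * (q * σ p * σ t)) * e2 - (ε * (q * σ p * σ t')) * e1
    have h2 : (p * σ q * ε * q * σ p) * (t' * σ t) = (p * σ q * ε * q * σ p) * (t * σ t') := by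
      linear_combination h1
    exact mul_left_cancel₀ (mul_ne_zero (mul_ne_zero (mul_ne_zero (mul_ne_zero hp (hσ hq))
      H.eps_ne) hq) (hσ hp)) h2
  have e5 : p' * σ q' * t' - ε * (q' * σ p' * σ t') = 0 := by
    have h1 : σ t * (p' * σ q' * t' - ε * (q' * σ p' * σ t')) = 0 := by
      linear_combination (p' * σ q') * e4 + σ t' * e3
    exact (mul_eq_zero.1 h1).resolve_left (hσ t0)
  rw [← g'.val H (hx 0).sg (hx 1).sg (hx 3).sg] at e5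
  exact hcf.nl (meet H (hx 1) hXY hop (hc 3).sg aX' a0' bY' b0' aM' bM'
    ((x 1).add_mem ((x 1).smul_mem _ g'.b₁Y) ((x 1).smul_mem _ g'.b₂Y)) (g'.mem p' q') e5)

/-- **points are regular** in dimension four -/
theorem reg3_pts (H : HF σ ε h) (h4 : finrank k V = 4) {x₁ x₂ x₃ c₁ c₂ c₃ : V}
    (ix₁ : h x₁ x₁ = 0) (ix₂ : h x₂ x₂ = 0) (ic₁ : h c₁ c₁ = 0) (ic₂ : h c₂ c₂ = 0)
    (nx : h x₁ x₂ ≠ 0) (nc : h c₁ c₂ ≠ 0) (e11 : h x₁ c₁ = 0) (e12 : h x₁ c₂ = 0)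
    (e21 : h x₂ c₁ = 0) (e22 : h x₂ c₂ = 0) (e31 : h x₃ c₁ = 0) (e32 : h x₃ c₂ = 0)
    (e13 : h x₁ c₃ = 0) (e23 : h x₂ c₃ = 0) : h x₃ c₃ = 0 := by
  haveI : FiniteDimensional k V := FiniteDimensional.of_finrank_pos (by rw [h4]; norm_num)
  have hσ : ∀ {z : k}, z ≠ 0 → σ z ≠ 0 := fun hz => by rwa [Ne, map_eq_zero]
  have key : ∀ α β γ δ : k, α • x₁ + β • x₂ + γ • c₁ + δ • c₂ = 0 → 
      α = 0 ∧ β = 0 ∧ γ = 0 ∧ δ = 0 := by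
    intro α β γ δ e
    have f1 := congrArg (fun v => h v x₁) e
    have f2 := congrArg (fun v => h v x₂) e
    have f3 := congrArg (fun v => h v c₁) e
    have f4 := congrArg (fun v => h v c₂) e
    simp only [H.add, H.smul, H.zero_l, ix₁, ix₂, ic₁, ic₂, e11, e12, e21, e22, H.symm e11,
      H.symm e12, H.symm e21, H.symm e22, mul_zero, add_zero, zero_add] at f1 f2 f3 f4
    exact ⟨(mul_eq_zero.1 f2).resolve_right nx, (mul_eq_zero.1 f1).resolve_right (H.ne nx),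
      (mul_eq_zero.1 f4).resolve_right nc, (mul_eq_zero.1 f3).resolve_right (H.ne nc)⟩
  have li : LinearIndependent k ![x₁, x₂, c₁, c₂] := by
    rw [Fintype.linearIndependent_iff]
    intro g hg
    simp only [Fin.sum_univ_four, Matrix.cons_val_zero, Matrix.cons_val_one,
      Matrix.cons_val] at hg
    obtain ⟨h1, h2, h3, h4⟩ := key _ _ _ _ hg
    intro i
    fin_cases i
    · exact h1
    · exact h2
    · exact h3
    · exact h4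
  have hsp : Submodule.span k (Set.range ![x₁, x₂, c₁, c₂]) = ⊤ := by
    refine Submodule.eq_top_of_finrank_eq ?_
    rw [finrank_span_eq_card li, h4, Fintype.card_fin]
  have hx3 : x₃ ∈ Submodule.span k (Set.range ![x₁, x₂, c₁, c₂]) := by rw [hsp]; trivial
  obtain ⟨g, hg⟩ := (Submodule.mem_span_range_iff_exists_fun k).1 hx3
  simp only [Fin.sum_univ_four, Matrix.cons_val_zero, Matrix.cons_val_one,
      Matrix.cons_val] at hg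
  rw [← hg] at e31 e32
  simp only [H.add, H.smul, ic₁, ic₂, e11, e12, e21, e22, mul_zero, add_zero, zero_add] at e31 e32
  have g3 : g 3 = 0 := (mul_eq_zero.1 e31).resolve_right (H.ne nc)
  have g2 : g 2 = 0 := (mul_eq_zero.1 e32).resolve_right nc
  rw [← hg, g2, g3, zero_smul, zero_smul, add_zero, add_zero, H.add, H.smul, H.smul, e13, e23,
    mul_zero, mul_zero, add_zero]

end Vale.Agent.P092.H820.P3
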