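import Vale.Agent.P092.H820.Normal

/-!
P092 (helper820), stage (S), block [S8]: the trace formula for injective `*`-homomorphisms of `L(Λ)`
onto a corner, `Λ` with infinite nontrivial conjugacy classes.
-/

namespace Vale.Agent.P092.H820
open Vale.Agent.P092.H160 Vale.Agent.P092.H108
open Filter Topology ContinuousLinearMap
open scoped InnerProductSpace ComplexOrder

section general

variable {H K : Type*} [NormedAddCommGroup H] [InnerProductSpace ℂ H] [CompleteSpace H]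
  [NormedAddCommGroup K] [InnerProductSpace ℂ K] [CompleteSpace K]
variable {M : StarSubalgebra ℂ (H →L[ℂ] H)} {N : StarSubalgebra ℂ (K →L[ℂ] K)}
  {θ : M →⋆ₙₐ[ℂ] (K →L[ℂ] K)}

omit [CompleteSpace K] in
theorem sum_inner_sq_le {J : Type} [Fintype J] (f : J → K) (hf : ∀ j, ‖f j‖ = 1) (T : K →L[ℂ] K) :
    ‖∑ j, inner ℂ (f j) (T (f j))‖ ^ 2 ≤ Fintype.card J * ∑ j, ‖T (f j)‖ ^ 2 := by
  have h1 : ‖∑ j, inner ℂ (f j) (T (f j))‖ ≤ ∑ j, ‖T (f j)‖ := by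
    refine (norm_sum_le _ _).trans (Finset.sum_le_sum fun j _ => ?_)
    refine (norm_inner_le_norm _ _).trans ?_
    rw [hf, one_mul]
  have h2 : (∑ j, ‖T (f j)‖) ^ 2 ≤ Fintype.card J * ∑ j, ‖T (f j)‖ ^ 2 := by
    have := sq_sum_le_card_mul_sum_sq (s := (Finset.univ : Finset J)) (f := fun j => ‖T (f j)‖)
    rwa [Finset.card_univ] at this
  exact (pow_le_pow_left₀ (norm_nonneg _) h1 2).trans h2

theorem trace_aux (hM : CC M) (hN : CC N) (hθ : Corner M N θ) (e : H)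
    (he : ∀ T ∈ M, T e = 0 → T = 0) {J : Type} [Fintype J] (f : J → K) (hf : ∀ j, ‖f j‖ = 1)
    {G : Type*} [Group G] (U : G → M) (hU : ∀ g, star (U g) * U g = 1)
    (hUU : ∀ g h, U (g * h) = U g * U h)
    (W : G → H → H) (hWc : ∀ g, Continuous (W g)) (hWn : ∀ g x, ‖W g x‖ ≤ ‖x‖)
    (hWE : ∀ g, ∀ y : M, W g ((y : H →L[ℂ] H) e) = ((U g * y * star (U g) : M) : H →L[ℂ] H) e)
    (hW0 : ∀ ζ, (∀ g, W g ζ = ζ) → inner ℂ e ζ = 0 → ζ = 0)
    (htr : ∀ x y : K →L[ℂ] K, x ∈ N → y ∈ N → ∑ j, inner ℂ (f j) ((x * y) (f j)) =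
      ∑ j, inner ℂ (f j) ((y * x) (f j)))
    (T : M) (hT1 : ‖(T : H →L[ℂ] H)‖ ≤ 1)
    (hT0 : ∀ g, inner ℂ e (((U g * T * star (U g) : M) : H →L[ℂ] H) e) = 0) :
    ∑ j, inner ℂ (f j) (θ T (f j)) = 0 := by
  by_contra hne
  obtain ⟨cj, hcj⟩ : ∃ cj : G → (H →L[ℂ] H) →ₗ[ℝ] (H →L[ℂ] H),
      cj = fun g => cjR (U g : H →L[ℂ] H) (star (U g : H →L[ℂ] H)) := ⟨_, rfl⟩
  have hcje : ∀ g (y : M), cj g (y : H →L[ℂ] H) = ((U g * y * star (U g) : M) : H →L[ℂ] H) := by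
    intro g y
    rw [hcj]
    rfl
  have hcc : ∀ g h x, cj g (cj h x) = cj (g * h) x := by
    intro g h x
    rw [hcj]
    change (U g : H →L[ℂ] H) * ((U h : H →L[ℂ] H) * x * star (U h : H →L[ℂ] H)) *
      star (U g : H →L[ℂ] H) = (U (g * h) : H →L[ℂ] H) * x * star (U (g * h) : H →L[ℂ] H)
    rw [hUU]
    change _ = ((U g : H →L[ℂ] H) * (U h : H →L[ℂ] H)) * x *
      star ((U g : H →L[ℂ] H) * (U h : H →L[ℂ] H))
    rw [star_mul]
    simp only [mul_assoc]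
  obtain ⟨C, hC⟩ : ∃ C : Set (H →L[ℂ] H),
    C = convexHull ℝ (Set.range fun g => cj g (T : H →L[ℂ] H)) := ⟨_, rfl⟩
  have hUn : ∀ g, ‖(U g : H →L[ℂ] H)‖ ≤ 1 := by
    intro g
    have h1 : star (U g : H →L[ℂ] H) * (U g : H →L[ℂ] H) = 1 := congrArg Subtype.val (hU g)
    have h2 : ‖(U g : H →L[ℂ] H)‖ * ‖(U g : H →L[ℂ] H)‖ ≤ 1 := by
      rw [← CStarRing.norm_star_mul_self, h1]
      exact ContinuousLinearMap.norm_id_le
    nlinarith [norm_nonneg (U g : H →L[ℂ] H)]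
  -- properties of the elements of the hull
  have hP : ∀ y ∈ C, ∃ hy : y ∈ M, ‖y‖ ≤ 1 ∧ ∑ j, inner ℂ (f j) (θ ⟨y, hy⟩ (f j)) =
      ∑ j, inner ℂ (f j) (θ T (f j)) ∧ inner ℂ e (y e) = 0 := by
    have hconv : Convex ℝ {y : H →L[ℂ] H | ∃ hy : y ∈ M, ‖y‖ ≤ 1 ∧
        ∑ j, inner ℂ (f j) (θ ⟨y, hy⟩ (f j)) =
      ∑ j, inner ℂ (f j) (θ T (f j)) ∧ inner ℂ e (y e) = 0} := by
      rintro x ⟨hx, hx1, hx2, hx3⟩ y ⟨hy, hy1, hy2, hy3⟩ a b ha hb hab
      have h3 : a • x + b • y = (a : ℂ) • x + (b : ℂ) • y := by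
        simp only [Complex.coe_smul]
      have hmem : a • x + b • y ∈ M := by
        rw [h3]
        exact add_mem (M.smul_mem hx _) (M.smul_mem hy _)
      have hel : (⟨a • x + b • y, hmem⟩ : M) = (a : ℂ) • ⟨x, hx⟩ + (b : ℂ) • ⟨y, hy⟩ := by
        ext1
        exact h3
      refine ⟨hmem, ?_, ?_, ?_⟩
      · calc ‖a • x + b • y‖ ≤ ‖a • x‖ + ‖b • y‖ := norm_add_le _ _
          _ = a * ‖x‖ + b * ‖y‖ := by
              rw [norm_smul, norm_smul, Real.norm_of_nonneg ha, Real.norm_of_nonneg hb]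
          _ ≤ a * 1 + b * 1 := by gcongr
          _ = 1 := by rw [← add_mul, hab, one_mul]
      · rw [hel, map_add, map_smul, map_smul]
        have h4 : ∀ j, inner ℂ (f j) (((a : ℂ) • θ ⟨x, hx⟩ + (b : ℂ) • θ ⟨y, hy⟩) (f j)) =
            (a : ℂ) * inner ℂ (f j) (θ ⟨x, hx⟩ (f j)) +
            (b : ℂ) * inner ℂ (f j) (θ ⟨y, hy⟩ (f j)) := by
          intro j
          change inner ℂ (f j) ((a : ℂ) • (θ ⟨x, hx⟩ (f j)) + (b : ℂ) • (θ ⟨y, hy⟩ (f j))) = _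
          rw [inner_add_right, inner_smul_right, inner_smul_right]
        simp only [h4]
        rw [Finset.sum_add_distrib, ← Finset.mul_sum, ← Finset.mul_sum, hx2, hy2, ← add_mul,
          ← Complex.ofReal_add, hab, Complex.ofReal_one, one_mul]
      · rw [h3]
        change inner ℂ e ((a : ℂ) • (x e) + (b : ℂ) • (y e)) = _
        rw [inner_add_right, inner_smul_right, inner_smul_right, hx3, hy3, mul_zero, mul_zero,
          add_zero]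
    intro y hy
    rw [hC] at hy
    refine convexHull_min ?_ hconv hy
    rintro _ ⟨g, rfl⟩
    have hmem : cj g (T : H →L[ℂ] H) ∈ M := by rw [hcje]; exact SetLike.coe_mem _
    have hel : (⟨cj g (T : H →L[ℂ] H), hmem⟩ : M) = U g * T * star (U g) :=
      Subtype.ext (hcje g T)
    refine ⟨hmem, ?_, ?_, ?_⟩
    · rw [hcj]
      change ‖(U g : H →L[ℂ] H) * (T : H →L[ℂ] H) * star (U g : H →L[ℂ] H)‖ ≤ 1
      calc _ ≤ ‖(U g : H →L[ℂ] H) * (T : H →L[ℂ] H)‖ * ‖star (U g : H →L[ℂ] H)‖ := norm_mul_le _ _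
        _ ≤ (‖(U g : H →L[ℂ] H)‖ * ‖(T : H →L[ℂ] H)‖) * ‖star (U g : H →L[ℂ] H)‖ := by
            gcongr
            exact norm_mul_le _ _
        _ ≤ (1 * 1) * 1 := by
            rw [norm_star]
            gcongr
            · exact hUn g
            · exact hUn g
        _ = 1 := by norm_num
    · rw [hel, map_mul, htr _ _ (hθ.mem _) (hθ.mem _), ← map_mul, ← mul_assoc, hU, one_mul]
    · have h5 := hT0 g
      rw [← hcje] at h5
      exact h5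
  have hWE' : ∀ g, ∀ y ∈ C, W g (evalR e y) = evalR e (cj g y) := by
    intro g y hy
    obtain ⟨hy, -⟩ := hP y hy
    have h1 := hWE g ⟨y, hy⟩
    have h2 := hcje g ⟨y, hy⟩
    change W g (y e) = (cj g y) e
    rw [h1]
    exact (DFunLike.congr_fun h2 e).symm
  rw [hC] at hWE'
  obtain ⟨ζ, hζ, hfix⟩ := exists_fixed_hull (evalR e) cj (T : H →L[ℂ] H) hcc W hWc hWn hWE'
  rw [← hC] at hζ
  have hζ0 : ζ = 0 := by
    refine hW0 ζ hfix ?_
    have hcl : IsClosed {ξ : H | inner ℂ e ξ = 0} := isClosed_eq (by fun_prop) continuous_const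
    refine closure_minimal ?_ hcl hζ
    rintro _ ⟨y, hy, rfl⟩
    exact (hP y hy).choose_spec.2.2
  rw [hζ0] at hζ
  have hy : ∀ n : ℕ, ∃ y : M, (y : H →L[ℂ] H) ∈ C ∧
      ‖(y : H →L[ℂ] H) e‖ ^ 2 ≤ (1 / 4) ^ n := by
    intro n
    obtain ⟨y, hy, hyn⟩ := exists_small (evalR e) hζ n
    exact ⟨⟨y, (hP y hy).choose⟩, hy, hyn⟩
  choose y hyC hyn using hy
  have hJ : 0 < (Fintype.card J : ℝ) := by
    rw [Nat.cast_pos, Fintype.card_pos_iff]
    by_contra hJ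
    rw [not_nonempty_iff] at hJ
    exact hne (Finset.sum_of_isEmpty _)
  have hpos : 0 < ‖∑ j, inner ℂ (f j) (θ T (f j))‖ ^ 2 / Fintype.card J := by
    have : 0 < ‖∑ j, inner ℂ (f j) (θ T (f j))‖ := norm_pos_iff.2 hne
    positivity
  refine normal_key hM hN hθ e he f y
    (fun n => (hP _ (hyC n)).choose_spec.1) hyn _ hpos fun n => ?_
  obtain ⟨hy1, -, hy2, -⟩ := hP _ (hyC n)
  have h3 : ∀ j, (inner ℂ (f j) (θ (star (y n) * y n) (f j))).re = ‖θ (y n) (f j)‖ ^ 2 := by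
    intro j
    have h3 : inner ℂ (f j) (θ (star (y n) * y n) (f j)) = ((‖θ (y n) (f j)‖ ^ 2 : ℝ) : ℂ) := by
      rw [map_mul, map_star]
      change inner ℂ (f j) ((star (θ (y n))) (θ (y n) (f j))) = _
      rw [← star_apply_inner, star_star, inner_self_eq_norm_sq_to_K]
      norm_cast
    rw [h3, Complex.ofReal_re]
  simp only [h3]
  rw [div_le_iff₀ hJ, mul_comm, ← hy2]
  exact sum_inner_sq_le f hf _

end general

section group

variable {Λ : Type} [Group Λ] {K : Type*} [NormedAddCommGroup K] [InnerProductSpace ℂ K]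
  [CompleteSpace K] {N : StarSubalgebra ℂ (K →L[ℂ] K)} {θ : LG Λ →⋆ₙₐ[ℂ] (K →L[ℂ] K)}

theorem cc_LG : CC (LG Λ) := ⟨_, rfl⟩

theorem tr_corner_aux (hΛ : ∀ g : Λ, g ≠ 1 → Set.Infinite {y : Λ | ∃ h, y = h * g * h⁻¹})
    (hN : CC N) (hθ : Corner (LG Λ) N θ) {J : Type} [Fintype J] (f : J → K)
    (hf : ∀ j, ‖f j‖ = 1)
    (htr : ∀ x y : K →L[ℂ] K, x ∈ N → y ∈ N → ∑ j, inner ℂ (f j) ((x * y) (f j)) =
      ∑ j, inner ℂ (f j) ((y * x) (f j)))
    (T : LG Λ) (h1 : ‖(T : Ell2 Λ →L[ℂ] Ell2 Λ)‖ ≤ 1) (h0 : tr T = 0) :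
    ∑ j, inner ℂ (f j) (θ T (f j)) = 0 := by
  refine trace_aux cc_LG hN hθ (dl 1) (fun T hT h => eq_zero_of_dl hT h) f hf
    (G := Λ) uu star_uu_mul (fun g h => ?_) (fun g x => lam g (H108.rho g x))
    (fun g => (lam g).continuous.comp (H108.rho g).continuous)
    (fun g x => le_of_eq ((H108.norm_rei _ _).trans (H108.norm_rei _ _))) (fun g y => ?_)
    (fun ζ hζ hζ1 => fixed_eq_zero hΛ hζ ((H108.inner_dl 1 ζ).symm.trans hζ1))
    htr T h1 (fun g => ?_)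
  · ext1
    change lam (g * h) = lam g * lam h
    ext ξ x
    simp [mul_assoc]
  · change lam g (H108.rho g ((y : Ell2 Λ →L[ℂ] Ell2 Λ) (dl 1))) =
      lam g ((y : Ell2 Λ →L[ℂ] Ell2 Λ) ((star (lam g) : Ell2 Λ →L[ℂ] Ell2 Λ) (dl 1)))
    have h3 : (y : Ell2 Λ →L[ℂ] Ell2 Λ) (H108.rho g (dl 1)) =
      H108.rho g ((y : Ell2 Λ →L[ℂ] Ell2 Λ) (dl 1)) := DFunLike.congr_fun (mem_LG_rho y.2 g) _
    rw [H108.star_lam, ← h3, H108.rho_dl, H108.lam_dl, one_mul, mul_one]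
  · change tr (uu g * T * star (uu g)) = 0
    rw [tr_comm, ← mul_assoc, star_uu_mul, one_mul, h0]

/-- The trace formula. -/
theorem tr_corner (hΛ : ∀ g : Λ, g ≠ 1 → Set.Infinite {y : Λ | ∃ h, y = h * g * h⁻¹})
    (hN : CC N) (hθ : Corner (LG Λ) N θ) {J : Type} [Fintype J] (f : J → K)
    (hf : ∀ j, ‖f j‖ = 1)
    (htr : ∀ x y : K →L[ℂ] K, x ∈ N → y ∈ N → ∑ j, inner ℂ (f j) ((x * y) (f j)) =
      ∑ j, inner ℂ (f j) ((y * x) (f j))) (T : LG Λ) :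
    ∑ j, inner ℂ (f j) (θ T (f j)) = (∑ j, inner ℂ (f j) (θ 1 (f j))) * tr T := by
  obtain ⟨S, hS⟩ : ∃ S : LG Λ, S = T - tr T • 1 := ⟨_, rfl⟩
  have hS0 : tr S = 0 := by
    rw [hS, sub_eq_add_neg, ← neg_one_smul ℂ (tr T • (1 : LG Λ)), tr_add, tr_smul, tr_smul, tr_one]
    ring
  obtain ⟨c, hc⟩ : ∃ c : ℝ, c = (‖(S : Ell2 Λ →L[ℂ] Ell2 Λ)‖ + 1)⁻¹ := ⟨_, rfl⟩
  have hn : 0 < ‖(S : Ell2 Λ →L[ℂ] Ell2 Λ)‖ + 1 := by positivity
  have hc0 : 0 < c := by rw [hc]; positivity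
  have h1 := tr_corner_aux hΛ hN hθ f hf htr ((c : ℂ) • S) (by
    change ‖(c : ℂ) • (S : Ell2 Λ →L[ℂ] Ell2 Λ)‖ ≤ 1
    rw [norm_smul, Complex.norm_real, Real.norm_of_nonneg hc0.le, hc, inv_mul_le_iff₀ hn]
    linarith) (by rw [tr_smul, hS0, mul_zero])
  have h2 : ∑ j, inner ℂ (f j) (θ S (f j)) = 0 := by
    rw [map_smul] at h1
    have h4 : ∀ j, inner ℂ (f j) (((c : ℂ) • θ S) (f j)) = (c : ℂ) * inner ℂ (f j) (θ S (f j)) := by
      intro j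
      change inner ℂ (f j) ((c : ℂ) • (θ S (f j))) = _
      rw [inner_smul_right]
    simp only [h4] at h1
    rw [← Finset.mul_sum, mul_eq_zero] at h1
    rcases h1 with h1 | h1
    · exact absurd (Complex.ofReal_eq_zero.1 h1) hc0.ne'
    · exact h1
  have h3 : T = S + tr T • 1 := by rw [hS]; abel
  have h4 : ∀ j, inner ℂ (f j) (θ T (f j)) = inner ℂ (f j) (θ S (f j)) +
      tr T * inner ℂ (f j) (θ 1 (f j)) := by
    intro j
    conv_lhs => rw [h3]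
    rw [map_add, map_smul]
    change inner ℂ (f j) (θ S (f j) + tr T • (θ 1 (f j))) = _
    rw [inner_add_right, inner_smul_right]
  simp only [h4]
  rw [Finset.sum_add_distrib, h2, zero_add, ← Finset.mul_sum, mul_comm]

end group

end Vale.Agent.P092.H820
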