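import Vale.Agent.P092.H820.WInstA
import Vale.Agent.P092.H515.RkDef
import Vale.Agent.P092.H933.LocF

/-!
P092 (helper820), Team W, row [W-INST]: the instances for the two (equal) classes of local fields.
-/

set_option linter.all false

namespace Vale.Agent.P092.H820.WI

open Vale.Agent.P092.H767 (IsPsi IsChi)

variable {F : Type} [NontriviallyNormedField F] [ProperSpace F]

theorem psi_loc (hF : H933.LocK F) : ∃ ψ : F → ℂ, IsPsi ψ := by
  rcases hF with ⟨φ, h⟩ | ⟨φ, h⟩ | h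
  · exact psi_arch ((algebraMap ℝ ℂ).comp (φ : F →+* ℝ)) fun x => by simp [← h]
  · exact psi_arch (φ : F →+* ℂ) h
  · exact psi_ultra F

theorem psi_loc' (hF : H515.St.LocK F) : ∃ ψ : F → ℂ, IsPsi ψ := by
  rcases hF with ⟨φ, h⟩ | ⟨φ, h⟩ | h
  · exact psi_arch ((algebraMap ℝ ℂ).comp (φ : F →+* ℝ)) fun x => by simp [← h]
  · exact psi_arch (φ : F →+* ℂ) h
  · exact psi_ultra F

variable [MeasurableSpace F] [BorelSpace F]

theorem chi_loc (hF : H933.LocK F) : ∃ χ : ℕ × ℕ → F → ℂ, IsChi χ := by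
  rcases hF with ⟨φ, h⟩ | ⟨φ, h⟩ | h
  · exact chi_arch ((algebraMap ℝ ℂ).comp (φ : F →+* ℝ)) fun x => by simp [← h]
  · exact chi_arch (φ : F →+* ℂ) h
  · exact chi_ultra F

theorem chi_loc' (hF : H515.St.LocK F) : ∃ χ : ℕ × ℕ → F → ℂ, IsChi χ := by
  rcases hF with ⟨φ, h⟩ | ⟨φ, h⟩ | h
  · exact chi_arch ((algebraMap ℝ ℂ).comp (φ : F →+* ℝ)) fun x => by simp [← h]
  · exact chi_arch (φ : F →+* ℂ) h
  · exact chi_ultra F

end Vale.Agent.P092.H820.WI
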