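import Vale.Agent.P092.H767.WLaw

/-!
P092 (helper820), Team W, row [W-INST]: every local field has a nontrivial continuous additive
character and a countable separating family of multiplicative characters.
-/

set_option linter.all false

open MeasureTheory Topology Filter Set

namespace Vale.Agent.P092.H820.WI

open Vale.Agent.P092.H767 (IsPsi IsChi)

/-! ### Characters of discrete abelian groups -/

/-- `ℚ/ℤ` in the circle -/
noncomputable def e0 : ℚ →+ Additive Circle where
  toFun q := Additive.ofMul (Circle.exp (q * (2 * Real.pi)))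
  map_zero' := by simp
  map_add' a b := by
    rw [← ofMul_mul, ← Circle.exp_add]
    congr 2
    push_cast
    ring

theorem e0_zero {q : ℚ} : e0 q = 0 ↔ ∃ n : ℤ, q = n := by
  change Additive.ofMul (Circle.exp ((q : ℝ) * (2 * Real.pi))) = 0 ↔ _
  rw [ofMul_eq_zero, Circle.exp_eq_one]
  refine exists_congr fun n => ?_
  have h : (2 * Real.pi) ≠ 0 := by positivity
  rw [mul_left_inj' h]
  exact_mod_cast Iff.rfl

noncomputable def e1 : AddCircle (1 : ℚ) →+ Additive Circle :=
  QuotientAddGroup.lift _ e0 fun x hx => by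
    obtain ⟨n, rfl⟩ := AddSubgroup.mem_zmultiples_iff.1 hx
    exact e0_zero.2 ⟨n, by simp⟩

theorem e1_ne {x : AddCircle (1 : ℚ)} (hx : x ≠ 0) : e1 x ≠ 0 := by
  obtain ⟨q, rfl⟩ := QuotientAddGroup.mk_surjective x
  intro h
  apply hx
  obtain ⟨n, hn⟩ := e0_zero.1 (show e0 q = 0 from h)
  refine (QuotientAddGroup.eq_zero_iff _).2 (AddSubgroup.mem_zmultiples_iff.2 ⟨n, ?_⟩)
  rw [hn]
  simp

/-- characters of an abelian group separate the points off a subgroup -/
theorem exists_add {A : Type*} [AddCommGroup A] (O : AddSubgroup A) {x : A} (hx : x ∉ O) :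
    ∃ f : A →+ Additive Circle, (∀ y ∈ O, f y = 0) ∧ f x ≠ 0 := by
  have h1 : (QuotientAddGroup.mk x : A ⧸ O) ≠ 0 := fun h =>
    hx ((QuotientAddGroup.eq_zero_iff _).1 h)
  obtain ⟨c, hc⟩ := CharacterModule.exists_character_apply_ne_zero_of_ne_zero h1
  refine ⟨e1.comp ((c : A ⧸ O →+ AddCircle (1 : ℚ)).comp (QuotientAddGroup.mk' O)), fun y hy => ?_,
    e1_ne hc⟩
  have h2 : (QuotientAddGroup.mk' O) y = 0 := (QuotientAddGroup.eq_zero_iff _).2 hy
  change e1 (c (QuotientAddGroup.mk' O y)) = 0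
  rw [h2, map_zero, map_zero]

theorem exists_mul {A : Type*} [CommGroup A] (O : Subgroup A) {x : A} (hx : x ∉ O) :
    ∃ f : A →* Circle, (∀ y ∈ O, f y = 1) ∧ f x ≠ 1 := by
  obtain ⟨f, h1, h2⟩ := exists_add (A := Additive A) (Subgroup.toAddSubgroup O)
    (x := Additive.ofMul x) hx
  exact ⟨⟨⟨fun a => (f (Additive.ofMul a)).toMul, by simp⟩, fun a b => by simp⟩,
    fun y hy => by
      have h3 : f (Additive.ofMul y) = 0 := h1 _ hy
      change (f (Additive.ofMul y)).toMul = 1
      rw [h3]; rfl, fun h => h2 h⟩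

section ultra

variable {F : Type*} [NontriviallyNormedField F] [ProperSpace F] [IsUltrametricDist F]

variable (F) in
/-- **an additive character of an ultrametric field** -/
theorem psi_ultra : ∃ ψ : F → ℂ, IsPsi ψ := by
  have hO : ∀ {x y : F}, ‖x‖ ≤ 1 → ‖y‖ ≤ 1 → ‖x + y‖ ≤ 1 := fun hx hy =>
    (IsUltrametricDist.norm_add_le_max _ _).trans (max_le hx hy)
  let O : AddSubgroup F :=
    { carrier := {x | ‖x‖ ≤ 1}
      add_mem' := fun hx hy => hO hx hy
      zero_mem' := by simp
      neg_mem' := fun {x} hx => by simpa using hx }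
  obtain ⟨x, hx⟩ := NormedField.exists_one_lt_norm F
  obtain ⟨f, h1, h2⟩ := exists_add O (x := x) (fun h => absurd hx (not_lt.2 h))
  refine ⟨fun y => ((f y).toMul : Circle), ?_, fun a b => ?_, fun a => Circle.norm_coe _,
    x, fun h => h2 ?_⟩
  · refine continuous_iff_continuousAt.2 fun y => ?_
    have h3 : ∀ᶠ z in 𝓝 y, f z = f y := by
      filter_upwards [Metric.closedBall_mem_nhds y one_pos] with z hz
      have h4 : f (z - y) = 0 := h1 _ (by
        change ‖z - y‖ ≤ 1
        rwa [← dist_eq_norm])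
      rw [map_sub, sub_eq_zero] at h4
      exact h4
    refine (tendsto_const_nhds (x := (((f y).toMul : Circle) : ℂ))).congr' ?_
    filter_upwards [h3] with z hz
    rw [hz]
  · change (((f (a + b)).toMul : Circle) : ℂ) = _
    rw [map_add, toMul_add, Circle.coe_mul]
  · have h3 : (f x).toMul = 1 := Circle.ext (by simpa using h)
    exact h3

/-- the subgroups `1 + 𝔪^m` of the multiplicative group -/
def U1 (m : ℕ) : Subgroup Fˣ where
  carrier := {u | ‖(u : F) - 1‖ ≤ (1 / 2) ^ (m + 1)}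
  mul_mem' := fun {a b} ha hb => by
    have h0 : ((1 : ℝ) / 2) ^ (m + 1) ≤ 1 := pow_le_one₀ (by norm_num) (by norm_num)
    have h1 : ‖(a : F)‖ ≤ 1 := by
      have := IsUltrametricDist.norm_add_le_max ((a : F) - 1) 1
      rw [sub_add_cancel] at this
      exact this.trans (max_le (ha.trans h0) (by simp))
    change ‖((a * b : Fˣ) : F) - 1‖ ≤ _
    have h2 : ((a * b : Fˣ) : F) - 1 = (a : F) * ((b : F) - 1) + ((a : F) - 1) := by
      push_cast; ring
    rw [h2]
    refine (IsUltrametricDist.norm_add_le_max _ _).trans (max_le ?_ ha)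
    rw [norm_mul]
    calc ‖(a : F)‖ * ‖(b : F) - 1‖ ≤ 1 * ‖(b : F) - 1‖ :=
          mul_le_mul_of_nonneg_right h1 (norm_nonneg _)
      _ ≤ _ := by rw [one_mul]; exact hb
  one_mem' := by
    change ‖((1 : Fˣ) : F) - 1‖ ≤ _
    simp
  inv_mem' := fun {a} ha => by
    have h0 : ((1 : ℝ) / 2) ^ (m + 1) < 1 := pow_lt_one₀ (by norm_num) (by norm_num) (by omega)
    have h1 : ‖(a : F)‖ = 1 := by
      have h3 : ‖(a : F) - 1‖ < ‖(1 : F)‖ := by
        rw [norm_one]
        exact lt_of_le_of_lt ha h0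
      have h4 := IsUltrametricDist.norm_eq_of_add_norm_lt_max (x := (a : F) - 1) (y := 1)
      have h5 := IsUltrametricDist.norm_add_eq_max_of_norm_ne_norm (x := (a : F) - 1) (y := 1)
        h3.ne
      rw [sub_add_cancel, max_eq_right h3.le, norm_one] at h5
      exact h5
    change ‖((a⁻¹ : Fˣ) : F) - 1‖ ≤ _
    have h2 : ((a⁻¹ : Fˣ) : F) - 1 = -((a⁻¹ : Fˣ) : F) * ((a : F) - 1) := by
      have h6 : ((a⁻¹ : Fˣ) : F) * (a : F) = 1 := a.inv_mul
      rw [mul_sub, mul_one, neg_mul, h6]; ring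
    rw [h2, norm_mul, norm_neg]
    have h7 : ‖((a⁻¹ : Fˣ) : F)‖ = 1 := by
      rw [Units.val_inv_eq_inv_val, norm_inv, h1, inv_one]
    rw [h7, one_mul]
    exact ha

theorem mem_U1 {m : ℕ} {u : Fˣ} : u ∈ (U1 m : Subgroup Fˣ) ↔ ‖(u : F) - 1‖ ≤ (1 / 2) ^ (m + 1) :=
  Iff.rfl

variable [MeasurableSpace F] [BorelSpace F]

/-- a unitary character of `Fˣ` which is trivial on `1 + 𝔪^m`, extended by `0` -/
noncomputable def ex (f : Fˣ →* Circle) (x : F) : ℂ := by
  classical
  exact if hx : x = 0 then 0 else ((f (Units.mk0 x hx) : Circle) : ℂ)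

theorem ex_ne (f : Fˣ →* Circle) {x : F} (hx : x ≠ 0) :
    ex f x = ((f (Units.mk0 x hx) : Circle) : ℂ) := by
  rw [ex, dif_neg hx]

theorem ex_zero (f : Fˣ →* Circle) : ex f (0 : F) = 0 := by
  rw [ex, dif_pos rfl]

theorem ex_mul (f : Fˣ →* Circle) (x y : F) : ex f (x * y) = ex f x * ex f y := by
  by_cases hx : x = 0
  · rw [hx, zero_mul, ex_zero, zero_mul]
  by_cases hy : y = 0
  · rw [hy, mul_zero, ex_zero, mul_zero]
  rw [ex_ne f (mul_ne_zero hx hy), ex_ne f hx, ex_ne f hy, ← Circle.coe_mul, ← map_mul]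
  congr 2
  ext
  rfl

theorem ex_nrm (f : Fˣ →* Circle) {x : F} (hx : x ≠ 0) : ‖ex f x‖ = 1 := by
  rw [ex_ne f hx]
  exact Circle.norm_coe _

theorem ex_near (f : Fˣ →* Circle) {m : ℕ} (hf : ∀ u ∈ (U1 m : Subgroup Fˣ), f u = 1) {x y : F}
    (hx : x ≠ 0) (h : ‖y - x‖ ≤ (1 / 2) ^ (m + 1) * ‖x‖) : ex f y = ex f x := by
  have h0 : ((1 : ℝ) / 2) ^ (m + 1) < 1 := pow_lt_one₀ (by norm_num) (by norm_num) (by omega)
  have hx0 : 0 < ‖x‖ := norm_pos_iff.2 hx
  have hy : y ≠ 0 := by
    rintro rfl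
    rw [zero_sub, norm_neg] at h
    nlinarith
  have h1 : y = x * (y / x) := by field_simp
  have hu : y / x ≠ 0 := div_ne_zero hy hx
  rw [h1, ex_mul, ex_ne f hu, hf _ (mem_U1.2 ?_), Circle.coe_one, mul_one]
  change ‖y / x - 1‖ ≤ _
  rw [show y / x - 1 = (y - x) / x by field_simp, norm_div, div_le_iff₀ hx0]
  exact h

theorem ex_ms (f : Fˣ →* Circle) {m : ℕ} (hf : ∀ u ∈ (U1 m : Subgroup Fˣ), f u = 1) :
    Measurable (ex f) := by
  refine measurable_of_continuousOn_compl_singleton 0 fun x hx => ?_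
  have hx : x ≠ 0 := hx
  refine ContinuousAt.continuousWithinAt ?_
  refine (tendsto_const_nhds (x := ex f x)).congr' ?_
  have hx0 : 0 < (1 / 2) ^ (m + 1) * ‖x‖ := mul_pos (by positivity) (norm_pos_iff.2 hx)
  filter_upwards [Metric.closedBall_mem_nhds x hx0] with z hz
  exact (ex_near f hf hx (by rwa [← dist_eq_norm])).symm

open Classical in
/-- the countable family -/
noncomputable def chf (m : ℕ) (u : Fˣ) : Fˣ →* Circle :=
  if h : u ∈ (U1 m : Subgroup Fˣ) then 1 else (exists_mul (U1 m : Subgroup Fˣ) h).choose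

theorem chf_one (m : ℕ) (u : Fˣ) : ∀ v ∈ (U1 m : Subgroup Fˣ), chf m u v = 1 := by
  intro v hv
  rw [chf]
  split_ifs with h
  · rfl
  · exact (exists_mul (U1 m : Subgroup Fˣ) h).choose_spec.1 v hv

theorem chf_ne {m : ℕ} {u : Fˣ} (h : u ∉ (U1 m : Subgroup Fˣ)) : chf m u u ≠ 1 := by
  rw [chf, dif_neg h]
  exact (exists_mul (U1 m : Subgroup Fˣ) h).choose_spec.2

variable (F) in
/-- **a countable separating family of multiplicative characters of an ultrametric field** -/
theorem chi_ultra : ∃ χ : ℕ × ℕ → F → ℂ, IsChi χ := by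
  classical
  let d : ℕ → F := TopologicalSpace.denseSeq F
  let w : ℕ → Fˣ := fun i => if h : d i = 0 then 1 else Units.mk0 (d i) h
  refine ⟨fun j => ex (chf j.1 (w j.2)), fun j => ex_ms _ (chf_one _ _), fun j x y => ex_mul _ _ _,
    fun j x hx => ex_nrm _ hx, fun j => ex_zero _, fun x y h => ?_, inferInstance⟩
  by_contra hxy
  by_cases hx : x = 0
  · have h1 := h (0, 0)
    subst hx
    have hy : y ≠ 0 := fun h => hxy h.symm
    have h2 := ex_nrm (chf 0 (w 0)) hy
    change ex (chf 0 (w 0)) 0 = ex (chf 0 (w 0)) y at h1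
    rw [← h1, ex_zero, norm_zero] at h2
    exact zero_ne_one h2
  by_cases hy : y = 0
  · have h1 := h (0, 0)
    subst hy
    have h2 := ex_nrm (chf 0 (w 0)) hx
    change ex (chf 0 (w 0)) x = ex (chf 0 (w 0)) 0 at h1
    rw [h1, ex_zero, norm_zero] at h2
    exact zero_ne_one h2
  -- the quotient is not `1`
  have hq : x / y ≠ 0 := div_ne_zero hx hy
  have hq1 : x / y - 1 ≠ 0 := fun h => hxy ((div_eq_one_iff_eq hy).1 (sub_eq_zero.1 h))
  obtain ⟨m, hm⟩ : ∃ m : ℕ, ((1 : ℝ) / 2) ^ (m + 1) < ‖x / y - 1‖ := by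
    obtain ⟨m, hm⟩ := exists_pow_lt_of_lt_one (norm_pos_iff.2 hq1) (by norm_num : (1 : ℝ) / 2 < 1)
    exact ⟨m, lt_of_le_of_lt (pow_le_pow_of_le_one (by norm_num) (by norm_num) (by omega)) hm⟩
  have hr : 0 < ((1 : ℝ) / 2) ^ (m + 1) * ‖x / y‖ := mul_pos (by positivity) (norm_pos_iff.2 hq)
  obtain ⟨i, hi⟩ : ∃ i, dist (x / y) (d i) < (1 / 2) ^ (m + 1) * ‖x / y‖ :=
    (TopologicalSpace.denseRange_denseSeq F).exists_dist_lt (x / y) hr
  rw [dist_comm, dist_eq_norm] at hi
  have h0 : ((1 : ℝ) / 2) ^ (m + 1) < 1 := pow_lt_one₀ (by norm_num) (by norm_num) (by omega)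
  have hd : d i ≠ 0 := by
    intro h3
    rw [h3, zero_sub, norm_neg] at hi
    have := norm_pos_iff.2 hq
    nlinarith
  have hw : w i = Units.mk0 (d i) hd := dif_neg hd
  -- the character at `(m, i)`
  have h1 : ex (chf m (w i)) (x / y) = 1 := by
    have h3 := h (m, i)
    change ex (chf m (w i)) x = ex (chf m (w i)) y at h3
    have h4 : x = x / y * y := by field_simp
    rw [h4, ex_mul] at h3
    have h5 : ex (chf m (w i)) y ≠ 0 := fun h6 => by
      have := ex_nrm (chf m (w i)) hy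
      rw [h6, norm_zero] at this
      exact zero_ne_one this
    exact (mul_eq_right₀ h5).1 h3
  have h2 : ex (chf m (w i)) (d i) = 1 := by
    rw [← h1]
    exact ex_near _ (chf_one _ _) hq hi.le
  have h3 : w i ∉ (U1 m : Subgroup Fˣ) := by
    rw [mem_U1, hw]
    change ¬ ‖d i - 1‖ ≤ _
    intro h4
    have h6 : ‖d i‖ ≤ 1 := by
      have := IsUltrametricDist.norm_add_le_max (d i - 1) 1
      rw [sub_add_cancel] at this
      exact this.trans (max_le (h4.trans h0.le) (by simp))
    have h7 : ‖x / y‖ ≤ 1 := by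
      have h8 := IsUltrametricDist.norm_add_le_max (d i) (-(d i - x / y))
      rw [show d i + -(d i - x / y) = x / y by ring, norm_neg] at h8
      rcases le_max_iff.1 h8 with h9 | h9
      · exact h9.trans h6
      · have := norm_pos_iff.2 hq
        nlinarith
    have h5 : ‖x / y - 1‖ ≤ (1 / 2) ^ (m + 1) := by
      have h8 := IsUltrametricDist.norm_add_le_max (-(d i - x / y)) (d i - 1)
      rw [show -(d i - x / y) + (d i - 1) = x / y - 1 by ring, norm_neg] at h8
      refine h8.trans (max_le (hi.le.trans ?_) h4)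
      exact mul_le_of_le_one_right (by positivity) h7
    exact absurd hm (not_lt.2 h5)
  apply chf_ne h3
  rw [ex_ne _ hd, ← hw] at h2
  exact Circle.ext (by simpa using h2)

end ultra

/-! ### The archimedean fields -/

section arch

variable {F : Type*} [NontriviallyNormedField F] (φ : F →+* ℂ) (hφ : ∀ x, ‖φ x‖ = ‖x‖)

include hφ

theorem phi_cont : Continuous φ :=
  (AddMonoidHomClass.isometry_of_norm φ hφ).continuous

/-- an additive character of `ℝ` or `ℂ` -/
theorem psi_arch : ∃ ψ : F → ℂ, IsPsi ψ := by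
  refine ⟨fun x => Complex.exp (((φ x).re : ℂ) * Complex.I), ?_, fun x y => ?_, fun x => ?_, 1, ?_⟩
  · have := phi_cont φ hφ
    fun_prop
  · rw [map_add, Complex.add_re, Complex.ofReal_add, add_mul, Complex.exp_add]
  · exact Complex.norm_exp_ofReal_mul_I _
  · rw [map_one, Complex.one_re]
    intro h
    obtain ⟨n, hn⟩ := Complex.exp_eq_one_iff.1 h
    have h1 : (1 : ℝ) = n * (2 * Real.pi) := by
      have h2 := congrArg Complex.im hn
      simpa using h2
    have h3 : (n : ℝ) * (2 * Real.pi) ≠ 1 := by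
      intro h4
      have h5 : 3 < Real.pi := Real.pi_gt_three
      have h6 : (0 : ℝ) < n := by
        by_contra h7
        push Not at h7
        nlinarith
      have h8 : (1 : ℝ) ≤ n := by
        have h9 : 0 < n := by exact_mod_cast h6
        exact_mod_cast h9
      nlinarith
    exact h3 h1.symm

variable [MeasurableSpace F] [BorelSpace F]

/-- a countable separating family of multiplicative characters of `ℝ` or `ℂ` -/
theorem chi_arch : ∃ χ : ℕ × ℕ → F → ℂ, IsChi χ := by
  classical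
  let c0 : F → ℂ := fun x => φ x * ((‖x‖ : ℝ) : ℂ)⁻¹
  let c1 : ℕ → F → ℂ := fun n x =>
    if x = 0 then 0 else Complex.exp (((Real.log ‖x‖ / (n + 1) : ℝ) : ℂ) * Complex.I)
  have m0 : ∀ x y, c0 (x * y) = c0 x * c0 y := fun x y => by
    simp only [c0]
    rw [map_mul, norm_mul]
    push_cast
    rw [mul_inv]
    ring
  have m1 : ∀ n x y, c1 n (x * y) = c1 n x * c1 n y := fun n x y => by
    simp only [c1]
    by_cases hx : x = 0
    · simp [hx]
    by_cases hy : y = 0
    · simp [hy]
    rw [if_neg (mul_ne_zero hx hy), if_neg hx, if_neg hy, ← Complex.exp_add, norm_mul,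
      Real.log_mul (norm_ne_zero_iff.2 hx) (norm_ne_zero_iff.2 hy)]
    congr 1
    push_cast
    ring
  have n0 : ∀ x, x ≠ 0 → ‖c0 x‖ = 1 := fun x hx => by
    simp only [c0]
    rw [norm_mul, norm_inv, hφ, Complex.norm_real, norm_norm,
      mul_inv_cancel₀ (norm_ne_zero_iff.2 hx)]
  have n1 : ∀ n x, x ≠ 0 → ‖c1 n x‖ = 1 := fun n x hx => by
    simp only [c1]
    rw [if_neg hx]
    exact Complex.norm_exp_ofReal_mul_I _
  have s0 : Measurable c0 := by
    have h1 : Measurable (φ : F → ℂ) := (phi_cont φ hφ).measurable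
    have h2 : Measurable fun x : F => ((‖x‖ : ℝ) : ℂ) :=
      (Complex.continuous_ofReal.comp continuous_norm).measurable
    exact h1.mul h2.inv
  have s1 : ∀ n, Measurable (c1 n) := fun n => by
    refine Measurable.ite (measurableSet_singleton 0) measurable_const ?_
    have h2 : Measurable fun x : F => Real.log ‖x‖ := Real.measurable_log.comp
      continuous_norm.measurable
    have h3 : Measurable fun x : F => ((Real.log ‖x‖ / (n + 1) : ℝ) : ℂ) :=
      Complex.measurable_ofReal.comp (h2.div_const _)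
    exact Complex.measurable_exp.comp (h3.mul_const _)
  refine ⟨fun j => if j.1 = 0 then c0 else c1 j.2, fun j => ?_, fun j x y => ?_, fun j x hx => ?_,
    fun j => ?_, fun x y h => ?_, inferInstance⟩
  · by_cases hj : j.1 = 0
    · rw [if_pos hj]; exact s0
    · rw [if_neg hj]; exact s1 _
  · by_cases hj : j.1 = 0
    · simp only [if_pos hj]; exact m0 x y
    · simp only [if_neg hj]; exact m1 _ x y
  · by_cases hj : j.1 = 0
    · simp only [if_pos hj]; exact n0 x hx
    · simp only [if_neg hj]; exact n1 _ x hx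
  · by_cases hj : j.1 = 0
    · simp only [if_pos hj, c0, map_zero, zero_mul]
    · simp only [if_neg hj, c1, if_true]
  · have h0 : c0 x = c0 y := by simpa using h (0, 0)
    have h1 : ∀ n, c1 n x = c1 n y := fun n => by simpa using h (1, n)
    by_cases hx : x = 0
    · by_contra hxy
      have hy : y ≠ 0 := fun h2 => hxy (hx.trans h2.symm)
      have h2 := n0 y hy
      rw [← h0, hx] at h2
      simp [c0] at h2
    by_cases hy : y = 0
    · have h2 := n0 x hx
      rw [h0, hy] at h2
      simp [c0] at h2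
    -- the norms
    have hn : ‖x‖ = ‖y‖ := by
      by_contra hne
      set t : ℝ := Real.log ‖x‖ - Real.log ‖y‖ with ht
      have ht0 : t ≠ 0 := by
        intro h2
        apply hne
        exact Real.log_injOn_pos (norm_pos_iff.2 hx) (norm_pos_iff.2 hy) (sub_eq_zero.1 h2)
      obtain ⟨n, hn⟩ := exists_nat_gt |t|
      have h2 := h1 n
      simp only [c1] at h2
      rw [if_neg hx, if_neg hy, Complex.exp_eq_exp_iff_exists_int] at h2
      obtain ⟨m, hm⟩ := h2
      have h3 : Real.log ‖x‖ / (n + 1) = Real.log ‖y‖ / (n + 1) + m * (2 * Real.pi) := by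
        have e : ((m : ℂ) * (2 * Real.pi * Complex.I))
            = ((m * (2 * Real.pi) : ℝ) : ℂ) * Complex.I := by push_cast; ring
        rw [e] at hm
        have h4 := congrArg Complex.im hm
        rw [Complex.add_im, Complex.mul_I_im, Complex.mul_I_im, Complex.mul_I_im,
          Complex.ofReal_re, Complex.ofReal_re, Complex.ofReal_re] at h4
        exact h4
      have hn1 : (0 : ℝ) < n + 1 := by positivity
      have h5 : t = m * (2 * Real.pi) * (n + 1) := by
        rw [ht]
        field_simp at h3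
        linarith
      have hm0 : (m : ℝ) ≠ 0 := by
        intro h6
        rw [h6] at h5
        apply ht0
        rw [h5]; ring
      have hm1 : (1 : ℝ) ≤ |(m : ℝ)| := by
        have h7 : m ≠ 0 := by exact_mod_cast hm0
        exact_mod_cast Int.one_le_abs h7
      have h8 : |t| = |(m : ℝ)| * (2 * Real.pi) * (n + 1) := by
        rw [h5, abs_mul, abs_mul, abs_of_pos hn1, abs_of_pos (by positivity : 0 < 2 * Real.pi)]
      have h9 : 3 < Real.pi := Real.pi_gt_three
      have h10 : (n : ℝ) + 1 ≤ |(m : ℝ)| * (2 * Real.pi) * (n + 1) := by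
        have h11 : (1 : ℝ) ≤ |(m : ℝ)| * (2 * Real.pi) := by nlinarith
        nlinarith
      rw [← h8] at h10
      linarith
    simp only [c0] at h0
    rw [hn] at h0
    have h3 : ((‖y‖ : ℝ) : ℂ)⁻¹ ≠ 0 :=
      inv_ne_zero (Complex.ofReal_ne_zero.2 (norm_ne_zero_iff.2 hy))
    exact φ.injective (mul_right_cancel₀ h3 h0)

end arch

end Vale.Agent.P092.H820.WI
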